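import Vale.Agent.P167.Defs

/-!
# P167, SLE_6: strands, loops and charge functionals of a finite domain of squares (definitions)

`D : Finset (ℤ × ℤ)` is a finite set of squares. The medial edges incident to `D` are `eds D`; an edge
enters `D` if only its head square is in `D`, it leaves `D` if only its tail square is in `D`. The orbits
of `nx ω`, cut at the boundary of `D`, are the pieces of `D`: the loops (all edges between two squares of
`D`) and the strands (from an entering to a leaving edge). `p` is a site (on the boundary of `D`), `f` a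
charge on the sites. `Sep D A z z'`: the sites `z`, `z'` are separated by the piece `A` in `D`; the mass of a
piece is the charge of the sites which are separated from `p`.
-/

namespace Vale.Agent.P167.BR

open Finset

/-- The medial edges incident to the squares of `D`. -/
def eds (D : Finset (ℤ × ℤ)) : Finset Ed :=
  D.biUnion fun v => {Sum.inl v, Sum.inl (v.1 - 1, v.2), Sum.inr v, Sum.inr (v.1, v.2 - 1)}

/-- The sites of `D`: the corners of the squares of `D`. -/
def sites (D : Finset (ℤ × ℤ)) : Finset (ℤ × ℤ) :=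
  D.biUnion fun v => {v, (v.1 + 1, v.2), (v.1, v.2 + 1), (v.1 + 1, v.2 + 1)}

/-- Successive edges of a piece of `D`. -/
def Nxt (ω : Cfg) (D : Finset (ℤ × ℤ)) (a b : Ed) : Prop := hdv a ∈ D ∧ b = nx ω a

open Classical in
/-- The piece of `D` which contains the edge `e`. -/
noncomputable def piece (ω : Cfg) (D : Finset (ℤ × ℤ)) (e : Ed) : Finset Ed :=
  (eds D).filter fun e' => Relation.EqvGen (Nxt ω D) e e'

/-- The pieces of `D`. -/
noncomputable def pcs (ω : Cfg) (D : Finset (ℤ × ℤ)) : Finset (Finset Ed) :=
  (eds D).image (piece ω D)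

/-- The piece `A` is a loop. -/
def IsLp (D : Finset (ℤ × ℤ)) (A : Finset Ed) : Prop := ∀ e ∈ A, hdv e ∈ D

/-- `u` is a potential of `A` in `D`: it increases by `1` from the right to the left of every edge of
`A` and does not change across the other edges. -/
def PotD (D : Finset (ℤ × ℤ)) (A : Finset Ed) (u : ℤ × ℤ → ℤ) : Prop :=
  ∀ e ∈ eds D, u (ls e) = u (rs e) + if e ∈ A then 1 else 0

/-- The sites `z` and `z'` are separated by `A` in `D`. -/
def Sep (D : Finset (ℤ × ℤ)) (A : Finset Ed) (z z' : ℤ × ℤ) : Prop :=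
  ∃ u, PotD D A u ∧ u z ≠ u z'

open Classical in
/-- The charge of the sites separated from `p` by the piece `A`. -/
noncomputable def mass (D : Finset (ℤ × ℤ)) (p : ℤ × ℤ) (f : ℤ × ℤ → ℝ) (A : Finset Ed) : ℝ :=
  ∑ z ∈ sites D, if Sep D A z p then f z else 0

/-- The weight of a loop with mass `t`. -/
noncomputable def wl (t : ℝ) : ℝ := Real.cos (Real.pi / 3 + t) / Real.cos (Real.pi / 3)

/-- The weight of a strand with mass `t`. -/
noncomputable def ws (t : ℝ) : ℝ := Real.cos (Real.pi / 6 + t) / Real.cos (Real.pi / 6)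

open Classical in
/-- The weight of the piece `A` with mass `t`. -/
noncomputable def wp (D : Finset (ℤ × ℤ)) (A : Finset Ed) (t : ℝ) : ℝ :=
  if IsLp D A then wl t else ws t

/-- The functional `X_D(f)` with the charge `- ∑ f` at `p`. -/
noncomputable def XD (D : Finset (ℤ × ℤ)) (p : ℤ × ℤ) (f : ℤ × ℤ → ℝ) (ω : Cfg) : ℝ :=
  ∏ A ∈ pcs ω D, wp D A (mass D p f A)

/-- `V_D(f)`. -/
noncomputable def VD (D : Finset (ℤ × ℤ)) (p : ℤ × ℤ) (f : ℤ × ℤ → ℝ) : ℝ :=
  ∫ ω, XD D p f ω ∂μ

end Vale.Agent.P167.BR
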