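import Vale.Agent.P167.Top.Plane
import Vale.Agent.P167.BR.Defs

/-!
# P167, SLE_6: basic calculus of the pieces (strands and loops) of a finite domain of squares
-/

namespace Vale.Agent.P167.BR

open Finset

variable {ω ω' : Cfg} {D D' : Finset (ℤ × ℤ)} {e e' : Ed} {A B : Finset Ed}

/-! ### Edges and sites -/

theorem mem_eds {D : Finset (ℤ × ℤ)} {e : Ed} : e ∈ eds D ↔ hdv e ∈ D ∨ tlv e ∈ D := by
  simp only [eds, mem_biUnion, mem_insert, mem_singleton]
  rcases e with ⟨x, y⟩ | ⟨x, y⟩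
  · constructor
    · rintro ⟨⟨a, b⟩, hv, h⟩
      simp only [Sum.inl.injEq, Prod.mk.injEq, reduceCtorEq, or_false] at h
      by_cases hp : Even (x + y) <;> simp only [hdv, tlv, hp, if_true, if_false]
      · rcases h with ⟨rfl, rfl⟩ | ⟨h1, rfl⟩
        · exact Or.inr hv
        · left; rw [h1]; simpa using hv
      · rcases h with ⟨rfl, rfl⟩ | ⟨h1, rfl⟩
        · exact Or.inl hv
        · right; rw [h1]; simpa using hv
    · intro h
      by_cases hp : Even (x + y) <;> simp only [hdv, tlv, hp, if_true, if_false] at h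
      · rcases h with h | h
        · exact ⟨_, h, by simp⟩
        · exact ⟨_, h, by simp⟩
      · rcases h with h | h
        · exact ⟨_, h, by simp⟩
        · exact ⟨_, h, by simp⟩
  · constructor
    · rintro ⟨⟨a, b⟩, hv, h⟩
      simp only [Sum.inr.injEq, Prod.mk.injEq, reduceCtorEq, false_or] at h
      by_cases hp : Even (x + y) <;> simp only [hdv, tlv, hp, if_true, if_false]
      · rcases h with ⟨rfl, rfl⟩ | ⟨rfl, h1⟩
        · exact Or.inl hv
        · right; rw [h1]; simpa using hv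
      · rcases h with ⟨rfl, rfl⟩ | ⟨rfl, h1⟩
        · exact Or.inr hv
        · left; rw [h1]; simpa using hv
    · intro h
      by_cases hp : Even (x + y) <;> simp only [hdv, tlv, hp, if_true, if_false] at h
      · rcases h with h | h
        · exact ⟨_, h, by simp⟩
        · exact ⟨_, h, by simp⟩
      · rcases h with h | h
        · exact ⟨_, h, by simp⟩
        · exact ⟨_, h, by simp⟩

theorem eds_mono (h : D ⊆ D') : eds D ⊆ eds D' := fun e he => by
  rw [mem_eds] at he ⊢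
  exact he.imp (fun h' => h h') (fun h' => h h')

theorem mem_sites {z : ℤ × ℤ} : z ∈ sites D ↔
    ∃ v ∈ D, (z.1 = v.1 ∨ z.1 = v.1 + 1) ∧ (z.2 = v.2 ∨ z.2 = v.2 + 1) := by
  simp only [sites, mem_biUnion, mem_insert, mem_singleton]
  constructor
  · rintro ⟨v, hv, h⟩
    refine ⟨v, hv, ?_⟩
    rcases h with rfl | rfl | rfl | rfl <;> simp
  · rintro ⟨v, hv, h1, h2⟩
    refine ⟨v, hv, ?_⟩
    rcases z with ⟨a, b⟩
    rcases h1 with h1 | h1 <;> rcases h2 with h2 | h2 <;> simp only at h1 h2 <;>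
      simp [Prod.ext_iff, h1, h2]

theorem sites_mono (h : D ⊆ D') : sites D ⊆ sites D' := fun z hz => by
  rw [mem_sites] at hz ⊢
  obtain ⟨v, hv, h'⟩ := hz
  exact ⟨v, h hv, h'⟩

theorem corner_hd (e : Ed) :
    ((ls e).1 = (hdv e).1 ∨ (ls e).1 = (hdv e).1 + 1) ∧
      ((ls e).2 = (hdv e).2 ∨ (ls e).2 = (hdv e).2 + 1) ∧
      ((rs e).1 = (hdv e).1 ∨ (rs e).1 = (hdv e).1 + 1) ∧
      ((rs e).2 = (hdv e).2 ∨ (rs e).2 = (hdv e).2 + 1) := by
  rcases e with ⟨x, y⟩ | ⟨x, y⟩ <;> by_cases h : Even (x + y) <;>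
    simp [ls, rs, hdv, h]

theorem corner_tl (e : Ed) :
    ((ls e).1 = (tlv e).1 ∨ (ls e).1 = (tlv e).1 + 1) ∧
      ((ls e).2 = (tlv e).2 ∨ (ls e).2 = (tlv e).2 + 1) ∧
      ((rs e).1 = (tlv e).1 ∨ (rs e).1 = (tlv e).1 + 1) ∧
      ((rs e).2 = (tlv e).2 ∨ (rs e).2 = (tlv e).2 + 1) := by
  rcases e with ⟨x, y⟩ | ⟨x, y⟩ <;> by_cases h : Even (x + y) <;>
    simp [ls, rs, tlv, h]

theorem ls_mem_sites (h : e ∈ eds D) : ls e ∈ sites D := by
  rw [mem_sites]
  rcases mem_eds.mp h with h | h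
  · exact ⟨_, h, (corner_hd e).1, (corner_hd e).2.1⟩
  · exact ⟨_, h, (corner_tl e).1, (corner_tl e).2.1⟩

theorem rs_mem_sites (h : e ∈ eds D) : rs e ∈ sites D := by
  rw [mem_sites]
  rcases mem_eds.mp h with h | h
  · exact ⟨_, h, (corner_hd e).2.2.1, (corner_hd e).2.2.2⟩
  · exact ⟨_, h, (corner_tl e).2.2.1, (corner_tl e).2.2.2⟩

theorem nx_mem_eds (h : hdv e ∈ D) : nx ω e ∈ eds D :=
  mem_eds.mpr (Or.inr (by rwa [tlv_nx]))

/-! ### Runs -/

/-- `k` steps of the interface from `e` to `e'` through squares of `D`. -/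
def Run (ω : Cfg) (D : Finset (ℤ × ℤ)) (e : Ed) (k : ℕ) (e' : Ed) : Prop :=
  (nx ω)^[k] e = e' ∧ ∀ j < k, hdv ((nx ω)^[j] e) ∈ D

theorem Run.zero (e : Ed) : Run ω D e 0 e := ⟨rfl, fun _ h => absurd h (Nat.not_lt_zero _)⟩

theorem Run.one (h : hdv e ∈ D) : Run ω D e 1 (nx ω e) :=
  ⟨rfl, fun j hj => by
    have hj0 : j = 0 := by omega
    subst hj0
    exact h⟩

theorem Run.trans {e₁ e₂ e₃ : Ed} {k l : ℕ} (h : Run ω D e₁ k e₂) (h' : Run ω D e₂ l e₃) :
    Run ω D e₁ (k + l) e₃ := by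
  refine ⟨?_, fun j hj => ?_⟩
  · rw [add_comm, Function.iterate_add_apply, h.1, h'.1]
  · by_cases hjk : j < k
    · exact h.2 j hjk
    · have := h'.2 (j - k) (by omega)
      rwa [← h.1, ← Function.iterate_add_apply, Nat.sub_add_cancel (by omega)] at this

/-- Two runs to the same edge. -/
theorem Run.sub {e₁ e₂ e₃ : Ed} {k l : ℕ} (h : Run ω D e₁ k e₃) (h' : Run ω D e₂ l e₃)
    (hkl : l ≤ k) : Run ω D e₁ (k - l) e₂ := by
  refine ⟨?_, fun j hj => h.2 j (by omega)⟩
  have h1 : (nx ω)^[l] ((nx ω)^[k - l] e₁) = (nx ω)^[l] e₂ := by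
    rw [← Function.iterate_add_apply, Nat.add_sub_cancel' hkl, h.1, h'.1]
  exact (s_nx ω).1.iterate l h1

/-- Two runs from the same edge. -/
theorem Run.sub' {e₁ e₂ e₃ : Ed} {k l : ℕ} (h : Run ω D e₁ k e₃) (h' : Run ω D e₁ l e₂)
    (hkl : l ≤ k) : Run ω D e₂ (k - l) e₃ := by
  refine ⟨?_, fun j hj => ?_⟩
  · rw [← h'.1, ← Function.iterate_add_apply, Nat.sub_add_cancel hkl, h.1]
  · have := h.2 (j + l) (by omega)
    rwa [Function.iterate_add_apply, h'.1] at this

theorem eqvGen_iff : Relation.EqvGen (Nxt ω D) e e' ↔ ∃ k, Run ω D e k e' ∨ Run ω D e' k e := by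
  constructor
  · intro h
    induction h with
    | rel a b h =>
      obtain ⟨h1, rfl⟩ := h
      exact ⟨1, Or.inl (Run.one h1)⟩
    | refl a => exact ⟨0, Or.inl (Run.zero a)⟩
    | symm a b _ ih =>
      obtain ⟨k, hk⟩ := ih
      exact ⟨k, hk.symm⟩
    | trans a b c _ _ ih1 ih2 =>
      obtain ⟨k, hk⟩ := ih1
      obtain ⟨l, hl⟩ := ih2
      rcases hk with hk | hk <;> rcases hl with hl | hl
      · exact ⟨_, Or.inl (hk.trans hl)⟩
      · rcases le_total l k with h | h
        · exact ⟨_, Or.inl (hk.sub hl h)⟩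
        · exact ⟨_, Or.inr (hl.sub hk h)⟩
      · rcases le_total l k with h | h
        · exact ⟨_, Or.inr (hk.sub' hl h)⟩
        · exact ⟨_, Or.inl (hl.sub' hk h)⟩
      · exact ⟨_, Or.inr (hl.trans hk)⟩
  · rintro ⟨k, hk⟩
    have key : ∀ (k : ℕ) (a b : Ed), Run ω D a k b → Relation.EqvGen (Nxt ω D) a b := by
      intro k
      induction k with
      | zero =>
        intro a b h
        obtain rfl : a = b := h.1
        exact Relation.EqvGen.refl _
      | succ k ih =>
        intro a b h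
        refine Relation.EqvGen.trans _ _ _ (Relation.EqvGen.rel a (nx ω a) ⟨h.2 0 (by omega), rfl⟩)
          (ih _ _ ⟨?_, fun j hj => ?_⟩)
        · rw [← Function.iterate_succ_apply, h.1]
        · rw [← Function.iterate_succ_apply]
          exact h.2 _ (by omega)
    rcases hk with hk | hk
    · exact key _ _ _ hk
    · exact Relation.EqvGen.symm _ _ (key _ _ _ hk)

/-! ### Pieces -/

theorem mem_piece : e' ∈ piece ω D e ↔ e' ∈ eds D ∧ Relation.EqvGen (Nxt ω D) e e' := by
  simp [piece]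

theorem mem_eds_of_eqvGen (h : Relation.EqvGen (Nxt ω D) e e') : e ∈ eds D ↔ e' ∈ eds D := by
  induction h with
  | rel a b h =>
    obtain ⟨h1, rfl⟩ := h
    exact ⟨fun _ => nx_mem_eds h1, fun _ => mem_eds.mpr (Or.inl h1)⟩
  | refl a => exact Iff.rfl
  | symm a b _ ih => exact ih.symm
  | trans a b c _ _ ih1 ih2 => exact ih1.trans ih2

theorem self_mem_piece (h : e ∈ eds D) : e ∈ piece ω D e :=
  mem_piece.mpr ⟨h, Relation.EqvGen.refl _⟩

theorem piece_eq_of_mem (h : e' ∈ piece ω D e) : piece ω D e' = piece ω D e := by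
  have h1 := (mem_piece.mp h).2
  ext e''
  rw [mem_piece, mem_piece]
  exact and_congr_right fun _ =>
    ⟨fun h2 => h1.trans _ _ _ h2, fun h2 => (h1.symm _ _).trans _ _ _ h2⟩

theorem piece_mem_pcs (h : e ∈ eds D) : piece ω D e ∈ pcs ω D := mem_image_of_mem _ h

theorem exists_of_mem_pcs (h : A ∈ pcs ω D) : ∃ e ∈ eds D, piece ω D e = A := mem_image.mp h

theorem eq_piece_of_mem (h : A ∈ pcs ω D) (he : e ∈ A) : A = piece ω D e := by
  obtain ⟨e0, _, rfl⟩ := exists_of_mem_pcs h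
  exact (piece_eq_of_mem he).symm

theorem subset_eds (h : A ∈ pcs ω D) : A ⊆ eds D := by
  obtain ⟨e0, _, rfl⟩ := exists_of_mem_pcs h
  exact fun e he => (mem_piece.mp he).1

theorem pcs_nonempty (h : A ∈ pcs ω D) : A.Nonempty := by
  obtain ⟨e0, h0, rfl⟩ := exists_of_mem_pcs h
  exact ⟨e0, self_mem_piece h0⟩

theorem eq_of_mem_pcs (hA : A ∈ pcs ω D) (hB : B ∈ pcs ω D) (h1 : e ∈ A) (h2 : e ∈ B) : A = B := by
  rw [eq_piece_of_mem hA h1, eq_piece_of_mem hB h2]

/-- Pieces are invariant under `nx` at the squares of `D`. -/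
theorem nx_mem_iff (h : A ∈ pcs ω D) (he : hdv e ∈ D) : e ∈ A ↔ nx ω e ∈ A := by
  obtain ⟨e0, h0, rfl⟩ := exists_of_mem_pcs h
  rw [mem_piece, mem_piece]
  have h1 : Relation.EqvGen (Nxt ω D) e (nx ω e) := Relation.EqvGen.rel _ _ ⟨he, rfl⟩
  constructor
  · rintro ⟨_, h2⟩
    exact ⟨nx_mem_eds he, h2.trans _ _ _ h1⟩
  · rintro ⟨_, h2⟩
    exact ⟨mem_eds.mpr (Or.inl he), h2.trans _ _ _ (h1.symm _ _)⟩

theorem run_of_mem (h : A ∈ pcs ω D) (he : e ∈ A) (he' : e' ∈ A) :
    ∃ k, Run ω D e k e' ∨ Run ω D e' k e := by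
  rw [eq_piece_of_mem h he] at he'
  exact eqvGen_iff.mp (mem_piece.mp he').2

theorem mem_of_run (h : A ∈ pcs ω D) {k : ℕ} (hr : Run ω D e k e') : e ∈ A ↔ e' ∈ A := by
  have h1 := eqvGen_iff.mpr ⟨k, Or.inl hr⟩
  obtain ⟨e0, h0, rfl⟩ := exists_of_mem_pcs h
  rw [mem_piece, mem_piece, mem_eds_of_eqvGen h1]
  exact and_congr_right fun _ =>
    ⟨fun h2 => h2.trans _ _ _ h1, fun h2 => h2.trans _ _ _ (h1.symm _ _)⟩

/-- A piece has at most one edge which leaves `D`. -/
theorem exit_unique (h : A ∈ pcs ω D) (he : e ∈ A) (he' : e' ∈ A) (h1 : hdv e ∉ D)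
    (h2 : hdv e' ∉ D) : e = e' := by
  obtain ⟨k, hk | hk⟩ := run_of_mem h he he'
  · rcases Nat.eq_zero_or_pos k with rfl | hk0
    · exact hk.1
    · exact absurd (hk.2 0 hk0) h1
  · rcases Nat.eq_zero_or_pos k with rfl | hk0
    · exact hk.1.symm
    · exact absurd (hk.2 0 hk0) h2

/-- A piece has at most one edge which enters `D`. -/
theorem entry_unique (h : A ∈ pcs ω D) (he : e ∈ A) (he' : e' ∈ A) (h1 : tlv e ∉ D)
    (h2 : tlv e' ∉ D) : e = e' := by
  have key : ∀ (a b : Ed) (k : ℕ), Run ω D a k b → tlv b ∉ D → a = b := by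
    intro a b k hk hb
    rcases Nat.eq_zero_or_pos k with rfl | hk0
    · exact hk.1
    · exfalso
      apply hb
      have := hk.2 (k - 1) (by omega)
      rw [← hk.1]
      obtain ⟨m, rfl⟩ : ∃ m, k = m + 1 := ⟨k - 1, by omega⟩
      rw [Function.iterate_succ_apply', tlv_nx]
      simpa using this
  obtain ⟨k, hk | hk⟩ := run_of_mem h he he'
  · exact key _ _ _ hk h2
  · exact (key _ _ _ hk h1).symm

/-- From an edge of `D` the interface leaves `D`, or the piece is a loop. -/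
theorem IsLp.isLoop (h : A ∈ pcs ω D) (hl : IsLp D A) : IsLoop ω A := by
  obtain ⟨e0, he0⟩ := pcs_nonempty h
  have hin : ∀ n : ℕ, (nx ω)^[n] e0 ∈ A := by
    intro n
    induction n with
    | zero => exact he0
    | succ n ih =>
      rw [Function.iterate_succ_apply']
      exact (nx_mem_iff h (hl _ ih)).mp ih
  refine ⟨e0, fun e' => ⟨fun he' => ?_, fun ⟨n, hn⟩ => hn ▸ hin n⟩⟩
  obtain ⟨k, hk | hk⟩ := run_of_mem h he0 he'
  · exact ⟨k, hk.1⟩
  · -- periodic
    obtain ⟨m, n, hmn, h1⟩ : ∃ m n : ℕ, m < n ∧ (nx ω)^[m] e0 = (nx ω)^[n] e0 := by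
      by_contra hcon
      push Not at hcon
      have hinj : Function.Injective fun n : ℕ => (⟨(nx ω)^[n] e0, hin n⟩ : A) := by
        intro m n hmn
        have hmn' : (nx ω)^[m] e0 = (nx ω)^[n] e0 := congrArg Subtype.val hmn
        rcases lt_trichotomy m n with h | h | h
        · exact absurd hmn' (hcon m n h)
        · exact h
        · exact absurd hmn'.symm (hcon n m h)
      exact not_injective_infinite_finite _ hinj
    have hper : (nx ω)^[n - m] e0 = e0 := by
      apply (s_nx ω).1.iterate m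
      rw [← Function.iterate_add_apply, Nat.add_sub_cancel' hmn.le]
      exact h1.symm
    -- `e' = nx^[N] e0` with `N + k` a multiple of the period
    have hperk : ∀ j : ℕ, (nx ω)^[(n - m) * j] e0 = e0 := by
      intro j
      induction j with
      | zero => simp
      | succ j ih => rw [Nat.mul_succ, Function.iterate_add_apply, hper, ih]
    refine ⟨(n - m) * k - k, ?_⟩
    apply (s_nx ω).1.iterate k
    rw [hk.1, ← Function.iterate_add_apply,
      Nat.add_sub_cancel' (Nat.le_mul_of_pos_left k (by omega)), hperk]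

/-- If the piece is not a loop it has an edge which leaves `D`. -/
theorem exists_exit (hl : ¬ IsLp D A) : ∃ e ∈ A, hdv e ∉ D := by
  unfold IsLp at hl
  push Not at hl
  exact hl

/-! ### Locality -/

theorem nxt_congr (h : ∀ v ∈ D, ω v = ω' v) (a b : Ed) : Nxt ω D a b ↔ Nxt ω' D a b :=
  and_congr_right fun ha => by rw [nx_congr (h _ ha)]

theorem piece_congr (h : ∀ v ∈ D, ω v = ω' v) (e : Ed) : piece ω D e = piece ω' D e := by
  have h1 : Nxt ω D = Nxt ω' D := by
    funext a b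
    exact propext (nxt_congr h a b)
  unfold piece
  rw [h1]

theorem pcs_congr (h : ∀ v ∈ D, ω v = ω' v) : pcs ω D = pcs ω' D := by
  unfold pcs
  congr 1
  funext e
  exact piece_congr h e

theorem XD_congr (h : ∀ v ∈ D, ω v = ω' v) (p : ℤ × ℤ) (f : ℤ × ℤ → ℝ) :
    XD D p f ω = XD D p f ω' := by
  unfold XD
  rw [pcs_congr h]

/-- A piece of the larger domain which only uses squares of `D` is a piece of `D`. -/
theorem mem_pcs_of_subset (hDD : D ⊆ D') (hA : A ∈ pcs ω D') (h : ∀ e ∈ A, hdv e ∈ D' → hdv e ∈ D)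
    (h' : ∀ e ∈ A, e ∈ eds D) : A ∈ pcs ω D := by
  obtain ⟨e0, he0⟩ := pcs_nonempty hA
  have h1 : A = piece ω D e0 := by
    ext e
    rw [mem_piece]
    constructor
    · intro he
      refine ⟨h' e he, eqvGen_iff.mpr ?_⟩
      have key : ∀ (a b : Ed) (k : ℕ), a ∈ A → Run ω D' a k b → Run ω D a k b := by
        intro a b k ha hr
        refine ⟨hr.1, fun j hj => h _ ?_ (hr.2 j hj)⟩
        exact (mem_of_run hA (⟨rfl, fun i hi => hr.2 i (by omega)⟩ :
          Run ω D' a j ((nx ω)^[j] a))).mp ha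
      obtain ⟨k, hk | hk⟩ := run_of_mem hA he0 he
      · exact ⟨k, Or.inl (key _ _ _ he0 hk)⟩
      · exact ⟨k, Or.inr (key _ _ _ he hk)⟩
    · rintro ⟨_, h2⟩
      obtain ⟨k, hk⟩ := eqvGen_iff.mp h2
      have key : ∀ (a b : Ed) (k : ℕ), Run ω D a k b → Run ω D' a k b :=
        fun a b k hr => ⟨hr.1, fun j hj => hDD (hr.2 j hj)⟩
      rcases hk with hk | hk
      · exact (mem_of_run hA (key _ _ _ hk)).mp he0
      · exact (mem_of_run hA (key _ _ _ hk)).mpr he0
  rw [h1]
  exact piece_mem_pcs (h' e0 he0)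

/-- A piece of `D` which does not meet the difference is a piece of the larger domain. -/
theorem mem_pcs_of_superset (hDD : D ⊆ D') (hA : A ∈ pcs ω D)
    (h : ∀ e ∈ A, hdv e ∈ D' → hdv e ∈ D) (h' : ∀ e ∈ A, tlv e ∈ D' → tlv e ∈ D) :
    A ∈ pcs ω D' := by
  obtain ⟨e0, he0⟩ := pcs_nonempty hA
  have h1 : A = piece ω D' e0 := by
    ext e
    rw [mem_piece]
    constructor
    · intro he
      refine ⟨eds_mono hDD (subset_eds hA he), eqvGen_iff.mpr ?_⟩
      obtain ⟨k, hk⟩ := run_of_mem hA he0 he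
      have key : ∀ (a b : Ed) (k : ℕ), Run ω D a k b → Run ω D' a k b :=
        fun a b k hr => ⟨hr.1, fun j hj => hDD (hr.2 j hj)⟩
      exact ⟨k, hk.imp (key _ _ _) (key _ _ _)⟩
    · rintro ⟨_, h2⟩
      obtain ⟨k, hk⟩ := eqvGen_iff.mp h2
      -- forward
      have fw : ∀ (k : ℕ) (a b : Ed), a ∈ A → Run ω D' a k b → b ∈ A := by
        intro k
        induction k with
        | zero =>
          intro a b ha hr
          obtain rfl : a = b := hr.1
          exact ha
        | succ k ih =>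
          intro a b ha hr
          have h0 := h a ha (hr.2 0 (by omega))
          refine ih (nx ω a) b ((nx_mem_iff hA h0).mp ha) ⟨?_, fun j hj => ?_⟩
          · rw [← Function.iterate_succ_apply, hr.1]
          · rw [← Function.iterate_succ_apply]
            exact hr.2 _ (by omega)
      have bw : ∀ (k : ℕ) (a b : Ed), b ∈ A → Run ω D' a k b → a ∈ A := by
        intro k
        induction k with
        | zero =>
          intro a b hb hr
          obtain rfl : a = b := hr.1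
          exact hb
        | succ k ih =>
          intro a b hb hr
          -- the last step
          have hlast := hr.2 k (by omega)
          have hb' : nx ω ((nx ω)^[k] a) = b := by
            rw [← Function.iterate_succ_apply' (nx ω) k a]
            exact hr.1
          have htl : tlv b = hdv ((nx ω)^[k] a) := by rw [← hb', tlv_nx]
          have h0 : hdv ((nx ω)^[k] a) ∈ D := by
            rw [← htl]
            exact h' b hb (by rw [htl]; exact hlast)
          refine ih a ((nx ω)^[k] a) ((nx_mem_iff hA h0).mpr (by rw [hb']; exact hb))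
            ⟨rfl, fun j hj => hr.2 j (by omega)⟩
      rcases hk with hk | hk
      · exact fw _ _ _ he0 hk
      · exact bw _ _ _ he0 hk
  rw [h1]
  exact piece_mem_pcs (eds_mono hDD (subset_eds hA he0))

end Vale.Agent.P167.BR
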