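import Vale.Agent.P167.BR.Split

/-!
# P167, SLE_6: the event `Gd` and the squares near `a`

If no piece joins the half box of radius `r` of `a` to distance `R`, then `Gd` does not depend on the
squares of the half box of radius `r` of `a`.
-/

namespace Vale.Agent.P167.BR

open Finset Vale.Agent.P145.FB Vale.Agent.P167.H632
open Vale.Agent.P167.E6 (IsPolygon Encloses dir face)
open Vale.Agent.P167.E2 Relation

variable {ω ω' : Cfg} {D Z : Finset (ℤ × ℤ)} {e e' : Ed} {A : Finset Ed} {b : ℤ × ℤ} {r R : ℤ}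

/-- A piece is a piece of every configuration which agrees at its squares. -/
theorem mem_pcs_congr (hA : A ∈ pcs ω D) (h : ∀ e ∈ A, hdv e ∈ D → ω (hdv e) = ω' (hdv e)) :
    A ∈ pcs ω' D := by
  obtain ⟨e0, he0⟩ := pcs_nonempty hA
  have hnx : ∀ e ∈ A, hdv e ∈ D → nx ω e = nx ω' e := fun e he h1 => nx_congr (h e he h1)
  -- runs in `A`
  have fw : ∀ (k : ℕ) (a b : Ed), a ∈ A → Run ω D a k b → Run ω' D a k b := by
    intro k
    induction k with
    | zero => intro a b _ hr; exact ⟨hr.1, fun j hj => absurd hj (Nat.not_lt_zero _)⟩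
    | succ k ih =>
      intro a b ha hr
      have h0 : hdv a ∈ D := hr.2 0 (by omega)
      have h1 : nx ω a ∈ A := (nx_mem_iff hA h0).1 ha
      have h2 : Run ω D (nx ω a) k b := ⟨by rw [← Function.iterate_succ_apply, hr.1], fun j hj => by
        rw [← Function.iterate_succ_apply]; exact hr.2 _ (by omega)⟩
      have h3 := ih _ _ h1 h2
      have h4 : Run ω' D a 1 (nx ω' a) := Run.one h0
      rw [hnx a ha h0] at h3
      have := h4.trans h3
      rwa [add_comm] at this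
  -- closedness for the other configuration
  have hcl : ∀ e, hdv e ∈ D → (e ∈ A ↔ nx ω' e ∈ A) := by
    intro e hd
    constructor
    · intro he
      rw [← hnx e he hd]
      exact (nx_mem_iff hA hd).1 he
    · intro he
      obtain ⟨e1, h1⟩ := (s_nx ω).2 (nx ω' e)
      have h2 : hdv e1 = hdv e := by rw [← tlv_nx ω, h1, tlv_nx]
      have h3 : e1 ∈ A := (nx_mem_iff hA (by rw [h2]; exact hd)).2 (by rw [h1]; exact he)
      have h4 : nx ω' e1 = nx ω' e := by rw [← hnx e1 h3 (by rw [h2]; exact hd), h1]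
      rw [← (s_nx ω').1 h4]
      exact h3
  have h1 : A = piece ω' D e0 := by
    ext e
    rw [mem_piece]
    constructor
    · intro he
      refine ⟨subset_eds hA he, eqvGen_iff.mpr ?_⟩
      obtain ⟨k, hk | hk⟩ := run_of_mem hA he0 he
      · exact ⟨k, Or.inl (fw _ _ _ he0 hk)⟩
      · exact ⟨k, Or.inr (fw _ _ _ he hk)⟩
    · rintro ⟨_, h2⟩
      obtain ⟨k, hk⟩ := eqvGen_iff.mp h2
      have key : ∀ (k : ℕ) (a b : Ed), Run ω' D a k b → (a ∈ A ↔ b ∈ A) := by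
        intro k
        induction k with
        | zero => intro a b hr; rw [show a = b from hr.1]
        | succ k ih =>
          intro a b hr
          have h3 := ih a ((nx ω')^[k] a) ⟨rfl, fun j hj => hr.2 j (by omega)⟩
          rw [h3, hcl _ (hr.2 k (by omega)), ← Function.iterate_succ_apply' (nx ω'), hr.1]
      rcases hk with hk | hk
      · exact (key _ _ _ hk).1 he0
      · exact (key _ _ _ hk).2 he0
  rw [h1]
  exact piece_mem_pcs (subset_eds hA he0)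

/-- The squares of the full box. -/
def fbx (b : ℤ × ℤ) (R : ℤ) : Set (ℤ × ℤ) :=
  {v | b.1 - R ≤ v.1 ∧ v.1 < b.1 + R ∧ b.2 - R ≤ v.2 ∧ v.2 < b.2 + R}

/-- A piece of `D` joins the half box of radius `r` to distance `R`. -/
def Crs (D : Finset (ℤ × ℤ)) (b : ℤ × ℤ) (r R : ℤ) (ω : Cfg) : Prop :=
  ∃ A ∈ pcs ω D, Vz (hbox b r) A ∧ ∃ e ∈ A, hdv e ∉ fbx b R ∨ tlv e ∉ fbx b R

variable {n : ℕ} {q : ZMod n → ℤ × ℤ} {k l : ℕ}

section

variable (hq : IsPolygon q) (hD : Encloses q D)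
include hq hD

/-- A boundary edge in the box of `a` has its index near the one of `a`. -/
theorem bd_fbx (hF : Flt D (q k) R) (hR : 1 ≤ R) (hk : k < n) (h0 : q 0 ∉ sites (hbox (q k) R))
    {m : ℕ} (hm : m < n) (h1 : hdv (be q (m : ℕ)) ∈ fbx (q k) R)
    (h2 : tlv (be q (m : ℕ)) ∈ fbx (q k) R) : (k : ℤ) - R ≤ m ∧ (m : ℤ) < k + R := by
  obtain ⟨a1, a2, a3, a4⟩ := h1
  obtain ⟨b1, b2, b3, b4⟩ := h2
  rcases be_bd hq hD (m : ZMod n) with ⟨h3, h4⟩ | ⟨h3, h4⟩
  · have h5 := (hF _ a1 a2 a3 a4).1 h3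
    have h6 : (tlv (be q (m : ℕ))).2 < (q k).2 := by
      by_contra h
      exact h4 ((hF _ b1 b2 b3 b4).2 (by omega))
    have h7 : hdv (be q (m : ℕ)) ∈ hbox (q k) R := by rw [mem_hbox]; omega
    exact bd_inn hq hD hF hR hk h0 hm (mem_eds.2 (Or.inl h7)) ⟨Or.inl h7, Or.inr h6⟩
  · have h5 := (hF _ b1 b2 b3 b4).1 h3
    have h6 : (hdv (be q (m : ℕ))).2 < (q k).2 := by
      by_contra h
      exact h4 ((hF _ a1 a2 a3 a4).2 (by omega))
    have h7 : tlv (be q (m : ℕ)) ∈ hbox (q k) R := by rw [mem_hbox]; omega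
    exact bd_inn hq hD hF hR hk h0 hm (mem_eds.2 (Or.inr h7)) ⟨Or.inr h6, Or.inl h7⟩

/-- One direction. -/
theorem gd_of {Zb : Finset (ℤ × ℤ)} (hF : Flt D (q k) R) (hR : 1 ≤ R) (hkl : (k : ℤ) + R ≤ l)
    (hl : l < n) (h0 : q 0 ∉ sites (hbox (q k) R)) (hω : ∀ v, v ∉ hbox (q k) r → ω v = ω' v)
    (hC : ¬ Crs D (q k) r R ω) (hG : Gd D Zb (q 0) (q k) (q l) ω') :
    Gd D Zb (q 0) (q k) (q l) ω := by
  rintro A hA hV ⟨⟨u, hu, hne⟩, h2⟩
  by_cases hVa : Vz (hbox (q k) r) A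
  · -- the piece ends on the arc from `b` to `p`
    apply hne
    have h3 := pot_arc hq hD hu (i := l) (j := n) hl.le ?_
    · rw [← h3]
      simp
    intro m hm1 hm2 hmA
    apply hC
    refine ⟨A, hA, hVa, _, hmA, ?_⟩
    by_contra hcon
    push Not at hcon
    have := bd_fbx hq hD hF hR (by omega) h0 hm2 hcon.1 hcon.2
    omega
  · refine hG A (mem_pcs_congr hA fun e he _ => hω _ fun h => hVa ⟨e, he, ?_⟩) hV
      ⟨⟨u, hu, hne⟩, h2⟩
    exact mem_eds.2 (Or.inl h)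

/-- **Locality of `Gd` near `a`.** -/
theorem gd_congr {Zb : Finset (ℤ × ℤ)} (hF : Flt D (q k) R) (hR : 1 ≤ R) (hkl : (k : ℤ) + R ≤ l)
    (hl : l < n) (h0 : q 0 ∉ sites (hbox (q k) R)) (hω : ∀ v, v ∉ hbox (q k) r → ω v = ω' v)
    (hC : ¬ Crs D (q k) r R ω) (hC' : ¬ Crs D (q k) r R ω') :
    Gd D Zb (q 0) (q k) (q l) ω ↔ Gd D Zb (q 0) (q k) (q l) ω' :=
  ⟨gd_of hq hD hF hR hkl hl h0 (fun v hv => (hω v hv).symm) hC',
    gd_of hq hD hF hR hkl hl h0 hω hC⟩

end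

end Vale.Agent.P167.BR
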