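import Vale.Agent.P167.BR.Maj
import Vale.Agent.P167.BR.Gdl

/-!
# P167, BRIDGE: pointwise bounds

The functionals of the bridge are bounded by the majorants of the moment input.
-/

namespace Vale.Agent.P167.BR

open Finset MeasureTheory Vale.Agent.P145.FB Vale.Agent.P167.H632
open Vale.Agent.P167.E6 (IsPolygon Encloses dir face)

/-! ### Weights -/

theorem wl_abs (t : ℝ) : |wl t| ≤ 2 := by
  rw [wl, abs_div, Real.cos_pi_div_three, abs_of_pos (by norm_num : (0 : ℝ) < 1 / 2),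
    div_le_iff₀ (by norm_num)]
  have := Real.abs_cos_le_one (Real.pi / 3 + t)
  linarith

theorem ws_abs (t : ℝ) : |ws t| ≤ 2 := by
  have h : (1 : ℝ) / 2 ≤ Real.cos (Real.pi / 6) := by
    rw [Real.cos_pi_div_six]
    have : (1 : ℝ) ≤ √3 := by
      rw [Real.one_le_sqrt]
      norm_num
    linarith
  have hp : 0 < Real.cos (Real.pi / 6) := by linarith
  rw [ws, abs_div, abs_of_pos hp, div_le_iff₀ hp]
  have := Real.abs_cos_le_one (Real.pi / 6 + t)
  linarith

theorem wp_abs (D : Finset (ℤ × ℤ)) (A : Finset Ed) (t : ℝ) : |wp D A t| ≤ 2 := by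
  unfold wp
  split_ifs
  · exact wl_abs t
  · exact ws_abs t

theorem one_le_wl {m : ℝ} (h0 : 0 ≤ m) (h1 : m ≤ Real.pi / 3) : 1 ≤ wl (-m) := by
  have h2 : 0 < Real.cos (Real.pi / 3) := by rw [Real.cos_pi_div_three]; norm_num
  rw [wl, one_le_div h2]
  exact Real.cos_le_cos_of_nonneg_of_le_pi (by linarith) (by linarith [Real.pi_pos]) (by linarith)

theorem one_le_ws {m : ℝ} (h0 : 0 ≤ m) (h1 : m ≤ Real.pi / 3) : 1 ≤ ws (-m) := by
  have h2 : 0 < Real.cos (Real.pi / 6) := by rw [Real.cos_pi_div_six]; positivity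
  rw [ws, one_le_div h2, ← Real.cos_abs (Real.pi / 6 + -m)]
  refine Real.cos_le_cos_of_nonneg_of_le_pi (abs_nonneg _) (by linarith [Real.pi_pos]) ?_
  rw [abs_le]
  constructor <;> linarith

variable {ω : Cfg} {D Z : Finset (ℤ × ℤ)} {A : Finset Ed} {b p : ℤ × ℤ} {r R : ℤ}
  {f : ℤ × ℤ → ℝ}

/-- The masses of a nonnegative charge. -/
theorem mass_bd (hZD : Z ⊆ D) (h0 : ∀ z, 0 ≤ f z) (hf : ∀ z, f z ≠ 0 → z ∈ sites Z) :
    0 ≤ mass D p f A ∧ mass D p f A ≤ ∑ᶠ z, f z := by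
  classical
  constructor
  · exact sum_nonneg fun z _ => by split_ifs <;> [exact h0 z; exact le_rfl]
  · rw [← sum_sites hZD hf]
    exact sum_le_sum fun z _ => by split_ifs <;> [exact le_rfl; exact h0 z]

/-- Negative charges increase all weights. -/
theorem one_le_wp (hZD : Z ⊆ D) (h0 : ∀ z, 0 ≤ f z) (hf : ∀ z, f z ≠ 0 → z ∈ sites Z)
    (hs : ∑ᶠ z, f z = Real.pi / 3) : 1 ≤ wp D A (mass D p (-f) A) := by
  obtain ⟨h1, h2⟩ := mass_bd (A := A) (p := p) hZD h0 hf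
  rw [hs] at h2
  rw [mass_neg]
  unfold wp
  split_ifs
  · exact one_le_wl h1 h2
  · exact one_le_ws h1 h2

theorem one_le_XD (hZD : Z ⊆ D) (h0 : ∀ z, 0 ≤ f z) (hf : ∀ z, f z ≠ 0 → z ∈ sites Z)
    (hs : ∑ᶠ z, f z = Real.pi / 3) : 1 ≤ XD D p (-f) ω := by
  classical
  rw [XD, ← prod_const_one (s := pcs ω D)]
  exact prod_le_prod (fun _ _ => zero_le_one) fun A _ => one_le_wp hZD h0 hf hs

theorem XB_nonneg (hZD : hbox b r ⊆ hbox b R) (h0 : ∀ z, 0 ≤ f z)
    (hf : ∀ z, f z ≠ 0 → z ∈ sites (hbox b r)) (hs : ∑ᶠ z, f z = Real.pi / 3) :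
    0 ≤ XB b r R (-f) ω := by
  classical
  rw [XB]
  split_ifs
  · rw [XZ]
    exact prod_nonneg fun A _ => zero_le_one.trans (one_le_wp hZD h0 hf hs)
  · exact le_rfl

/-! ### The majorant -/

open Classical in
/-- The factor of a piece in the majorant. -/
noncomputable def hw (b : ℤ × ℤ) (r : ℤ) (A : Finset Ed) (w : ℝ) : ℝ :=
  if Vz (hbox b r) A then (if InnP b (2 * r) A then |w| else 2) else 1

theorem hw_nonneg (w : ℝ) : 0 ≤ hw b r A w := by
  unfold hw
  split_ifs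
  · exact abs_nonneg _
  · norm_num
  · norm_num

theorem prod_hw {g : Finset Ed → ℝ} {S : Finset (Finset Ed)} :
    ∏ A ∈ S, hw b r A (g A) =
      (by classical exact 2 ^ (S.filter fun A => Vz (hbox b r) A ∧ ¬ InnP b (2 * r) A).card *
        ∏ A ∈ S.filter (fun A => Vz (hbox b r) A ∧ InnP b (2 * r) A), |g A|) := by
  classical
  unfold hw
  rw [prod_ite, prod_const_one, mul_one, prod_ite, prod_const, filter_filter, filter_filter,
    mul_comm]

theorem Dom.le {Y : Cfg → ℝ} (h : Dom b r f Y) (hF : Flt D b (2 * r))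
    (hO : OutC D b (2 * r) p) : ∏ A ∈ pcs ω D, hw b r A (wp D A (mass D p f A)) ≤ Y ω := by
  classical
  rw [prod_hw]
  convert h ω D p hF hO

theorem flt_hbox_le (h : r ≤ R) : Flt (hbox b R) b r := by
  intro v h1 h2 h3 h4
  rw [mem_hbox]
  omega

/-- The local functional. -/
theorem XB_le {Y : Cfg → ℝ} (hY : ∀ ω, 0 ≤ Y ω) (h : Dom b r f Y) (hr : 1 ≤ r)
    (hR : 2 * r < R) : |XB b r R f ω| ≤ Y ω := by
  classical
  rw [XB]
  split_ifs with hI
  · refine le_trans ?_ (h.le (ω := ω) (flt_hbox_le hR.le) (outC_hbox (by omega) hR))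
    rw [XZ, prod_filter, abs_prod]
    refine prod_le_prod (fun _ _ => abs_nonneg _) fun A _ => ?_
    unfold hw
    split_ifs with h1 h2
    · exact le_rfl
    · exact wp_abs _ _ _
    · simp
  · rw [abs_zero]
    exact hY ω

variable {n : ℕ} {q : ZMod n → ℤ × ℤ} {k l : ℕ}

section

variable (hq : IsPolygon q) (hD : Encloses q D)
include hq hD

/-- The weight of a piece which does not visit the zone, one bump. -/
theorem wp_one (hZD : Z ⊆ D) (hC : ECon Z) (hql : q l ∈ sites Z)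
    (hf : ∀ z, f z ≠ 0 → z ∈ sites Z) (hs : ∑ᶠ z, f z = Real.pi / 3) (hA : A ∈ pcs ω D)
    (hV : ¬ Vz Z A) : wp D A (mass D (q 0) (-f) A) = 1 := by
  classical
  rw [mass_neg, mass_zone hZD hf (P := Sep D A (q l) (q 0))
    (fun z hz => sep_zone hZD hC hV hz hql), hs]
  split_ifs with h1
  · have hlp : ¬ IsLp D A := by
      intro hlp
      obtain ⟨u, hu, h⟩ := h1
      exact h (lp_bd hq hD hA hu hlp l)
    rw [wp, if_neg hlp, ws_neg]
  · rw [neg_zero, wp_zero]

/-- The one-point functional. -/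
theorem XD_one_le {Y : Cfg → ℝ} (h : Dom (q l) r (-f) Y) (hF : Flt D (q l) R) (hr : 1 ≤ r)
    (hR : 2 * r ≤ R) (hl : l < n) (h0 : q 0 ∉ sites (hbox (q l) R))
    (hf : ∀ z, f z ≠ 0 → z ∈ sites (hbox (q l) r)) (hs : ∑ᶠ z, f z = Real.pi / 3) :
    |XD D (q 0) (-f) ω| ≤ Y ω := by
  classical
  have hF2 : Flt D (q l) (2 * r) := hF.mono hR
  have h02 : q 0 ∉ sites (hbox (q l) (2 * r)) := fun h => h0 (sites_mono (hbox_mono hR) h)
  refine le_trans ?_ (h.le (ω := ω) hF2 (outC_poly hq hD hF2 (by omega) hl h02))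
  rw [XD, abs_prod]
  refine prod_le_prod (fun _ _ => abs_nonneg _) fun A hA => ?_
  unfold hw
  split_ifs with h1 h2
  · exact le_rfl
  · exact wp_abs _ _ _
  · rw [wp_one (l := l) hq hD ((hbox_mono (by omega)).trans (hbox_sub hF)) (econ_hbox hr)
      (by rw [mem_sites_hbox hr]; omega) hf hs hA h1, abs_one]

/-- A piece which is inner at `l` does not feel the charge near `k`. -/
theorem mass_far {ra Ra rb : ℤ} (hl : l < n) (hk : k < n) (hFa : Flt D (q k) Ra)
    (hFb : Flt D (q l) R) (hra : 1 ≤ ra) (hraR : ra ≤ Ra) (hrb : 1 ≤ rb)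
    (hd : Disjoint (hbox (q k) Ra) (hbox (q l) R)) (hb0 : q 0 ∉ sites (hbox (q l) R))
    (hfa : ∀ z, f z ≠ 0 → z ∈ sites (hbox (q k) ra)) (hI : InnP (q l) R A)
    (hR : rb ≤ R) : mass D (q 0) f A = 0 ∧ ¬ Vz (hbox (q k) ra) A := by
  classical
  have hZa : hbox (q k) ra ⊆ D := (hbox_mono hraR).trans (hbox_sub hFa)
  have hqa : q k ∈ sites (hbox (q k) ra) := by
    rw [mem_sites_hbox hra]
    omega
  have hki : (k : ℤ) ≤ l - R ∨ (l : ℤ) + R ≤ k :=
    far_index hq hD hFa hFb (by omega) (by omega) hd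
  have h3 : ∀ e ∈ A, e ∈ eds (hbox (q l) R) := fun e he => (hI e he).1
  have h4 : ∀ e ∈ A, Inn (q l) R e := fun e he => (hI e he).2
  have h5 : ¬ Vz (hbox (q k) ra) A := fun h =>
    not_vz_far hFa hFb hd h3 h4 (h.mono (hbox_mono hraR))
  refine ⟨?_, h5⟩
  rw [mass_zone hZa hfa (P := False), if_neg not_false]
  intro z hz
  exact iff_of_false (sep_out hq hD hFb (by omega) hl hb0 h3 h4 hk.le hki hZa (econ_hbox hra) h5
    hqa hz) not_false

/-- **The two-point functional.** -/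
theorem XD_two_le {Ya Yb : Cfg → ℝ} {fa fb : ℤ × ℤ → ℝ} {ra Ra rb Rb : ℤ}
    (ha : Dom (q k) ra (-fa) Ya) (hb : Dom (q l) rb fb Yb)
    (hFa : Flt D (q k) Ra) (hFb : Flt D (q l) Rb) (hra : 1 ≤ ra) (hrb : 1 ≤ rb)
    (hRa : 2 * ra ≤ Ra) (hRb : 2 * rb ≤ Rb) (hk : k < n) (hl : l < n)
    (hd : Disjoint (hbox (q k) Ra) (hbox (q l) Rb))
    (ha0 : q 0 ∉ sites (hbox (q k) Ra)) (hb0 : q 0 ∉ sites (hbox (q l) Rb))
    (hfa : ∀ z, fa z ≠ 0 → z ∈ sites (hbox (q k) ra)) (hsa : ∑ᶠ z, fa z = Real.pi / 3)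
    (hfb : ∀ z, fb z ≠ 0 → z ∈ sites (hbox (q l) rb)) (hsb : ∑ᶠ z, fb z = Real.pi / 3) :
    |XD D (q 0) (fb - fa) ω| ≤ Ya ω * Yb ω := by
  classical
  have hFa2 : Flt D (q k) (2 * ra) := hFa.mono hRa
  have ha02 : q 0 ∉ sites (hbox (q k) (2 * ra)) := fun h => ha0 (sites_mono (hbox_mono hRa) h)
  have hFb2 : Flt D (q l) (2 * rb) := hFb.mono hRb
  have hb02 : q 0 ∉ sites (hbox (q l) (2 * rb)) := fun h => hb0 (sites_mono (hbox_mono hRb) h)
  have hZa : hbox (q k) ra ⊆ D := (hbox_mono (by omega)).trans (hbox_sub hFa)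
  have hZb : hbox (q l) rb ⊆ D := (hbox_mono (by omega)).trans (hbox_sub hFb)
  have hqa : q k ∈ sites (hbox (q k) ra) := by
    rw [mem_sites_hbox hra]
    omega
  have hqb : q l ∈ sites (hbox (q l) rb) := by
    rw [mem_sites_hbox hrb]
    omega
  have h1 := ha.le (ω := ω) hFa2 (outC_poly hq hD hFa2 (by omega) hk ha02)
  have h2 := hb.le (ω := ω) hFb2 (outC_poly hq hD hFb2 (by omega) hl hb02)
  refine le_trans ?_ (mul_le_mul h1 h2 (prod_nonneg fun _ _ => hw_nonneg _)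
    (le_trans (prod_nonneg fun _ _ => hw_nonneg _) h1))
  rw [XD, abs_prod, ← prod_mul_distrib]
  refine prod_le_prod (fun _ _ => abs_nonneg _) fun A hA => ?_
  have hd2 : Disjoint (hbox (q k) (2 * ra)) (hbox (q l) (2 * rb)) :=
    disjoint_of_subset_left (hbox_mono hRa) (disjoint_of_subset_right (hbox_mono hRb) hd)
  by_cases hVb : Vz (hbox (q l) rb) A
  · by_cases hIb : InnP (q l) (2 * rb) A
    · obtain ⟨h3, h4⟩ := mass_far hq hD hl hk hFa2 hFb2 hra (by omega) hrb hd2 hb02 hfa hIb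
        (by omega)
      rw [mass_sub, h3, sub_zero]
      unfold hw
      rw [if_neg h4, if_pos hVb, if_pos hIb, one_mul]
    · have h3 : hw (q l) rb A (wp D A (mass D (q 0) fb A)) = 2 := by
        unfold hw
        rw [if_pos hVb, if_neg hIb]
      have h4 : 1 ≤ hw (q k) ra A (wp D A (mass D (q 0) (-fa) A)) := by
        unfold hw
        split_ifs with h5 h6
        · exact absurd hVb (mass_far (f := fb) hq hD hk hl hFb2 hFa2 hrb (by omega) hra hd2.symm
            ha02 hfb h6 (by omega)).2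
        · norm_num
        · norm_num
      rw [h3]
      have := wp_abs D A (mass D (q 0) (fb - fa) A)
      linarith
  · have h3 : hw (q l) rb A (wp D A (mass D (q 0) fb A)) = 1 := by
      unfold hw
      rw [if_neg hVb]
    rw [h3, mul_one]
    by_cases hVa : Vz (hbox (q k) ra) A
    · unfold hw
      rw [if_pos hVa]
      split_ifs with hIa
      · obtain ⟨h5, -⟩ := mass_far (f := fb) hq hD hk hl hFb2 hFa2 hrb (by omega) hra hd2.symm
          ha02 hfb hIa (by omega)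
        rw [mass_sub, h5, zero_sub, mass_neg]
      · exact wp_abs _ _ _
    · rw [wp_neither hq hD hZa hZb (econ_hbox hra) (econ_hbox hrb) hqa hqb hfa hsa hfb hsb hA hVb
        hVa]
      unfold hw
      rw [if_neg hVa]
      split_ifs <;> simp

end

end Vale.Agent.P167.BR
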