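import Vale.Agent.P167.BR.Split
import Vale.Agent.P167.BR.Gdl
import Vale.Agent.P167.H45.Small2

/-!
# P167, BRIDGE (R3): functions of finitely many squares, independence and decoupling
-/

namespace Vale.Agent.P167.BR

open Finset MeasureTheory ProbabilityTheory
open Vale.Agent.P167.H45 (iInd meas_loc meas_locfun loc_int)

/-- `F` depends on the squares of `K`. -/
def DepF {β : Type*} (K : Finset (ℤ × ℤ)) (F : Cfg → β) : Prop :=
  ∀ w w' : Cfg, (∀ v ∈ K, w v = w' v) → F w = F w'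

section basic

variable {β γ : Type*} {K L : Finset (ℤ × ℤ)}

theorem DepF.mono {F : Cfg → β} (h : DepF K F) (hKL : K ⊆ L) : DepF L F :=
  fun w w' hw => h w w' fun v hv => hw v (hKL hv)

theorem DepF.comp {F : Cfg → β} (h : DepF K F) (g : β → γ) : DepF K (fun w => g (F w)) :=
  fun w w' hw => congrArg g (h w w' hw)

theorem DepF.comp₂ {δ : Type*} {F : Cfg → β} {G : Cfg → γ} (hF : DepF K F) (hG : DepF K G)
    (g : β → γ → δ) : DepF K (fun w => g (F w) (G w)) := fun w w' hw => by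
  show g (F w) (G w) = g (F w') (G w')
  rw [hF w w' hw, hG w w' hw]

theorem depF_const (K : Finset (ℤ × ℤ)) (c : β) : DepF K (fun _ => c) := fun _ _ _ => rfl

theorem DepF.mul {F G : Cfg → ℝ} (hF : DepF K F) (hG : DepF K G) : DepF K (fun w => F w * G w) :=
  hF.comp₂ hG (· * ·)

theorem DepF.add {F G : Cfg → ℝ} (hF : DepF K F) (hG : DepF K G) : DepF K (fun w => F w + G w) :=
  hF.comp₂ hG (· + ·)

theorem DepF.sub {F G : Cfg → ℝ} (hF : DepF K F) (hG : DepF K G) : DepF K (fun w => F w - G w) :=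
  hF.comp₂ hG (· - ·)

theorem DepF.neg {F : Cfg → ℝ} (hF : DepF K F) : DepF K (fun w => - F w) := hF.comp Neg.neg

theorem DepF.abs {F : Cfg → ℝ} (hF : DepF K F) : DepF K (fun w => |F w|) := hF.comp _

theorem DepF.pow {F : Cfg → ℝ} (hF : DepF K F) (m : ℕ) : DepF K (fun w => F w ^ m) :=
  hF.comp (· ^ m)

theorem DepF.prop {P : Cfg → Prop} (h : ∀ w w' : Cfg, (∀ v ∈ K, w v = w' v) → P w → P w') :
    DepF K P := fun w w' hw => propext ⟨h w w' hw, h w' w fun v hv => (hw v hv).symm⟩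

open Classical in
theorem DepF.ite {P : Cfg → Prop} {F G : Cfg → β} (hP : DepF K P) (hF : DepF K F)
    (hG : DepF K G) : DepF K (fun w => if P w then F w else G w) := fun w w' hw => by
  have h := hP w w' hw
  simp only [h, hF w w' hw, hG w w' hw]

theorem DepF.not {P : Cfg → Prop} (hP : DepF K P) : DepF K (fun w => ¬ P w) := hP.comp _

theorem DepF.and {P Q : Cfg → Prop} (hP : DepF K P) (hQ : DepF K Q) :
    DepF K (fun w => P w ∧ Q w) := hP.comp₂ hQ _

theorem DepF.or {P Q : Cfg → Prop} (hP : DepF K P) (hQ : DepF K Q) :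
    DepF K (fun w => P w ∨ Q w) := hP.comp₂ hQ _

theorem DepF.measSet {P : Cfg → Prop} (hP : DepF K P) : MeasurableSet {w | P w} :=
  meas_loc K fun w w' hw h => (hP w w' hw).mp h

theorem DepF.meas [MeasurableSpace β] {F : Cfg → β} (hF : DepF K F) : Measurable F :=
  meas_locfun K hF

theorem DepF.int {F : Cfg → ℝ} (hF : DepF K F) : Integrable F μ := loc_int K hF

/-- Factorisation through the restriction. -/
theorem DepF.factor {F : Cfg → β} (hF : DepF K F) :
    ∃ φ : ((v : K) → Bool) → β, ∀ w, F w = φ fun v => w v := by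
  classical
  refine ⟨fun η => F fun v => if hv : v ∈ K then η ⟨v, hv⟩ else false, fun w => ?_⟩
  refine hF _ _ fun v hv => ?_
  simp [hv]

/-- A function of finitely many squares is bounded. -/
theorem DepF.bdd {F : Cfg → ℝ} (hF : DepF K F) : ∃ C : ℝ, 0 ≤ C ∧ ∀ w, |F w| ≤ C := by
  obtain ⟨φ, hφ⟩ := hF.factor
  obtain ⟨C, hC⟩ := (Set.finite_range fun η => |φ η|).bddAbove
  refine ⟨max C 0, le_max_right _ _, fun w => ?_⟩
  rw [hφ]
  exact le_max_of_le_left (hC ⟨_, rfl⟩)

/-- **Independence.** -/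
theorem indep {δ : Type*} [MeasurableSpace β] [MeasurableSpace δ] {F : Cfg → β} {G : Cfg → δ}
    (hKL : Disjoint K L) (hF : DepF K F) (hG : DepF L G) : IndepFun F G μ := by
  obtain ⟨φ, hφ⟩ := hF.factor
  obtain ⟨ψ, hψ⟩ := hG.factor
  have h := iInd.indepFun_finset K L hKL fun v => measurable_pi_apply v
  have h2 := h.comp (φ := φ) (ψ := ψ) (Measurable.of_discrete) (Measurable.of_discrete)
  have e1 : F = φ ∘ fun w (v : K) => w v := funext hφ
  have e2 : G = ψ ∘ fun w (v : L) => w v := funext hψ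
  rw [e1, e2]
  exact h2

/-- **Independence, means.** -/
theorem int_mul {F G : Cfg → ℝ} (hKL : Disjoint K L) (hF : DepF K F) (hG : DepF L G) :
    ∫ w, F w * G w ∂μ = (∫ w, F w ∂μ) * ∫ w, G w ∂μ :=
  (indep hKL hF hG).integral_mul_eq_mul_integral hF.int.aestronglyMeasurable
    hG.int.aestronglyMeasurable

end basic

section dec

variable {K L : Finset (ℤ × ℤ)} {F G : Cfg → ℝ} {E : Set Cfg}

open Classical in
theorem int_on {E : Set Cfg} (hE : MeasurableSet E) (F : Cfg → ℝ) :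
    ∫ w in E, F w ∂μ = ∫ w, (if w ∈ E then F w else 0) ∂μ := by
  rw [← integral_indicator hE]
  rfl

open Classical in
/-- Off `E` the function `G` does not depend on the squares of `K`. -/
theorem dep_off (hG : DepF L G) (hE : DepF (L \ K) (fun w => w ∈ E))
    (h : ∀ w w' : Cfg, (∀ v, v ∉ K → w v = w' v) → w ∉ E → G w = G w') :
    DepF (L \ K) (fun w => if w ∈ E then 0 else G w) := by
  intro w w' hw
  have hEE : (w ∈ E) = (w' ∈ E) := hE w w' hw
  show (if w ∈ E then 0 else G w) = if w' ∈ E then 0 else G w'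
  by_cases hwE : w ∈ E
  · rw [if_pos hwE, if_pos (hEE ▸ hwE)]
  · have hwE' : w' ∉ E := hEE ▸ hwE
    rw [if_neg hwE, if_neg hwE']
    rw [h w (fun v => if v ∈ K then w' v else w v) (fun v hv => by simp [hv]) hwE]
    refine hG _ _ fun v hv => ?_
    show (if v ∈ K then w' v else w v) = w' v
    by_cases hvK : v ∈ K
    · rw [if_pos hvK]
    · rw [if_neg hvK]
      exact hw v (mem_sdiff.2 ⟨hv, hvK⟩)

/-- **Decoupling.** `F` depends on `K`; off the event `E` (which depends on the squares off `K`) `G`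
does not depend on the squares of `K`. -/
theorem decouple (hF : DepF K F) (hG : DepF L G) (hE : DepF (L \ K) (fun w => w ∈ E))
    (h : ∀ w w' : Cfg, (∀ v, v ∉ K → w v = w' v) → w ∉ E → G w = G w') :
    |∫ w, F w * G w ∂μ - (∫ w, F w ∂μ) * ∫ w, G w ∂μ| ≤
      ∫ w in E, |F w| * |G w| ∂μ + (∫ w, |F w| ∂μ) * ∫ w in E, |G w| ∂μ := by
  classical
  have hme : MeasurableSet E := hE.measSet
  have hoff := dep_off hG hE h
  have hd : Disjoint K (L \ K) := disjoint_sdiff
  have h1 := int_mul hd hF hoff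
  have hiG : Integrable G μ := hG.int
  have hiFG : Integrable (fun w => F w * G w) μ :=
    ((hF.mono subset_union_left).mul (hG.mono subset_union_right) : DepF (K ∪ L) _).int
  -- splitting
  have s1 : ∫ w, G w ∂μ = ∫ w in E, G w ∂μ + ∫ w, (if w ∈ E then 0 else G w) ∂μ := by
    rw [← integral_add_compl hme hiG]
    congr 1
    rw [← integral_indicator hme.compl]
    refine integral_congr_ae (Filter.Eventually.of_forall fun w => ?_)
    by_cases hw : w ∈ E <;> simp [Set.indicator, hw]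
  have s2 : ∫ w, F w * G w ∂μ = ∫ w in E, F w * G w ∂μ +
      ∫ w, F w * (if w ∈ E then 0 else G w) ∂μ := by
    rw [← integral_add_compl hme hiFG]
    congr 1
    rw [← integral_indicator hme.compl]
    refine integral_congr_ae (Filter.Eventually.of_forall fun w => ?_)
    by_cases hw : w ∈ E <;> simp [Set.indicator, hw]
  have e : ∫ w, F w * G w ∂μ - (∫ w, F w ∂μ) * ∫ w, G w ∂μ =
      ∫ w in E, F w * G w ∂μ - (∫ w, F w ∂μ) * ∫ w in E, G w ∂μ := by
    rw [s2, s1, h1]; ring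
  rw [e]
  refine (abs_sub _ _).trans (add_le_add ?_ ?_)
  · refine (abs_integral_le_integral_abs).trans (le_of_eq ?_)
    simp only [abs_mul]
  · rw [abs_mul]
    exact mul_le_mul abs_integral_le_integral_abs abs_integral_le_integral_abs (abs_nonneg _)
      (integral_nonneg fun _ => abs_nonneg _)

/-- **Hölder.** -/
theorem int_on_le {p : ℝ} (hp : 1 < p) {E : Set Cfg} (hF : DepF K F) (hE : MeasurableSet E) :
    ∫ w in E, |F w| ∂μ ≤ (∫ w, |F w| ^ p ∂μ) ^ (1 / p) * μ.real E ^ (1 - 1 / p) := by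
  classical
  obtain ⟨C, hC0, hC⟩ := hF.bdd
  have hpq : p.HolderConjugate (p / (p - 1)) := Real.HolderConjugate.conjExponent hp
  have hm : Measurable fun w => |F w| := hF.abs.meas
  have h1 := integral_mul_le_Lp_mul_Lq_of_nonneg (μ := μ) hpq (f := fun w => |F w|)
    (g := E.indicator 1) (Filter.Eventually.of_forall fun _ => abs_nonneg _)
    (Filter.Eventually.of_forall fun _ => Set.indicator_nonneg (fun _ _ => zero_le_one) _)
    (MemLp.of_bound hm.aestronglyMeasurable C (Filter.Eventually.of_forall fun w => by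
      rw [Real.norm_eq_abs, abs_abs]; exact hC w))
    (MemLp.of_bound ((measurable_one.indicator hE)).aestronglyMeasurable 1
      (Filter.Eventually.of_forall fun w => by
        by_cases hw : w ∈ E <;> simp [Set.indicator, hw]))
  have h2 : ∫ w in E, |F w| ∂μ = ∫ w, |F w| * E.indicator 1 w ∂μ := by
    rw [← integral_indicator hE]
    refine integral_congr_ae (Filter.Eventually.of_forall fun w => ?_)
    by_cases hw : w ∈ E <;> simp [Set.indicator, hw]
  have h3 : ∫ w, E.indicator (1 : Cfg → ℝ) w ^ (p / (p - 1)) ∂μ = μ.real E := by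
    have hq0 : p / (p - 1) ≠ 0 := hpq.symm.ne_zero
    rw [← integral_indicator_one hE]
    refine integral_congr_ae (Filter.Eventually.of_forall fun w => ?_)
    by_cases hw : w ∈ E <;> simp [Set.indicator, hw, hq0]
  rw [h2]
  refine h1.trans (le_of_eq ?_)
  rw [h3]
  congr 2
  have : p - 1 ≠ 0 := by linarith
  have hp0 : p ≠ 0 := by linarith
  field_simp

/-- Hölder with sixth moments. -/
theorem int_on_six {E : Set Cfg} (hF : DepF K F) (hE : MeasurableSet E) :
    ∫ w in E, |F w| ∂μ ≤ (∫ w, |F w| ^ 6 ∂μ) ^ (1 / 6 : ℝ) * μ.real E ^ (5 / 6 : ℝ) := by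
  have h := int_on_le (p := 6) (by norm_num) hF hE
  have e1 : (1 : ℝ) - 1 / 6 = 5 / 6 := by norm_num
  rw [e1] at h
  refine h.trans (le_of_eq ?_)
  congr 3
  funext w
  exact_mod_cast Real.rpow_natCast |F w| 6

/-- Hölder with sixth moments for a product of independent factors. -/
theorem int_on_six₂ {E : Set Cfg} (hKL : Disjoint K L) (hF : DepF K F) (hG : DepF L G)
    (hE : MeasurableSet E) :
    ∫ w in E, |F w| * |G w| ∂μ ≤ (∫ w, |F w| ^ 6 ∂μ) ^ (1 / 6 : ℝ) *
      (∫ w, |G w| ^ 6 ∂μ) ^ (1 / 6 : ℝ) * μ.real E ^ (5 / 6 : ℝ) := by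
  have hFG : DepF (K ∪ L) (fun w => F w * G w) :=
    (hF.mono subset_union_left).mul (hG.mono subset_union_right)
  have h := int_on_six hFG hE
  simp only [abs_mul, mul_pow] at h
  rw [int_mul hKL (hF.abs.pow 6) (hG.abs.pow 6), Real.mul_rpow (integral_nonneg fun _ => by positivity)
    (integral_nonneg fun _ => by positivity)] at h
  exact h

/-- Jensen: the first moment is at most the sixth root of the sixth moment. -/
theorem int_le_six (hF : DepF K F) :
    ∫ w, |F w| ∂μ ≤ (∫ w, |F w| ^ 6 ∂μ) ^ (1 / 6 : ℝ) := by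
  have h := int_on_six hF MeasurableSet.univ
  simpa using h

/-! ### the forms used in the assembly -/

theorem aesm_of_pow {F : Cfg → ℝ} (h0 : ∀ w, 0 ≤ F w) {m : ℕ} (hm : m ≠ 0)
    (hF : Integrable (fun w => F w ^ m) μ) : AEStronglyMeasurable F μ := by
  have h1 : AEMeasurable (fun w => (F w ^ m) ^ ((m : ℝ)⁻¹)) μ :=
    hF.aestronglyMeasurable.aemeasurable.pow_const _
  refine (h1.congr (Filter.Eventually.of_forall fun w => ?_)).aestronglyMeasurable
  exact Real.pow_rpow_inv_natCast (h0 w) hm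

theorem memLp_of_pow {F : Cfg → ℝ} (h0 : ∀ w, 0 ≤ F w) {m : ℕ} (hm : m ≠ 0)
    (hF : Integrable (fun w => F w ^ m) μ) : MemLp F (ENNReal.ofReal m) μ := by
  have hm' : (m : ℝ) ≠ 0 := by exact_mod_cast hm
  have h1 := aesm_of_pow h0 hm hF
  have h3 : (ENNReal.ofReal m).toReal = m := ENNReal.toReal_ofReal (Nat.cast_nonneg m)
  rw [← integrable_norm_rpow_iff h1 (by simp [hm]) ENNReal.ofReal_ne_top]
  rw [h3]
  refine hF.congr (Filter.Eventually.of_forall fun w => ?_)
  show F w ^ m = ‖F w‖ ^ (m : ℝ)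
  rw [Real.norm_of_nonneg (h0 w), Real.rpow_natCast]

theorem real_le_one (E : Set Cfg) : μ.real E ≤ 1 := measureReal_le_one

/-- Jensen. -/
theorem int_le_pow {F : Cfg → ℝ} (h0 : ∀ w, 0 ≤ F w) {m : ℕ} (hm : 2 ≤ m)
    (hF : Integrable (fun w => F w ^ m) μ) {E : Set Cfg} (hE : MeasurableSet E) :
    Integrable F μ ∧
    ∫ w in E, F w ∂μ ≤ (∫ w, F w ^ m ∂μ) ^ (1 / m : ℝ) * μ.real E ^ (1 - 1 / m : ℝ) := by
  have hm0 : m ≠ 0 := by omega
  have hm1 : (1 : ℝ) < m := by exact_mod_cast (by omega : 1 < m)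
  have h1 := memLp_of_pow h0 hm0 hF
  have h2 : Integrable F μ := by
    rw [← memLp_one_iff_integrable]
    refine h1.mono_exponent ?_
    rw [show (1 : ENNReal) = ENNReal.ofReal 1 by simp]
    exact ENNReal.ofReal_le_ofReal hm1.le
  refine ⟨h2, ?_⟩
  have hpq : (m : ℝ).HolderConjugate ((m : ℝ) / (m - 1)) := Real.HolderConjugate.conjExponent hm1
  have h3 := integral_mul_le_Lp_mul_Lq_of_nonneg (μ := μ) hpq (f := F)
    (g := E.indicator 1) (Filter.Eventually.of_forall h0)
    (Filter.Eventually.of_forall fun _ => Set.indicator_nonneg (fun _ _ => zero_le_one) _) h1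
    (MemLp.of_bound ((measurable_one.indicator hE)).aestronglyMeasurable 1
      (Filter.Eventually.of_forall fun w => by
        by_cases hw : w ∈ E <;> simp [Set.indicator, hw]))
  have h4 : ∫ w in E, F w ∂μ = ∫ w, F w * E.indicator 1 w ∂μ := by
    rw [← integral_indicator hE]
    refine integral_congr_ae (Filter.Eventually.of_forall fun w => ?_)
    by_cases hw : w ∈ E <;> simp [Set.indicator, hw]
  have h5 : ∫ w, E.indicator (1 : Cfg → ℝ) w ^ ((m : ℝ) / (m - 1)) ∂μ = μ.real E := by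
    have hq0 : (m : ℝ) / (m - 1) ≠ 0 := hpq.symm.ne_zero
    rw [← integral_indicator_one hE]
    refine integral_congr_ae (Filter.Eventually.of_forall fun w => ?_)
    by_cases hw : w ∈ E <;> simp [Set.indicator, hw, hq0]
  rw [h4]
  refine h3.trans (le_of_eq ?_)
  rw [h5]
  have e1 : (1 : ℝ) / (m / (m - 1)) = 1 - 1 / m := by
    have : (m : ℝ) - 1 ≠ 0 := by linarith
    have hp0 : (m : ℝ) ≠ 0 := by linarith
    field_simp
  rw [e1]
  congr 2
  refine integral_congr_ae (Filter.Eventually.of_forall fun w => ?_)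
  exact Real.rpow_natCast _ _

theorem rpow_real_le {E : Set Cfg} {a b : ℝ} (ha : 0 < a) (hab : a ≤ b) :
    μ.real E ^ b ≤ μ.real E ^ a := by
  rcases (measureReal_nonneg (μ := μ) (s := E)).eq_or_lt with h | h
  · rw [← h, Real.zero_rpow ha.ne', Real.zero_rpow (by linarith)]
  · exact Real.rpow_le_rpow_of_exponent_ge h (real_le_one E) hab

/-- `∫_E F ≤ ‖F‖₁₂ μ(E)^(5/6)`. -/
theorem int_on_twelve {F : Cfg → ℝ} (h0 : ∀ w, 0 ≤ F w)
    (hF : Integrable (fun w => F w ^ 12) μ) {E : Set Cfg} (hE : MeasurableSet E) :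
    Integrable F μ ∧
    ∫ w in E, F w ∂μ ≤ (∫ w, F w ^ 12 ∂μ) ^ (1 / 12 : ℝ) * μ.real E ^ (5 / 6 : ℝ) := by
  obtain ⟨h1, h2⟩ := int_le_pow h0 (m := 12) (by norm_num) hF hE
  refine ⟨h1, ?_⟩
  push_cast at h2
  refine h2.trans (mul_le_mul_of_nonneg_left (rpow_real_le (by norm_num) (by norm_num)) ?_)
  exact Real.rpow_nonneg (integral_nonneg fun _ => by positivity) _

/-- `∫ F ≤ ‖F‖₁₂`. -/
theorem int_le_twelve {F : Cfg → ℝ} (h0 : ∀ w, 0 ≤ F w)
    (hF : Integrable (fun w => F w ^ 12) μ) :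
    ∫ w, F w ∂μ ≤ (∫ w, F w ^ 12 ∂μ) ^ (1 / 12 : ℝ) := by
  have h := (int_on_twelve h0 hF MeasurableSet.univ).2
  simpa using h

/-- `∫_E F G ≤ ‖F‖₁₂ ‖G‖₁₂ μ(E)^(5/6)`. -/
theorem int_on_twelve₂ {F G : Cfg → ℝ} (h0 : ∀ w, 0 ≤ F w) (h0' : ∀ w, 0 ≤ G w)
    (hF : Integrable (fun w => F w ^ 12) μ) (hG : Integrable (fun w => G w ^ 12) μ)
    {E : Set Cfg} (hE : MeasurableSet E) :
    Integrable (fun w => F w * G w) μ ∧
    ∫ w in E, F w * G w ∂μ ≤ (∫ w, F w ^ 12 ∂μ) ^ (1 / 12 : ℝ) *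
      (∫ w, G w ^ 12 ∂μ) ^ (1 / 12 : ℝ) * μ.real E ^ (5 / 6 : ℝ) := by
  have mF := aesm_of_pow h0 (by norm_num) hF
  have mG := aesm_of_pow h0' (by norm_num) hG
  have h6 : Integrable (fun w => (F w * G w) ^ 6) μ := by
    refine (hF.add hG).mono' ((mF.mul mG).pow 6) (Filter.Eventually.of_forall fun w => ?_)
    have a1 := h0 w
    have a2 := h0' w
    rw [Real.norm_of_nonneg (by positivity), mul_pow]
    show F w ^ 6 * G w ^ 6 ≤ F w ^ 12 + G w ^ 12
    nlinarith [sq_nonneg (F w ^ 6 - G w ^ 6), sq_nonneg (F w ^ 6), sq_nonneg (G w ^ 6)]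
  obtain ⟨h1, h2⟩ := int_le_pow (fun w => mul_nonneg (h0 w) (h0' w)) (m := 6) (by norm_num) h6 hE
  refine ⟨h1, h2.trans ?_⟩
  -- Cauchy-Schwarz
  have b1 : MemLp (fun w => F w ^ 6) (ENNReal.ofReal 2) μ := by
    have := memLp_of_pow (F := fun w => F w ^ 6) (fun w => by have := h0 w; positivity) (m := 2)
      (by norm_num) (by simpa [← pow_mul] using hF)
    simpa using this
  have b2 : MemLp (fun w => G w ^ 6) (ENNReal.ofReal 2) μ := by
    have := memLp_of_pow (F := fun w => G w ^ 6) (fun w => by have := h0' w; positivity) (m := 2)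
      (by norm_num) (by simpa [← pow_mul] using hG)
    simpa using this
  have h3 := integral_mul_le_Lp_mul_Lq_of_nonneg (μ := μ) Real.HolderConjugate.two_two
    (f := fun w => F w ^ 6) (g := fun w => G w ^ 6)
    (Filter.Eventually.of_forall fun w => by have := h0 w; positivity)
    (Filter.Eventually.of_forall fun w => by have := h0' w; positivity) b1 b2
  have e1 : ∀ H : Cfg → ℝ, ∫ w, (H w ^ 6) ^ (2 : ℝ) ∂μ = ∫ w, H w ^ 12 ∂μ := by
    intro H
    refine integral_congr_ae (Filter.Eventually.of_forall fun w => ?_)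
    show (H w ^ 6) ^ (2 : ℝ) = H w ^ 12
    rw [Real.rpow_two, ← pow_mul]
  rw [e1, e1] at h3
  have pF : 0 ≤ ∫ w, F w ^ 12 ∂μ := integral_nonneg fun _ => by positivity
  have pG : 0 ≤ ∫ w, G w ^ 12 ∂μ := integral_nonneg fun _ => by positivity
  have h4 : (∫ w, (F w * G w) ^ 6 ∂μ) ^ (1 / (6 : ℕ) : ℝ) ≤
      (∫ w, F w ^ 12 ∂μ) ^ (1 / 12 : ℝ) * (∫ w, G w ^ 12 ∂μ) ^ (1 / 12 : ℝ) := by
    have h5 : ∫ w, (F w * G w) ^ 6 ∂μ ≤
        (∫ w, F w ^ 12 ∂μ) ^ (1 / 2 : ℝ) * (∫ w, G w ^ 12 ∂μ) ^ (1 / 2 : ℝ) := by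
      simpa [mul_pow] using h3
    have h6' : 0 ≤ ∫ w, (F w * G w) ^ 6 ∂μ := integral_nonneg fun _ => by positivity
    refine (Real.rpow_le_rpow h6' h5 (by positivity)).trans (le_of_eq ?_)
    rw [Real.mul_rpow (by positivity) (by positivity), ← Real.rpow_mul pF, ← Real.rpow_mul pG]
    norm_num
  have h7 : μ.real E ^ (1 - 1 / (6 : ℕ) : ℝ) = μ.real E ^ (5 / 6 : ℝ) := by norm_num
  rw [h7]
  exact mul_le_mul_of_nonneg_right h4 (by positivity)

open Classical in
/-- **Decoupling from an event.** `F` depends on `K`, `H` on `K'`, the events `G` and `E` on `L`; off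
`E` the event `G` does not feel the squares of `K`. -/
theorem decouple_set {K K' L : Finset (ℤ × ℤ)} (hK : Disjoint K K') {F H : Cfg → ℝ}
    (hF : DepF K F) (hH : DepF K' H) {G E : Set Cfg} (hG : DepF L (fun w => w ∈ G))
    (hE : DepF L (fun w => w ∈ E))
    (h : ∀ w w' : Cfg, (∀ v, v ∉ K → w v = w' v) → w ∉ E → w' ∉ E → (w ∈ G ↔ w' ∈ G)) :
    |∫ w, F w * (H w * if w ∈ G then 1 else 0) ∂μ -
      (∫ w, F w ∂μ) * ∫ w, (H w * if w ∈ G then 1 else 0) ∂μ| ≤
      ∫ w in E, |F w| * |H w| ∂μ + (∫ w, |F w| ∂μ) * ∫ w in E, |H w| ∂μ := by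
  set Gt : Set Cfg := {w | ∃ w' : Cfg, (∀ v, v ∉ K → w v = w' v) ∧ w' ∉ E ∧ w' ∈ G} with hGt
  have hme : MeasurableSet E := hE.measSet
  have hmG : MeasurableSet G := hG.measSet
  have dGt : DepF (L \ K) (fun w => w ∈ Gt) := by
    refine DepF.prop fun w1 w2 hw h1 => ?_
    obtain ⟨w', h2, h3, h4⟩ := h1
    have key : ∀ v ∈ L, w' v = (if v ∈ K then w' v else w2 v) := by
      intro v hv
      by_cases hvK : v ∈ K
      · rw [if_pos hvK]
      · rw [if_neg hvK, ← h2 v hvK]
        exact hw v (mem_sdiff.2 ⟨hv, hvK⟩)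
    refine ⟨fun v => if v ∈ K then w' v else w2 v, fun v hv => by simp [hv], ?_, ?_⟩
    · have := hE w' (fun v => if v ∈ K then w' v else w2 v) key
      exact fun h5 => h3 (this.mpr h5)
    · exact (hG w' (fun v => if v ∈ K then w' v else w2 v) key).mp h4
  have hoff : ∀ w, w ∉ E → (w ∈ G ↔ w ∈ Gt) := by
    intro w hw
    constructor
    · exact fun hG' => ⟨w, fun _ _ => rfl, hw, hG'⟩
    · rintro ⟨w', h2, h3, h4⟩
      exact (h w w' h2 hw h3).2 h4
  -- the two functions
  set X : Cfg → ℝ := fun w => H w * if w ∈ G then 1 else 0 with hX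
  set Xt : Cfg → ℝ := fun w => H w * if w ∈ Gt then 1 else 0 with hXt
  have dX : DepF (K' ∪ L) X := by
    refine DepF.mul (hH.mono subset_union_left) ?_
    exact DepF.ite (hG.mono subset_union_right) (depF_const _ _) (depF_const _ _)
  have dXt : DepF ((K' ∪ L) \ K) Xt := by
    refine DepF.mul (hH.mono ?_) ?_
    · intro v hv
      exact mem_sdiff.2 ⟨mem_union_left _ hv, fun h => disjoint_left.1 hK h hv⟩
    · exact DepF.ite (dGt.mono (sdiff_subset_sdiff subset_union_right le_rfl)) (depF_const _ _)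
        (depF_const _ _)
  have h1 := int_mul (disjoint_sdiff (s := K) (t := K' ∪ L)) hF dXt
  have dbig : ∀ {Y : Cfg → ℝ}, DepF (K' ∪ L) Y → Integrable (fun w => F w * Y w) μ :=
    fun hY => ((hF.mono subset_union_left).mul (hY.mono subset_union_right) :
      DepF (K ∪ (K' ∪ L)) _).int
  have dXt' : DepF (K' ∪ L) Xt := dXt.mono sdiff_subset
  have e1 : ∫ w, F w * X w ∂μ - (∫ w, F w ∂μ) * ∫ w, X w ∂μ =
      ∫ w, F w * (X w - Xt w) ∂μ - (∫ w, F w ∂μ) * ∫ w, (X w - Xt w) ∂μ := by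
    have a1 : ∫ w, F w * (X w - Xt w) ∂μ = ∫ w, F w * X w ∂μ - ∫ w, F w * Xt w ∂μ := by
      rw [← integral_sub (dbig dX) (dbig dXt')]
      exact integral_congr_ae (Filter.Eventually.of_forall fun w => mul_sub _ _ _)
    have a2 : ∫ w, (X w - Xt w) ∂μ = ∫ w, X w ∂μ - ∫ w, Xt w ∂μ := integral_sub dX.int dXt.int
    rw [a1, a2, h1]
    ring
  rw [e1]
  have hd : ∀ w, |X w - Xt w| ≤ E.indicator (fun w => |H w|) w := by
    intro w
    by_cases hw : w ∈ E
    · rw [Set.indicator_of_mem hw]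
      simp only [hX, hXt]
      split_ifs <;> simp
    · rw [Set.indicator_of_notMem hw]
      simp only [hX, hXt, hoff w hw, sub_self, abs_zero, le_refl]
  have i1 : Integrable (E.indicator fun w => |H w|) μ := hH.abs.int.indicator hme
  have i2 : Integrable (fun w => |F w| * E.indicator (fun w => |H w|) w) μ := by
    have : (fun w => |F w| * E.indicator (fun w => |H w|) w) =
        E.indicator fun w => |F w| * |H w| := by
      funext w
      by_cases hw : w ∈ E <;> simp [Set.indicator, hw]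
    rw [this]
    exact ((hF.abs.mono subset_union_left).mul (hH.abs.mono subset_union_right) :
      DepF (K ∪ K') _).int.indicator hme
  refine (abs_sub _ _).trans (add_le_add ?_ ?_)
  · refine abs_integral_le_integral_abs.trans ?_
    have e2 : ∫ w in E, |F w| * |H w| ∂μ = ∫ w, |F w| * E.indicator (fun w => |H w|) w ∂μ := by
      rw [← integral_indicator hme]
      refine integral_congr_ae (Filter.Eventually.of_forall fun w => ?_)
      by_cases hw : w ∈ E <;> simp [Set.indicator, hw]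
    rw [e2]
    refine integral_mono (dbig (dX.sub dXt')).abs i2 fun w => ?_
    show |F w * (X w - Xt w)| ≤ _
    rw [abs_mul]
    exact mul_le_mul_of_nonneg_left (hd w) (abs_nonneg _)
  · rw [abs_mul]
    refine mul_le_mul abs_integral_le_integral_abs ?_ (abs_nonneg _)
      (integral_nonneg fun _ => abs_nonneg _)
    refine abs_integral_le_integral_abs.trans ?_
    rw [← integral_indicator hme]
    exact integral_mono (dX.sub dXt').int.abs i1 hd

end dec

/-! ### the functionals of the pieces -/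

section pieces

variable {D Z : Finset (ℤ × ℤ)} {p : ℤ × ℤ} {f : ℤ × ℤ → ℝ} {b : ℤ × ℤ} {r R : ℤ}

theorem dep_pcs (D : Finset (ℤ × ℤ)) : DepF D (fun w => pcs w D) := fun _ _ hw => pcs_congr hw

theorem dep_XD : DepF D (XD D p f) := fun _ _ hw => XD_congr hw p f

theorem dep_XZ : DepF D (XZ D p f Z) := by
  intro w w' hw
  unfold XZ
  rw [pcs_congr hw]

theorem dep_Iso : DepF (hbox b R) (Iso b r R) := by
  intro w w' hw
  unfold Iso
  rw [pcs_congr hw]

theorem dep_XB : DepF (hbox b R) (XB b r R f) :=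
  DepF.ite dep_Iso dep_XZ (depF_const _ _)

theorem dep_Gd {a : ℤ × ℤ} : DepF D (Gd D Z p a b) := by
  intro w w' hw
  unfold Gd
  rw [pcs_congr hw]

theorem dep_Crs : DepF D (Crs D b r R) := by
  intro w w' hw
  unfold Crs
  rw [pcs_congr hw]

theorem cs_congr {c : Bool} {w w' : Cfg} (hw : ∀ v ∈ D, w v = w' v) :
    Vale.Agent.P167.H632.cs c w ∩ (↑D : Set (ℤ × ℤ)) =
      Vale.Agent.P167.H632.cs c w' ∩ (↑D : Set (ℤ × ℤ)) := by
  ext v
  simp only [Set.mem_inter_iff, mem_coe, Vale.Agent.P167.H632.cs]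
  constructor <;> rintro ⟨h1, h2⟩ <;> refine ⟨?_, h2⟩
  · cases c <;> simpa [op, hw v h2] using h1
  · cases c <;> simpa [op, hw v h2] using h1

theorem dep_Jn {c : Bool} {U T : Set (ℤ × ℤ)} : DepF D (fun w => Jn c D w U T) := by
  intro w w' hw
  show Jn c D w U T = Jn c D w' U T
  unfold Jn
  rw [cs_congr hw]

open Classical in
/-- The indicator of `Jn`. -/
theorem dep_iJn {c : Bool} {U T : Set (ℤ × ℤ)} :
    DepF D (fun w => if Jn c D w U T then (1 : ℝ) else 0) :=
  DepF.ite dep_Jn (depF_const _ _) (depF_const _ _)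

open Classical in
/-- The indicator of `Gd`. -/
theorem dep_iGd {a : ℤ × ℤ} : DepF D (fun w => if Gd D Z p a b w then (1 : ℝ) else 0) :=
  DepF.ite dep_Gd (depF_const _ _) (depF_const _ _)

open Classical in
/-- The indicator of `Iso`. -/
theorem dep_iIso : DepF (hbox b R) (fun w => if Iso b r R w then (1 : ℝ) else 0) :=
  DepF.ite dep_Iso (depF_const _ _) (depF_const _ _)

end pieces

end Vale.Agent.P167.BR
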