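import Vale.Agent.P167.BR.Flat
import Vale.Agent.P167.H192.TA.Main

/-!
# P167, BRIDGE: the isolation event

A piece of `D` which visits the half box of radius `r` of the flat point `b` and comes to distance `R` of
`b` gives a primal and a dual crossing of the half annulus of radii `r + 2`, `R - 2`. Hence the isolation
event has probability at least `1 - C r / R`.
-/

namespace Vale.Agent.P167.BR

open Finset MeasureTheory Vale.Agent.P145.FB Vale.Agent.P167.H632
open Vale.Agent.P167.H871 (Dep)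
open Vale.Agent.P167.E2 Relation

variable {ω ω' : Cfg} {D Z : Finset (ℤ × ℤ)} {e e' : Ed} {A : Finset Ed} {b : ℤ × ℤ} {r R : ℤ}

/-- The squares of the box of radius `R` around `b`. -/
def bx (b : ℤ × ℤ) (R : ℤ) : Set (ℤ × ℤ) :=
  {v | b.1 - R ≤ v.1 ∧ v.1 < b.1 + R ∧ b.2 - R ≤ v.2 ∧ v.2 < b.2 + R}

/-- The right and left sides of a medial edge which is incident to `D`. -/
def sd (c : Bool) (e : Ed) : ℤ × ℤ := if c then ls e else rs e

theorem sd_parity (c : Bool) (e : Ed) : ((sd c e).1 + (sd c e).2) % 2 = pr c := by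
  cases c
  · have := odd_rs e
    rw [Int.even_iff] at this
    simp only [sd, pr, Bool.false_eq_true, if_false]
    omega
  · have := even_ls e
    rw [Int.even_iff] at this
    simp only [sd, pr, if_true]
    omega

theorem sd_mem_sites (c : Bool) (h : e ∈ eds D) : sd c e ∈ sites D := by
  cases c
  · exact rs_mem_sites h
  · exact ls_mem_sites h

theorem corner_sd (c : Bool) (e : Ed) :
    (((sd c e).1 = (hdv e).1 ∨ (sd c e).1 = (hdv e).1 + 1) ∧
      ((sd c e).2 = (hdv e).2 ∨ (sd c e).2 = (hdv e).2 + 1)) ∧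
    (((sd c e).1 = (tlv e).1 ∨ (sd c e).1 = (tlv e).1 + 1) ∧
      ((sd c e).2 = (tlv e).2 ∨ (sd c e).2 = (tlv e).2 + 1)) := by
  obtain ⟨h1, h2, h3, h4⟩ := corner_hd e
  obtain ⟨k1, k2, k3, k4⟩ := corner_tl e
  cases c
  · exact ⟨⟨h3, h4⟩, k3, k4⟩
  · exact ⟨⟨h1, h2⟩, k1, k2⟩

theorem sd_step (c : Bool) (he : hdv e ∈ D) :
    sd c (nx ω e) = sd c e ∨ PStep (cs c ω ∩ (↑D : Set (ℤ × ℤ))) (sd c e) (sd c (nx ω e)) := by
  have h : sd c (nx ω e) = sd c e ∨ Stp ω D (sd c e) (sd c (nx ω e)) := by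
    cases c
    · exact rs_stp he
    · exact ls_stp he
  exact h.imp id (stp_iff (sd_parity c e)).1

/-- The chain of sites of colour `c` along a run. -/
theorem chain (c : Bool) {k : ℕ} (he : e ∈ eds D) (h : Run ω D e k e') :
    PConn (cs c ω ∩ (↑D : Set (ℤ × ℤ))) (↑(sites D)) (sd c e) (sd c e') := by
  obtain ⟨rfl, h⟩ := h
  induction k with
  | zero => exact PConn.refl (by exact_mod_cast sd_mem_sites c he)
  | succ k ih =>
    have h1 := ih fun j hj => h j (by omega)
    have h2 := h k (by omega)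
    rw [Function.iterate_succ_apply']
    rcases sd_step (ω := ω) c h2 with h3 | h3
    · rw [h3]
      exact h1
    · exact h1.tail h3 (by exact_mod_cast sd_mem_sites c (nx_mem_eds h2))

theorem flat_of_flt (hF : Flt D b R) : Flat (↑D : Set (ℤ × ℤ)) b (R - 1) := by
  intro v hv
  rw [mem_bl] at hv
  rw [Finset.mem_coe]
  exact hF v (by omega) (by omega) (by omega) (by omega)

theorem flt_hbox : Flt (hbox b R) b R := by
  intro v h1 h2 h3 h4
  rw [mem_hbox]
  omega

theorem nm_of_eds (c : Bool) (he : e ∈ eds (hbox b r)) : nm (sd c e - b) ≤ r := by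
  obtain ⟨h1, h2⟩ := corner_sd c e
  rw [mem_eds, mem_hbox, mem_hbox] at he
  rw [nm_le]
  simp only [Prod.fst_sub, Prod.snd_sub]
  rcases he with he | he <;> omega

theorem nm_of_out (c : Bool) (he : hdv e ∉ bx b R ∨ tlv e ∉ bx b R) : R ≤ nm (sd c e - b) := by
  obtain ⟨h1, h2⟩ := corner_sd c e
  rw [le_nm]
  simp only [bx, Set.mem_ofPred_eq, Prod.fst_sub, Prod.snd_sub] at *
  rcases he with he | he <;> omega

theorem hx_of_chain (c : Bool) (hF : Flt D b R) (hrR : r + 4 ≤ R) {y y' : ℤ × ℤ}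
    (hy : (y.1 + y.2) % 2 = pr c)
    (h : PConn (cs c ω ∩ (↑D : Set (ℤ × ℤ))) (↑(sites D)) y y')
    (h1 : nm (y - b) ≤ r) (h2 : R ≤ nm (y' - b)) : ω ∈ HX c b (r + 2) (R - 2) := by
  obtain ⟨z, z', k1, k2, k3, k4, -⟩ := crossing (b := b) (r := r + 2) (R := R - 2) (by omega) h (by omega)
    (by omega)
  have hz : z ∈ hp b := by
    have h3 := k4.left_mem.1
    rw [Finset.mem_coe, mem_sites] at h3
    obtain ⟨v, hv, h4, h5⟩ := h3
    have h6 : nm (z - b) ≤ R - 2 := by omega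
    rw [nm_le] at h6
    simp only [Prod.fst_sub, Prod.snd_sub] at h6
    have h7 := (hF v (by omega) (by omega) (by omega) (by omega)).1 hv
    simp only [hp, Set.mem_ofPred_eq]
    omega
  refine ⟨z, z', ?_, k1, k2, flat_path (R := R - 1) (flat_of_flt hF) ?_ hz
    (k4.mono subset_rfl Set.inter_subset_right)⟩
  · rw [← k3.parity, hy]
  · intro w hw
    have h3 : nm (w - b) ≤ R - 2 := hw.2
    simp only [bl, Set.mem_ofPred_eq]
    omega

/-- **A strand which crosses the half annulus gives the two crossings.** -/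
theorem hx_of_run (hF : Flt D b R) (_hr : 0 ≤ r) (hrR : r + 4 ≤ R) {k : ℕ}
    (h : Run ω D e k e' ∨ Run ω D e' k e) (he : e ∈ eds (hbox b r))
    (he' : hdv e' ∉ bx b R ∨ tlv e' ∉ bx b R) :
    ω ∈ HX true b (r + 2) (R - 2) ∩ HX false b (r + 2) (R - 2) := by
  have heD : e ∈ eds D := eds_mono ((hbox_mono (by omega)).trans (hbox_sub hF)) he
  have hed : e' ∈ eds D := (mem_eds_of_eqvGen (eqvGen_iff.2 ⟨k, h⟩)).1 heD
  have key : ∀ c : Bool, ω ∈ HX c b (r + 2) (R - 2) := by
    intro c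
    refine hx_of_chain c hF hrR (sd_parity c e) ?_ (nm_of_eds c he) (nm_of_out c he')
    rcases h with h | h
    · exact chain c heD h
    · exact (chain c hed h).symm
  exact ⟨key true, key false⟩

/-- **Non isolation implies the two crossings.** -/
theorem hx_of_not_iso (hr : 0 ≤ r) (hrR : r + 4 ≤ R) (h : ¬ Iso b r R ω) :
    ω ∈ HX true b (r + 2) (R - 2) ∩ HX false b (r + 2) (R - 2) := by
  unfold Iso at h
  push Not at h
  obtain ⟨A, hA, ⟨e, heA, he⟩, e', he'A, he'⟩ := h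
  obtain ⟨k, hk⟩ := run_of_mem hA heA he'A
  refine hx_of_run flt_hbox hr hrR hk he ?_
  have hh := mem_hbox (b := b) (R := R) (v := hdv e')
  have ht := mem_hbox (b := b) (R := R) (v := tlv e')
  by_cases h1 : hdv e' ∈ hbox b R ∨ (hdv e').2 < b.2
  · right
    have h2 := he' h1
    rw [ht] at h2
    simp only [bx, Set.mem_ofPred_eq]
    omega
  · left
    rw [hh] at h1
    simp only [bx, Set.mem_ofPred_eq]
    omega

theorem not_iso_subset (hr : 0 ≤ r) (hrR : r + 4 ≤ R) :
    {ω : Cfg | ¬ Iso b r R ω} ⊆ HX true b (r + 2) (R - 2) ∩ HX false b (r + 2) (R - 2) :=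
  fun _ h => hx_of_not_iso hr hrR h

/-! ### Probability -/

theorem iso_congr (h : ∀ v ∈ hbox b R, ω v = ω' v) : Iso b r R ω ↔ Iso b r R ω' := by
  unfold Iso
  rw [pcs_congr h]

theorem dep_iso (b : ℤ × ℤ) (r R : ℤ) : Dep (hbox b R) {ω | Iso b r R ω} :=
  fun _ _ ho h => (iso_congr ho).1 h

theorem meas_iso (b : ℤ × ℤ) (r R : ℤ) : MeasurableSet {ω : Cfg | Iso b r R ω} :=
  (dep_iso b r R).meas

theorem dep_not_iso (b : ℤ × ℤ) (r R : ℤ) : Dep (hbox b R) {ω | ¬ Iso b r R ω} :=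
  fun _ _ ho h h' => h ((iso_congr ho).2 h')

theorem meas_not_iso (b : ℤ × ℤ) (r R : ℤ) : MeasurableSet {ω : Cfg | ¬ Iso b r R ω} :=
  (dep_not_iso b r R).meas

/-- The pair of crossings depends on the squares of the half annulus. -/
theorem dep_HX2 (b : ℤ × ℤ) (r R : ℤ) : Dep (aq b r R) (HX true b r R ∩ HX false b r R) :=
  fun _ _ ho h => ⟨dep_HX true b r R _ _ ho h.1, dep_HX false b r R _ _ ho h.2⟩

/-- **The isolation event has probability at least `1 - C r / R`.** -/
theorem iso_le : ∃ C : ℝ, 0 < C ∧ ∀ (b : ℤ × ℤ) (r R : ℤ), 1 ≤ r → r ≤ R →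
    μ.real {ω : Cfg | ¬ Iso b r R ω} ≤ C * ((r : ℝ) / R) := by
  have hp := H871.fair_mu.prob
  obtain ⟨C, hC, h⟩ := H192.TA.two_arm
  refine ⟨max 8 (6 * C), by positivity, fun b r R hr hrR => ?_⟩
  have hr' : (1 : ℝ) ≤ r := by exact_mod_cast hr
  have hR' : (r : ℝ) ≤ R := by exact_mod_cast hrR
  have hRp : (0 : ℝ) < R := by linarith
  have hq : 0 ≤ (r : ℝ) / R := by positivity
  by_cases hbig : R < 8 * r
  · have h1 : (R : ℝ) < 8 * r := by exact_mod_cast hbig
    have h2 : 1 ≤ 8 * ((r : ℝ) / R) := by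
      rw [mul_div_assoc', one_le_div hRp]
      exact h1.le
    calc μ.real {ω : Cfg | ¬ Iso b r R ω} ≤ 1 := measureReal_le_one
      _ ≤ 8 * ((r : ℝ) / R) := h2
      _ ≤ _ := by gcongr; exact le_max_left _ _
  · push Not at hbig
    have h1 : (8 : ℝ) * r ≤ R := by exact_mod_cast hbig
    have h2 := h b (r + 2) (R - 2) (by omega) (by omega)
    push_cast at h2
    have h3 : ((r : ℝ) + 2) / (R - 2) ≤ 6 * (r / R) := by
      rw [mul_div_assoc', div_le_div_iff₀ (by linarith) hRp]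
      nlinarith
    calc μ.real {ω : Cfg | ¬ Iso b r R ω}
        ≤ μ.real (HX true b (r + 2) (R - 2) ∩ HX false b (r + 2) (R - 2)) :=
          measureReal_mono (not_iso_subset (by omega) (by omega))
      _ ≤ C * (((r : ℝ) + 2) / (R - 2)) := h2
      _ ≤ C * (6 * (r / R)) := by gcongr
      _ = 6 * C * (r / R) := by ring
      _ ≤ _ := by gcongr; exact le_max_right _ _

end Vale.Agent.P167.BR
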