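import Vale.Agent.P167.BR.Bd
import Vale.Agent.P167.BR.Ind
import Vale.Agent.P167.BR.TwoArm

/-!
# P167, BRIDGE: estimates

Probability of crossings by pieces, Hölder inequality for the majorants, comparison of two functionals
which agree off an event, decoupling.
-/

namespace Vale.Agent.P167.BR

open Finset MeasureTheory Vale.Agent.P145.FB Vale.Agent.P167.H632
open Vale.Agent.P167.E6 (IsPolygon Encloses dir face)

variable {ω ω' : Cfg} {D Z K K' L : Finset (ℤ × ℤ)} {e e' : Ed} {A : Finset Ed} {b : ℤ × ℤ}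
  {r R : ℤ}

/-! ### Crossings -/

theorem hx_of_crs (hF : Flt D b R) (hr : 0 ≤ r) (hrR : r + 4 ≤ R) (h : Crs D b r R ω) :
    ω ∈ HX true b (r + 2) (R - 2) ∩ HX false b (r + 2) (R - 2) := by
  obtain ⟨A, hA, ⟨e, heA, he⟩, e', he'A, he'⟩ := h
  obtain ⟨k, hk⟩ := run_of_mem hA heA he'A
  exact hx_of_run hF hr hrR hk he he'

/-- **Crossings by pieces are rare.** -/
theorem crs_le : ∃ C : ℝ, 0 < C ∧ ∀ (D : Finset (ℤ × ℤ)) (b : ℤ × ℤ) (r R : ℤ), Flt D b R →
    1 ≤ r → r ≤ R → μ.real {ω : Cfg | Crs D b r R ω} ≤ C * ((r : ℝ) / R) := by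
  have hp := H871.fair_mu.prob
  obtain ⟨C, hC, h⟩ := H192.TA.two_arm
  refine ⟨max 8 (6 * C), by positivity, fun D b r R hF hr hrR => ?_⟩
  have hr' : (1 : ℝ) ≤ r := by exact_mod_cast hr
  have hR' : (r : ℝ) ≤ R := by exact_mod_cast hrR
  have hRp : (0 : ℝ) < R := by linarith
  have hq : 0 ≤ (r : ℝ) / R := by positivity
  by_cases hbig : R < 8 * r
  · have h1 : (R : ℝ) < 8 * r := by exact_mod_cast hbig
    have h2 : 1 ≤ 8 * ((r : ℝ) / R) := by
      rw [mul_div_assoc', one_le_div hRp]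
      exact h1.le
    calc μ.real {ω : Cfg | Crs D b r R ω} ≤ 1 := measureReal_le_one
      _ ≤ 8 * ((r : ℝ) / R) := h2
      _ ≤ _ := by gcongr; exact le_max_left _ _
  · push Not at hbig
    have h1 : (8 : ℝ) * r ≤ R := by exact_mod_cast hbig
    have h2 := h b (r + 2) (R - 2) (by omega) (by omega)
    push_cast at h2
    have h3 : ((r : ℝ) + 2) / (R - 2) ≤ 6 * (r / R) := by
      rw [mul_div_assoc', div_le_div_iff₀ (by linarith) hRp]
      nlinarith
    calc μ.real {ω : Cfg | Crs D b r R ω}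
        ≤ μ.real (HX true b (r + 2) (R - 2) ∩ HX false b (r + 2) (R - 2)) :=
          measureReal_mono fun _ h => hx_of_crs hF (by omega) (by omega) h
      _ ≤ C * (((r : ℝ) + 2) / (R - 2)) := h2
      _ ≤ C * (6 * (r / R)) := by gcongr
      _ = 6 * C * (r / R) := by ring
      _ ≤ _ := by gcongr; exact le_max_right _ _

/-! ### Hölder -/

theorem aesm_of_pow12 {F : Cfg → ℝ} (hF : ∀ ω, 0 ≤ F ω) (iF : Integrable (fun ω => F ω ^ 12) μ) :
    AEStronglyMeasurable F μ := by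
  have h := (iF.aestronglyMeasurable.aemeasurable.pow_const ((12 : ℕ) : ℝ)⁻¹).aestronglyMeasurable
  refine h.congr (Filter.Eventually.of_forall fun ω => ?_)
  simp only
  exact Real.pow_rpow_inv_natCast (hF ω) (by norm_num)

/-- Hölder's inequality with the exponents `12`, `12`, `6 / 5`. -/
theorem hol {F G : Cfg → ℝ} (hF : ∀ ω, 0 ≤ F ω) (hG : ∀ ω, 0 ≤ G ω)
    (iF : Integrable (fun ω => F ω ^ 12) μ) (iG : Integrable (fun ω => G ω ^ 12) μ) {A B : ℝ}
    (hA : 0 < A) (hB : 0 < B) (hFA : ∫ ω, F ω ^ 12 ∂μ ≤ A ^ 12) (hGB : ∫ ω, G ω ^ 12 ∂μ ≤ B ^ 12)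
    {E : Set Cfg} :
    IntegrableOn (fun ω => F ω * G ω) E μ ∧
      ∫ ω in E, F ω * G ω ∂μ ≤ A * B * μ.real E ^ (5 / 6 : ℝ) := by
  have hp := H871.fair_mu.prob
  have mFG : AEStronglyMeasurable (fun ω => F ω * G ω) (μ.restrict E) :=
    ((aesm_of_pow12 hF iF).mul (aesm_of_pow12 hG iG)).restrict
  by_cases ht : μ.real E = 0
  · have h0 : μ.restrict E = 0 := by
      rw [Measure.restrict_eq_zero]
      exact (measureReal_eq_zero_iff (measure_ne_top _ _)).1 ht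
    refine ⟨?_, ?_⟩
    · rw [IntegrableOn, h0]
      exact integrable_zero_measure
    · rw [h0, integral_zero_measure]
      exact mul_nonneg (mul_nonneg hA.le hB.le) (Real.rpow_nonneg measureReal_nonneg _)
  have ht0 : 0 < μ.real E := lt_of_le_of_ne measureReal_nonneg (Ne.symm ht)
  set t := μ.real E with htd
  have key : ∀ ω, F ω * G ω ≤ A * B * t ^ (5 / 6 : ℝ) *
      (1 / 12 * (F ω ^ 12 / A ^ 12) + 1 / 12 * (G ω ^ 12 / B ^ 12) + 10 / 12 * (1 / t)) := by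
    intro ω
    have h := Real.geom_mean_le_arith_mean3_weighted (w₁ := 1 / 12) (w₂ := 1 / 12)
      (w₃ := 10 / 12) (p₁ := (F ω / A) ^ 12) (p₂ := (G ω / B) ^ 12) (p₃ := 1 / t)
      (by norm_num) (by norm_num) (by norm_num)
      (pow_nonneg (div_nonneg (hF ω) hA.le) _) (pow_nonneg (div_nonneg (hG ω) hB.le) _)
      (by positivity) (by norm_num)
    have e1 : ((F ω / A) ^ 12) ^ (1 / 12 : ℝ) = F ω / A := by
      have := Real.pow_rpow_inv_natCast (div_nonneg (hF ω) hA.le) (show (12 : ℕ) ≠ 0 by norm_num)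
      rwa [show (((12 : ℕ) : ℝ))⁻¹ = (1 / 12 : ℝ) by norm_num] at this
    have e2 : ((G ω / B) ^ 12) ^ (1 / 12 : ℝ) = G ω / B := by
      have := Real.pow_rpow_inv_natCast (div_nonneg (hG ω) hB.le) (show (12 : ℕ) ≠ 0 by norm_num)
      rwa [show (((12 : ℕ) : ℝ))⁻¹ = (1 / 12 : ℝ) by norm_num] at this
    have e3 : (1 / t) ^ (10 / 12 : ℝ) = 1 / t ^ (5 / 6 : ℝ) := by
      rw [Real.div_rpow zero_le_one ht0.le, Real.one_rpow]
      norm_num
    rw [e1, e2, e3, div_pow, div_pow] at h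
    have h4 : 0 < t ^ (5 / 6 : ℝ) := Real.rpow_pos_of_pos ht0 _
    have h5 : F ω * G ω = A * B * t ^ (5 / 6 : ℝ) *
        (F ω / A * (G ω / B) * (1 / t ^ (5 / 6 : ℝ))) := by
      field_simp
    rw [h5]
    exact mul_le_mul_of_nonneg_left h (by positivity)
  have hint : IntegrableOn (fun ω => A * B * t ^ (5 / 6 : ℝ) *
      (1 / 12 * (F ω ^ 12 / A ^ 12) + 1 / 12 * (G ω ^ 12 / B ^ 12) + 10 / 12 * (1 / t))) E μ := by
    refine Integrable.const_mul (Integrable.add (Integrable.add ?_ ?_) ?_) _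
    · exact ((iF.div_const _).const_mul _).integrableOn
    · exact ((iG.div_const _).const_mul _).integrableOn
    · exact integrable_const _
  have hi : IntegrableOn (fun ω => F ω * G ω) E μ := by
    refine Integrable.mono' hint mFG (Filter.Eventually.of_forall fun ω => ?_)
    rw [Real.norm_eq_abs, abs_of_nonneg (mul_nonneg (hF ω) (hG ω))]
    exact key ω
  refine ⟨hi, (setIntegral_mono hi hint key).trans ?_⟩
  rw [integral_const_mul]
  have h4 : 0 < t ^ (5 / 6 : ℝ) := Real.rpow_pos_of_pos ht0 _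
  have h6 : ∫ ω in E, (1 / 12 * (F ω ^ 12 / A ^ 12) + 1 / 12 * (G ω ^ 12 / B ^ 12) +
      10 / 12 * (1 / t)) ∂μ ≤ 1 := by
    have i1 : IntegrableOn (fun ω => 1 / 12 * (F ω ^ 12 / A ^ 12)) E μ :=
      ((iF.div_const _).const_mul _).integrableOn
    have i2 : IntegrableOn (fun ω => 1 / 12 * (G ω ^ 12 / B ^ 12)) E μ :=
      ((iG.div_const _).const_mul _).integrableOn
    have i12 : IntegrableOn (fun ω => 1 / 12 * (F ω ^ 12 / A ^ 12) +
        1 / 12 * (G ω ^ 12 / B ^ 12)) E μ := i1.add i2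
    rw [integral_add i12 (integrable_const _), integral_add i1 i2, integral_const_mul,
      integral_const_mul, integral_div, integral_div, setIntegral_const, smul_eq_mul, ← htd]
    have j1 : ∫ ω in E, F ω ^ 12 ∂μ ≤ A ^ 12 :=
      (setIntegral_le_integral iF (Filter.Eventually.of_forall fun ω =>
        pow_nonneg (hF ω) _)).trans hFA
    have j2 : ∫ ω in E, G ω ^ 12 ∂μ ≤ B ^ 12 :=
      (setIntegral_le_integral iG (Filter.Eventually.of_forall fun ω =>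
        pow_nonneg (hG ω) _)).trans hGB
    have j3 : (∫ ω in E, F ω ^ 12 ∂μ) / A ^ 12 ≤ 1 := (div_le_one (by positivity)).2 j1
    have j4 : (∫ ω in E, G ω ^ 12 ∂μ) / B ^ 12 ≤ 1 := (div_le_one (by positivity)).2 j2
    have j5 : t * (10 / 12 * (1 / t)) = 10 / 12 := by field_simp
    rw [j5]
    linarith
  calc A * B * t ^ (5 / 6 : ℝ) * _ ≤ A * B * t ^ (5 / 6 : ℝ) * 1 :=
        mul_le_mul_of_nonneg_left h6 (by positivity)
    _ = _ := mul_one _

/-- One factor. -/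
theorem hol_one {F : Cfg → ℝ} (hF : ∀ ω, 0 ≤ F ω) (iF : Integrable (fun ω => F ω ^ 12) μ) {A : ℝ}
    (hA : 0 < A) (hFA : ∫ ω, F ω ^ 12 ∂μ ≤ A ^ 12) {E : Set Cfg} :
    IntegrableOn F E μ ∧ ∫ ω in E, F ω ∂μ ≤ A * μ.real E ^ (5 / 6 : ℝ) := by
  have hp := H871.fair_mu.prob
  have h := hol (G := fun _ => (1 : ℝ)) hF (fun _ => zero_le_one) iF (by simp) hA one_pos hFA
    (by simp) (E := E)
  simpa using h

theorem hol_int {F : Cfg → ℝ} (hF : ∀ ω, 0 ≤ F ω) (iF : Integrable (fun ω => F ω ^ 12) μ) {A : ℝ}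
    (hA : 0 < A) (hFA : ∫ ω, F ω ^ 12 ∂μ ≤ A ^ 12) : Integrable F μ ∧ ∫ ω, F ω ∂μ ≤ A := by
  have hp := H871.fair_mu.prob
  have h := hol_one hF iF hA hFA (E := Set.univ)
  rw [integrableOn_univ, setIntegral_univ, probReal_univ, Real.one_rpow, mul_one] at h
  exact h

/-! ### Comparison -/

/-- Two functionals which agree off `E`. -/
theorem diff_le {X X' Y : Cfg → ℝ} (hX : DepF K X) (hX' : DepF K' X') {E : Set Cfg}
    (hE : MeasurableSet E) (iY : IntegrableOn Y E μ) (h1 : ∀ ω, ω ∉ E → X ω = X' ω)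
    (h2 : ∀ ω ∈ E, |X ω - X' ω| ≤ Y ω) :
    |∫ ω, X ω ∂μ - ∫ ω, X' ω ∂μ| ≤ ∫ ω in E, Y ω ∂μ := by
  have hp := H871.fair_mu.prob
  have hi : Integrable (fun ω => X ω - X' ω) μ := hX.int.sub hX'.int
  rw [← integral_sub hX.int hX'.int]
  have h3 : ∫ ω, (X ω - X' ω) ∂μ = ∫ ω in E, (X ω - X' ω) ∂μ := by
    symm
    refine setIntegral_eq_integral_of_forall_compl_eq_zero fun ω hω => ?_
    rw [h1 ω hω, sub_self]
  rw [h3]
  refine (abs_integral_le_integral_abs).trans ?_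
  exact setIntegral_mono_on hi.abs.integrableOn iY hE h2

open Classical in
/-- **Decoupling.** -/
theorem decouple₂ {F H : Cfg → ℝ} {G E : Cfg → Prop} (hK : Disjoint K K') (hF : DepF K F)
    (hH : DepF K' H) (hG : DepF L G) (hE : DepF L E)
    (h : ∀ w w' : Cfg, (∀ v, v ∉ K → w v = w' v) → ¬ E w → ¬ E w' → (G w ↔ G w')) :
    |∫ w, F w * (H w * if G w then 1 else 0) ∂μ -
        (∫ w, F w ∂μ) * ∫ w, H w * (if G w then 1 else 0) ∂μ| ≤
      ∫ w in {w | E w}, |F w| * |H w| ∂μ + (∫ w, |F w| ∂μ) * ∫ w in {w | E w}, |H w| ∂μ := by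
  have hp := H871.fair_mu.prob
  set Gt : Cfg → Prop := fun w => ∃ w', (∀ v, v ∉ K → w v = w' v) ∧ ¬ E w' ∧ G w' with hGt
  have hdep : DepF (L \ K) Gt := by
    refine DepF.prop fun w1 w2 h12 => ?_
    rintro ⟨w', k1, k2, k3⟩
    have h3 : ∀ v ∈ L, w' v = (fun v => if v ∈ K then w' v else w2 v) v := by
      intro v hv
      by_cases hvK : v ∈ K
      · simp [hvK]
      · simp only [hvK, if_false]
        rw [← k1 v hvK]
        exact h12 v (mem_sdiff.2 ⟨hv, hvK⟩)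
    refine ⟨fun v => if v ∈ K then w' v else w2 v, fun v hv => by simp [hv], ?_, ?_⟩
    · rw [← hE _ _ h3]
      exact k2
    · rw [← hG _ _ h3]
      exact k3
  have hoff : ∀ w, ¬ E w → (G w ↔ Gt w) := fun w hw =>
    ⟨fun hg => ⟨w, fun _ _ => rfl, hw, hg⟩, fun ⟨w', k1, k2, k3⟩ => (h w w' k1 hw k2).2 k3⟩
  have hi : ∀ {P : Cfg → Prop} {M : Finset (ℤ × ℤ)}, DepF M P →
      DepF (K' ∪ M) (fun w => H w * if P w then (1 : ℝ) else 0) := fun hP =>
    (hH.mono subset_union_left).mul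
      ((hP.mono subset_union_right).ite (depF_const _ _) (depF_const _ _))
  have h1 := hi hG
  have h2 := hi hdep
  have hd : Disjoint K (K' ∪ (L \ K)) := disjoint_union_right.2 ⟨hK, disjoint_sdiff⟩
  have e1 := int_mul hd hF h2
  have hEm : MeasurableSet {w | E w} := hE.measSet
  have iF := hF.abs.mono (subset_union_left (s₁ := K) (s₂ := K'))
  have iH := hH.abs.mono (subset_union_right (s₁ := K) (s₂ := K'))
  have ind : ∀ w, |(if G w then (1 : ℝ) else 0) - (if Gt w then (1 : ℝ) else 0)| ≤ 1 := by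
    intro w
    split_ifs <;> norm_num
  have hHd : ∀ w, |H w * (if G w then 1 else 0) - H w * (if Gt w then 1 else 0)| ≤ |H w| := by
    intro w
    rw [← mul_sub, abs_mul]
    calc |H w| * _ ≤ |H w| * 1 := mul_le_mul_of_nonneg_left (ind w) (abs_nonneg _)
      _ = _ := mul_one _
  have h3 : |∫ w, F w * (H w * if G w then 1 else 0) ∂μ -
      ∫ w, F w * (H w * if Gt w then 1 else 0) ∂μ| ≤ ∫ w in {w | E w}, |F w| * |H w| ∂μ := by
    refine diff_le ((hF.mono subset_union_left).mul (h1.mono subset_union_right))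
      ((hF.mono subset_union_left).mul (h2.mono subset_union_right)) hEm
      (iF.mul iH).int.integrableOn (fun w hw => ?_) fun w _ => ?_
    · simp only [hoff w hw]
    · rw [← mul_sub, abs_mul]
      exact mul_le_mul_of_nonneg_left (hHd w) (abs_nonneg _)
  have h4 : |∫ w, H w * (if G w then 1 else 0) ∂μ - ∫ w, H w * (if Gt w then 1 else 0) ∂μ| ≤
      ∫ w in {w | E w}, |H w| ∂μ := by
    refine diff_le h1 h2 hEm hH.abs.int.integrableOn (fun w hw => ?_) fun w _ => hHd w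
    simp only [hoff w hw]
  have h5 : |∫ w, F w ∂μ| ≤ ∫ w, |F w| ∂μ := abs_integral_le_integral_abs
  have e2 : ∫ w, F w * (H w * if G w then 1 else 0) ∂μ -
      (∫ w, F w ∂μ) * ∫ w, H w * (if G w then 1 else 0) ∂μ =
      (∫ w, F w * (H w * if G w then 1 else 0) ∂μ -
        ∫ w, F w * (H w * if Gt w then 1 else 0) ∂μ) -
      (∫ w, F w ∂μ) * (∫ w, H w * (if G w then 1 else 0) ∂μ -
        ∫ w, H w * (if Gt w then 1 else 0) ∂μ) := by
    rw [e1]
    ring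
  rw [e2]
  refine (abs_sub _ _).trans (add_le_add h3 ?_)
  rw [abs_mul]
  exact mul_le_mul h5 h4 (abs_nonneg _) ((abs_nonneg _).trans h5)

/-! ### The intermediate radius -/

theorem mid {ra Ra : ℤ} (h1 : 1 ≤ ra) (h2 : 4 * ra ≤ Ra) : ∃ R1 : ℤ, 2 * ra < R1 ∧ R1 ≤ Ra ∧
    (ra : ℝ) / R1 ≤ √((ra : ℝ) / Ra) ∧ (R1 : ℝ) / Ra ≤ 2 * √((ra : ℝ) / Ra) := by
  have h1' : (1 : ℝ) ≤ ra := by exact_mod_cast h1
  have h2' : 4 * (ra : ℝ) ≤ Ra := by exact_mod_cast h2
  have hRa : (0 : ℝ) < Ra := by linarith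
  set S : ℝ := √((ra : ℝ) * Ra) with hS
  have hSS : S * S = ra * Ra := Real.mul_self_sqrt (by positivity)
  have hS0 : 0 ≤ S := Real.sqrt_nonneg _
  have hS1 : 2 * (ra : ℝ) ≤ S := by
    rw [hS]
    exact Real.le_sqrt_of_sq_le (by nlinarith)
  have hS2 : S ≤ Ra / 2 := by
    rw [hS]
    exact Real.sqrt_le_iff.2 ⟨by positivity, by nlinarith⟩
  have hSp : 0 < S := by linarith
  have hs : √((ra : ℝ) / Ra) = S / Ra := by
    rw [Real.sqrt_eq_iff_mul_self_eq (by positivity) (by positivity)]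
    field_simp
    nlinarith
  refine ⟨⌊S⌋ + 1, ?_, ?_, ?_, ?_⟩
  · have : 2 * ra ≤ ⌊S⌋ := Int.le_floor.2 (by push_cast; exact hS1)
    omega
  · have h3 : (⌊S⌋ : ℝ) ≤ S := Int.floor_le S
    have h4 : ((⌊S⌋ + 1 : ℤ) : ℝ) ≤ Ra := by
      push_cast
      linarith
    exact_mod_cast h4
  · have h3 : S < ⌊S⌋ + 1 := Int.lt_floor_add_one S
    push_cast
    rw [hs, div_le_div_iff₀ (by linarith) hRa, ← hSS]
    nlinarith
  · have h3 : (⌊S⌋ : ℝ) ≤ S := Int.floor_le S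
    push_cast
    rw [hs, mul_div_assoc']
    gcongr
    linarith

theorem sqrt_pow {x : ℝ} (hx : 0 ≤ x) : √x ^ (5 / 6 : ℝ) = x ^ (5 / 12 : ℝ) := by
  rw [Real.sqrt_eq_rpow, ← Real.rpow_mul hx]
  norm_num

/-- `(C x) ^ (5 / 6) ≤ C x ^ (5 / 6)` for `1 ≤ C`. -/
theorem pow_le_of {C t x : ℝ} (hC : 1 ≤ C) (hx : 0 ≤ x) (ht0 : 0 ≤ t) (ht : t ≤ C * x) :
    t ^ (5 / 6 : ℝ) ≤ C * x ^ (5 / 6 : ℝ) := by
  have h1 : t ^ (5 / 6 : ℝ) ≤ (C * x) ^ (5 / 6 : ℝ) :=
    Real.rpow_le_rpow ht0 ht (by norm_num)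
  rw [Real.mul_rpow (by linarith) hx] at h1
  have h2 : C ^ (5 / 6 : ℝ) ≤ C := by
    calc C ^ (5 / 6 : ℝ) ≤ C ^ (1 : ℝ) := Real.rpow_le_rpow_of_exponent_le hC (by norm_num)
      _ = C := Real.rpow_one C
  exact h1.trans (mul_le_mul_of_nonneg_right h2 (Real.rpow_nonneg hx _))

end Vale.Agent.P167.BR
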