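import Vale.Agent.P167.BR.Est

/-!
# P167, BRIDGE: the lattice bridge from the moment input

`s_br : S_maj → S_br`, `s_mom : S_maj → S_mom`.
-/

namespace Vale.Agent.P167.BR

open Finset MeasureTheory Vale.Agent.P145.FB Vale.Agent.P167.H632
open Vale.Agent.P167.E6 (IsPolygon Encloses dir face)

variable {ω ω' : Cfg} {D Z : Finset (ℤ × ℤ)} {b : ℤ × ℤ} {r R : ℤ} {f : ℤ × ℤ → ℝ}
variable {n : ℕ} {q : ZMod n → ℤ × ℤ} {k l : ℕ}

/-! ### The moment input -/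

/-- A majorant with its moment. -/
structure Mj (b : ℤ × ℤ) (r : ℤ) (f : ℤ × ℤ → ℝ) (Y : Cfg → ℝ) (A : ℝ) : Prop where
  nonneg : ∀ ω, 0 ≤ Y ω
  int : Integrable (fun ω => Y ω ^ 12) μ
  pos : 0 < A
  le : ∫ ω, Y ω ^ 12 ∂μ ≤ A ^ 12
  dom : Dom b r f Y

theorem Mj.integral_le {Y : Cfg → ℝ} {A : ℝ} (h : Mj b r f Y A) :
    Integrable Y μ ∧ ∫ ω, Y ω ∂μ ≤ A := hol_int h.nonneg h.int h.pos h.le

theorem Mj.on_le {Y : Cfg → ℝ} {A : ℝ} (h : Mj b r f Y A) (E : Set Cfg) :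
    IntegrableOn Y E μ ∧ ∫ ω in E, Y ω ∂μ ≤ A * μ.real E ^ (5 / 6 : ℝ) :=
  hol_one h.nonneg h.int h.pos h.le

theorem Mj.abs_XB {Y : Cfg → ℝ} {A : ℝ} (h : Mj b r f Y A) (hr : 1 ≤ r) (hR : 2 * r < R) :
    |XB b r R f ω| ≤ Y ω := XB_le h.nonneg h.dom hr hR

theorem Mj.int_XB {Y : Cfg → ℝ} {A : ℝ} (h : Mj b r f Y A) (hr : 1 ≤ r) (hR : 2 * r < R) :
    ∫ ω, |XB b r R f ω| ∂μ ≤ A :=
  (integral_mono dep_XB.abs.int h.integral_le.1 fun _ => h.abs_XB hr hR).trans h.integral_le.2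

/-- The moment input with majorants and a nonnegative constant. -/
theorem S_maj.get (h : S_maj) {K : ℝ} (hK : 0 < K) : ∃ (N : ℤ → ℝ) (C c : ℝ) (r₀ : ℤ),
    0 < r₀ ∧ 0 < c ∧ 0 < C ∧ (∀ r, 0 < N r) ∧
    ∀ (b : ℤ × ℤ) (r : ℤ) (f : ℤ × ℤ → ℝ), r₀ ≤ r → Bmp K b r f →
      (∃ Y : Cfg → ℝ, Mj b r f Y (C / N r)) ∧ (∃ Y : Cfg → ℝ, Mj b r (-f) Y (C * N r)) ∧
      ∀ (D : Finset (ℤ × ℤ)) (p : ℤ × ℤ), Flt D b (2 * r) → OutC D b (2 * r) p →
        c * N r ≤ VD D p (-f) := by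
  obtain ⟨N, C, c, r₀, h1, h2, h3, h4⟩ := h K hK
  have hC : |C| ≤ |C| + 1 := by linarith
  refine ⟨N, |C| + 1, c, r₀, h1, h2, by positivity, h3, fun b r f hr hf => ?_⟩
  obtain ⟨⟨Y, a1, a2, a3, a4⟩, ⟨Y', b1, b2, b3, b4⟩, h5⟩ := h4 b r f hr hf
  have hN := h3 r
  refine ⟨⟨Y, a1, a2, by positivity, a3.trans ?_, a4⟩, ⟨Y', b1, b2, by positivity, b3.trans ?_, b4⟩,
    h5⟩
  · rw [← Even.pow_abs (by decide : Even 12) (C / N r), abs_div, abs_of_pos hN]
    gcongr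
  · rw [← Even.pow_abs (by decide : Even 12) (C * N r), abs_mul, abs_of_pos hN]
    gcongr

/-! ### Moments of the local functional -/

theorem s_mom (h : S_maj) : S_mom := by
  intro K hK
  obtain ⟨N, C, c, r₀, h1, h2, h3, h4, h5⟩ := h.get hK
  refine ⟨C * C, r₀, h1, fun b r R f hr hR hf => ?_⟩
  obtain ⟨⟨Y, hY⟩, ⟨Y', hY'⟩, -⟩ := h5 b r f hr hf
  have hZ0 : 0 ≤ Zl b r R f := by
    rw [Zl]
    exact integral_nonneg fun ω => XB_nonneg (hbox_mono (by omega)) hf.nonneg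
      (hf.sites hK (by omega)) hf.sum
  refine ⟨hZ0, dep_XB.int, ?_⟩
  have e1 : Zl b r R f ≤ C * N r := by
    rw [Zl]
    refine (integral_mono dep_XB.int hY'.integral_le.1 fun ω => ?_).trans hY'.integral_le.2
    exact (le_abs_self _).trans (hY'.abs_XB (by omega) (by omega))
  have e2 : ∫ ω, |XB b r R f ω| ∂μ ≤ C / N r := hY.int_XB (by omega) (by omega)
  have hN := h4 r
  calc Zl b r R f * ∫ ω, |XB b r R f ω| ∂μ ≤ C * N r * (C / N r) :=
        mul_le_mul e1 e2 (integral_nonneg fun _ => abs_nonneg _) (by positivity)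
    _ = C * C := by field_simp

/-! ### The two comparisons -/

section

variable (hq : IsPolygon q) (hD : Encloses q D)
include hq hD

/-- The one-point functional is local. -/
theorem one_est {Y : Cfg → ℝ} {A : ℝ} (hY : Mj (q l) r (-f) Y A) (hF : Flt D (q l) R)
    (hr : 1 ≤ r) (hR : 2 * r ≤ R) (hl : l < n) (h0 : q 0 ∉ sites (hbox (q l) R))
    (hf : ∀ z, f z ≠ 0 → z ∈ sites (hbox (q l) r)) (hs : ∑ᶠ z, f z = Real.pi / 3) :
    |VD D (q 0) (-f) - ∫ ω, XB (q l) r R (-f) ω ∂μ| ≤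
      A * μ.real {ω | ¬ Iso (q l) r R ω} ^ (5 / 6 : ℝ) := by
  have hE : MeasurableSet {ω | ¬ Iso (q l) r R ω} := meas_not_iso _ _ _
  obtain ⟨i1, i2⟩ := hY.on_le {ω | ¬ Iso (q l) r R ω}
  rw [VD]
  refine (diff_le dep_XD dep_XB hE i1 (fun ω hω => ?_) fun ω hω => ?_).trans i2
  · have hI : Iso (q l) r R ω := by
      by_contra hcon
      exact hω hcon
    refine split_one hq hD hF (by omega) hl h0 hr (by omega) hI (fun z hz => hf z fun h => hz ?_) ?_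
    · simp [h]
    · rw [show (-f) = fun z => -f z from rfl, finsum_neg_distrib, hs]
  · have hI : XB (q l) r R (-f) ω = 0 := by
      rw [XB, if_neg hω]
    rw [hI, sub_zero]
    exact XD_one_le hq hD hY.dom hF hr hR hl h0 hf hs

open Classical in
/-- The two-point functional. -/
theorem two_est {Ya Yb : Cfg → ℝ} {A B : ℝ} {fa fb : ℤ × ℤ → ℝ} {ra Ra rb Rb : ℤ}
    (ha : Mj (q k) ra (-fa) Ya A) (hb : Mj (q l) rb fb Yb B)
    (hFa : Flt D (q k) Ra) (hFb : Flt D (q l) Rb) (hra : 1 ≤ ra) (hrb : 1 ≤ rb)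
    (hRa : 2 * ra ≤ Ra) (hRb : 2 * rb ≤ Rb) (hkl : k < l) (hl : l < n)
    (hd : Disjoint (hbox (q k) Ra) (hbox (q l) Rb))
    (ha0 : q 0 ∉ sites (hbox (q k) Ra)) (hb0 : q 0 ∉ sites (hbox (q l) Rb))
    (hfa : ∀ z, fa z ≠ 0 → z ∈ sites (hbox (q k) ra)) (hsa : ∑ᶠ z, fa z = Real.pi / 3)
    (hfb : ∀ z, fb z ≠ 0 → z ∈ sites (hbox (q l) rb)) (hsb : ∑ᶠ z, fb z = Real.pi / 3) :
    |VD D (q 0) (fb - fa) - ∫ ω, XB (q k) ra Ra (-fa) ω * (XB (q l) rb Rb fb ω *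
        if Gd D (hbox (q l) rb) (q 0) (q k) (q l) ω then 1 else 0) ∂μ| ≤
      A * B * (μ.real {ω | ¬ Iso (q k) ra Ra ω} ^ (5 / 6 : ℝ) +
        μ.real {ω | ¬ Iso (q l) rb Rb ω} ^ (5 / 6 : ℝ)) := by
  have hp := H871.fair_mu.prob
  set E : Set Cfg := {ω | ¬ Iso (q k) ra Ra ω} ∪ {ω | ¬ Iso (q l) rb Rb ω} with hEd
  have hE : MeasurableSet E := (meas_not_iso _ _ _).union (meas_not_iso _ _ _)
  obtain ⟨i1, i2⟩ := hol ha.nonneg hb.nonneg ha.int hb.int ha.pos hb.pos ha.le hb.le (E := E)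
  have hdep : DepF (hbox (q k) Ra ∪ (hbox (q l) Rb ∪ D)) (fun ω => XB (q k) ra Ra (-fa) ω *
      (XB (q l) rb Rb fb ω * if Gd D (hbox (q l) rb) (q 0) (q k) (q l) ω then 1 else 0)) :=
    (dep_XB.mono subset_union_left).mul (((dep_XB.mono subset_union_left).mul
      (dep_iGd.mono subset_union_right)).mono subset_union_right)
  rw [VD]
  have h1 : |∫ ω, XD D (q 0) (fb - fa) ω ∂μ - ∫ ω, XB (q k) ra Ra (-fa) ω *
      (XB (q l) rb Rb fb ω * if Gd D (hbox (q l) rb) (q 0) (q k) (q l) ω then 1 else 0) ∂μ| ≤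
      ∫ ω in E, Ya ω * Yb ω ∂μ := by
    refine diff_le dep_XD hdep hE i1 (fun ω hω => ?_) fun ω hω => ?_
    · have hIa : Iso (q k) ra Ra ω := by
        by_contra hcon
        exact hω (Or.inl hcon)
      have hIb : Iso (q l) rb Rb ω := by
        by_contra hcon
        exact hω (Or.inr hcon)
      rw [split_two hq hD hkl hl hFa hFb hra (by omega) hrb (by omega) hd ha0 hb0 hfa hsa hfb hsb
        hIa hIb]
      ring
    · have h2 : XB (q k) ra Ra (-fa) ω * (XB (q l) rb Rb fb ω *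
          if Gd D (hbox (q l) rb) (q 0) (q k) (q l) ω then 1 else 0) = 0 := by
        rcases hω with hω | hω
        · rw [XB, if_neg hω, zero_mul]
        · rw [XB, XB, if_neg (show ¬ Iso (q l) rb Rb ω from hω), zero_mul, mul_zero]
      rw [h2, sub_zero]
      exact XD_two_le hq hD ha.dom hb.dom hFa hFb hra hrb hRa hRb (by omega) hl hd ha0 hb0 hfa hsa
        hfb hsb
  refine (h1.trans i2).trans (mul_le_mul_of_nonneg_left ?_ (mul_pos ha.pos hb.pos).le)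
  calc μ.real E ^ (5 / 6 : ℝ) ≤ (μ.real {ω | ¬ Iso (q k) ra Ra ω} +
        μ.real {ω | ¬ Iso (q l) rb Rb ω}) ^ (5 / 6 : ℝ) :=
        Real.rpow_le_rpow measureReal_nonneg (measureReal_union_le _ _) (by norm_num)
    _ ≤ _ := Real.rpow_add_le_add_rpow measureReal_nonneg measureReal_nonneg (by norm_num)
        (by norm_num)

open Classical in
/-- The charge near `a` decouples from the rest. -/
theorem dec_est {Ya Yb : Cfg → ℝ} {A B : ℝ} {fa fb : ℤ × ℤ → ℝ} {ra R1 Ra rb Rb : ℤ}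
    (ha : Mj (q k) ra (-fa) Ya A) (hb : Mj (q l) rb fb Yb B)
    (hFa : Flt D (q k) Ra) (hra : 1 ≤ ra) (hrb : 1 ≤ rb)
    (hR1 : 2 * ra < R1) (hRa : R1 ≤ Ra) (hRb : 2 * rb < Rb) (hkl : (k : ℤ) + Ra ≤ l) (hl : l < n)
    (hd : Disjoint (hbox (q k) Ra) (hbox (q l) Rb)) (ha0 : q 0 ∉ sites (hbox (q k) Ra)) :
    |∫ ω, XB (q k) ra R1 (-fa) ω * (XB (q l) rb Rb fb ω *
        if Gd D (hbox (q l) rb) (q 0) (q k) (q l) ω then 1 else 0) ∂μ -
      (∫ ω, XB (q k) ra R1 (-fa) ω ∂μ) * ∫ ω, XB (q l) rb Rb fb ω *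
        (if Gd D (hbox (q l) rb) (q 0) (q k) (q l) ω then 1 else 0) ∂μ| ≤
      2 * (A * B) * μ.real {ω | Crs D (q k) R1 Ra ω} ^ (5 / 6 : ℝ) := by
  have hp := H871.fair_mu.prob
  have hE : MeasurableSet {ω | Crs D (q k) R1 Ra ω} := dep_Crs.measSet
  have h1 := decouple₂ (K := hbox (q k) R1) (K' := hbox (q l) Rb) (L := D)
    (F := XB (q k) ra R1 (-fa)) (H := XB (q l) rb Rb fb)
    (G := Gd D (hbox (q l) rb) (q 0) (q k) (q l)) (E := Crs D (q k) R1 Ra)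
    (disjoint_of_subset_left (hbox_mono hRa) hd) dep_XB dep_XB dep_Gd dep_Crs
    (fun w w' hw hc hc' => gd_congr hq hD hFa (by omega) hkl hl ha0 hw hc hc')
  refine h1.trans ?_
  obtain ⟨i1, i2⟩ := hol ha.nonneg hb.nonneg ha.int hb.int ha.pos hb.pos ha.le hb.le
    (E := {ω | Crs D (q k) R1 Ra ω})
  obtain ⟨j1, j2⟩ := hb.on_le {ω | Crs D (q k) R1 Ra ω}
  have e1 : ∫ w in {w | Crs D (q k) R1 Ra w}, |XB (q k) ra R1 (-fa) w| * |XB (q l) rb Rb fb w| ∂μ ≤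
      A * B * μ.real {ω | Crs D (q k) R1 Ra ω} ^ (5 / 6 : ℝ) := by
    refine le_trans (setIntegral_mono ?_ i1 fun ω => ?_) i2
    · exact ((dep_XB.abs.mono (subset_union_left (s₂ := hbox (q l) Rb))).mul
        (dep_XB.abs.mono subset_union_right)).int.integrableOn
    · exact mul_le_mul (ha.abs_XB hra hR1) (hb.abs_XB hrb hRb) (abs_nonneg _) (ha.nonneg ω)
  have e2 : ∫ w in {w | Crs D (q k) R1 Ra w}, |XB (q l) rb Rb fb w| ∂μ ≤
      B * μ.real {ω | Crs D (q k) R1 Ra ω} ^ (5 / 6 : ℝ) :=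
    le_trans (setIntegral_mono dep_XB.abs.int.integrableOn j1 fun ω => hb.abs_XB hrb hRb) j2
  have e3 : ∫ w, |XB (q k) ra R1 (-fa) w| ∂μ ≤ A := ha.int_XB hra hR1
  have e4 := mul_le_mul e3 e2 (integral_nonneg fun _ => abs_nonneg _) ha.pos.le
  calc _ ≤ A * B * μ.real {ω | Crs D (q k) R1 Ra ω} ^ (5 / 6 : ℝ) +
        A * (B * μ.real {ω | Crs D (q k) R1 Ra ω} ^ (5 / 6 : ℝ)) := add_le_add e1 e4
    _ = _ := by ring

open Classical in
/-- The events `Jn`. -/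
theorem od_add {fb : ℤ × ℤ → ℝ} {rb Rb : ℤ} (hFb : Flt D (q l) Rb) (hrb : 1 ≤ rb)
    (hRb : rb ≤ Rb) (hkl : (k : ℤ) ≤ l - Rb) (hl : l < n) (hb0 : q 0 ∉ sites (hbox (q l) Rb)) :
    ∫ ω, XB (q l) rb Rb fb ω *
        (if Gd D (hbox (q l) rb) (q 0) (q k) (q l) ω then 1 else 0) ∂μ =
      OD true D (arc q k) (q l) rb Rb fb + OD false D (arc q k) (q l) rb Rb fb := by
  have hi : ∀ c : Bool, Integrable (fun ω => XB (q l) rb Rb fb ω *
      (if Jn c D ω (sites (hbox (q l) rb)) (arc q k) then 1 else 0)) μ := fun c =>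
    ((dep_XB.mono subset_union_left).mul (dep_iJn.mono subset_union_right)).int
  rw [OD, OD, ← integral_add (hi true) (hi false)]
  refine integral_congr_ae (Filter.Eventually.of_forall fun ω => ?_)
  simp only
  by_cases hI : Iso (q l) rb Rb ω
  · have h1 := gd_iff (ω := ω) (k := k) hq hD hFb hrb hRb (by omega) hl
    have h2 := not_both hq hD hFb hrb hRb hl hb0 hkl hI
    by_cases hG : Gd D (hbox (q l) rb) (q 0) (q k) (q l) ω
    · rw [if_pos hG]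
      rcases h1.1 hG with h3 | h3
      · rw [if_pos h3, if_neg (fun h4 => h2 ⟨h3, h4⟩), mul_zero, add_zero]
      · rw [if_pos h3, if_neg (fun h4 => h2 ⟨h4, h3⟩), mul_zero, zero_add]
    · rw [if_neg hG, if_neg (fun h3 => hG (h1.2 (Or.inl h3))),
        if_neg (fun h3 => hG (h1.2 (Or.inr h3)))]
      ring
  · rw [XB, if_neg hI]
    ring

end

/-! ### The final algebra -/

theorem alg {V Va Vb φ g z Na Nb C0 C1 c x y : ℝ} (hNa : 0 < Na) (hNb : 0 < Nb) (hc : 0 < c)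
    (hC0 : 0 ≤ C0) (hC1 : 0 ≤ C1) (hx : 0 ≤ x) (hy : 0 ≤ y)
    (h1 : |V - φ * g| ≤ C1 * (Na / Nb) * (x + y)) (h2 : |φ - Va| ≤ C1 * Na * x)
    (h3 : |Vb - z| ≤ C1 * Nb * y) (h4 : c * Na ≤ Va) (h5 : |Vb| ≤ C0 * Nb)
    (h6 : |g| ≤ C0 / Nb) :
    |V * Vb / Va - z * g| ≤ (C1 * C0 / c + C1 * C0 ^ 2 / c + C0 * C1) * (x + y) := by
  have hVa : 0 < Va := lt_of_lt_of_le (by positivity) h4
  have e1 : V * Vb / Va - z * g =
      (V - φ * g) * (Vb / Va) + (φ - Va) * g * (Vb / Va) + g * (Vb - z) := by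
    field_simp
    ring
  have h7 : |Vb / Va| ≤ C0 * Nb / (c * Na) := by
    rw [abs_div, abs_of_pos hVa]
    exact div_le_div₀ (by positivity) h5 (by positivity) h4
  have a1 : |(V - φ * g) * (Vb / Va)| ≤ C1 * C0 / c * (x + y) := by
    rw [abs_mul]
    calc _ ≤ C1 * (Na / Nb) * (x + y) * (C0 * Nb / (c * Na)) :=
          mul_le_mul h1 h7 (abs_nonneg _) (by positivity)
      _ = _ := by field_simp
  have a2 : |(φ - Va) * g * (Vb / Va)| ≤ C1 * C0 ^ 2 / c * (x + y) := by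
    rw [abs_mul, abs_mul]
    calc _ ≤ C1 * Na * x * (C0 / Nb) * (C0 * Nb / (c * Na)) :=
          mul_le_mul (mul_le_mul h2 h6 (abs_nonneg _) (by positivity)) h7 (abs_nonneg _)
            (by positivity)
      _ = C1 * C0 ^ 2 / c * x := by field_simp
      _ ≤ _ := mul_le_mul_of_nonneg_left (by linarith) (by positivity)
  have a3 : |g * (Vb - z)| ≤ C0 * C1 * (x + y) := by
    rw [abs_mul]
    calc _ ≤ C0 / Nb * (C1 * Nb * y) := mul_le_mul h6 h3 (abs_nonneg _) (by positivity)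
      _ = C0 * C1 * y := by field_simp
      _ ≤ _ := mul_le_mul_of_nonneg_left (by linarith) (by positivity)
  rw [e1]
  calc _ ≤ |(V - φ * g) * (Vb / Va)| + |(φ - Va) * g * (Vb / Va)| + |g * (Vb - z)| :=
        abs_add_three _ _ _
    _ ≤ C1 * C0 / c * (x + y) + C1 * C0 ^ 2 / c * (x + y) + C0 * C1 * (x + y) := by
        linarith
    _ = _ := by ring

theorem alg₂ {C M w x y : ℝ} (hC : 0 ≤ C) (hM : 0 ≤ M) (hw : 0 ≤ w) (hx : 0 ≤ x) (hy : 0 ≤ y) :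
    C ^ 2 * w * (M * x + M * y) + 2 * (C ^ 2 * w) * (M * x) ≤
      (3 * C ^ 2 * M + C * M) * w * (x + y) := by
  have h1 : 0 ≤ C * M * w * (x + y) := by positivity
  have h2 : 0 ≤ 2 * (C ^ 2 * M * w * y) := by positivity
  have h3 : (3 * C ^ 2 * M + C * M) * w * (x + y) - (C ^ 2 * w * (M * x + M * y) +
      2 * (C ^ 2 * w) * (M * x)) = C * M * w * (x + y) + 2 * (C ^ 2 * M * w * y) := by ring
  linarith

theorem alg₃ {C M w x : ℝ} (hM : 0 ≤ M) (hw : 0 ≤ w) (hx : 0 ≤ x) :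
    C * w * (M * x) ≤ (3 * C ^ 2 * M + C * M) * w * x := by
  have h1 : 0 ≤ 3 * (C ^ 2 * M * w * x) := by positivity
  have h3 : (3 * C ^ 2 * M + C * M) * w * x - C * w * (M * x) = 3 * (C ^ 2 * M * w * x) := by ring
  linarith

/-! ### The bridge -/

/-- **The lattice bridge from the moment input.** -/
theorem s_br (h : S_maj) : S_br := by
  classical
  have hp := H871.fair_mu.prob
  intro K hK
  obtain ⟨N, C0, c, r₀, h1, hc, hC0, hN, h5⟩ := h.get hK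
  obtain ⟨Ci, hCi, hiso⟩ := iso_le
  obtain ⟨Cc, hCc, hcrs⟩ := crs_le
  set M : ℝ := max 1 (max Ci (2 * Cc)) with hM
  have hM1 : 1 ≤ M := le_max_left _ _
  have hMi : Ci ≤ M := (le_max_left _ _).trans (le_max_right _ _)
  have hMc : 2 * Cc ≤ M := (le_max_right _ _).trans (le_max_right _ _)
  have hM0 : 0 < M := by linarith
  set C1 : ℝ := 3 * C0 ^ 2 * M + C0 * M with hC1
  refine ⟨C1 * C0 / c + C1 * C0 ^ 2 / c + C0 * C1, r₀, h1, ?_⟩
  intro n q D hq hD k l hk0 hkl hl ra Ra rb Rb fa fb hra hRa hrb hRb hFa hFb hd ha0 hb0 hfa hfb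
  have hra1 : 1 ≤ ra := by omega
  have hrb1 : 1 ≤ rb := by omega
  have hkn : k < n := by omega
  have hsa := hfa.sites hK hra1
  have hsb := hfb.sites hK hrb1
  have hZa : hbox (q k) ra ⊆ D := (hbox_mono (by omega)).trans (hbox_sub hFa)
  -- the indices
  have hki : (k : ℤ) ≤ l - Rb := by
    rcases far_index hq hD hFa hFb (by omega) (by omega) hd with h | h <;> omega
  have hki' : (k : ℤ) + Ra ≤ l := by
    rcases far_index hq hD hFb hFa (by omega) (by omega) hd.symm with h | h <;> omega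
  refine ⟨?_, ?_⟩
  · -- the first claim
    have h2 : ∫ _ω : Cfg, (1 : ℝ) ∂μ ≤ ∫ ω, XD D (q 0) (-fa) ω ∂μ :=
      integral_mono (integrable_const _) (dep_XD (p := q 0) (f := -fa)).int fun ω =>
        one_le_XD hZa hfa.nonneg hsa hfa.sum
    rw [integral_const, probReal_univ, one_smul] at h2
    exact h2
  obtain ⟨-, ⟨Ya, hYa⟩, hVa⟩ := h5 (q k) ra fa hra hfa
  obtain ⟨⟨Yb, hYb⟩, ⟨Yb', hYb'⟩, -⟩ := h5 (q l) rb fb hrb hfb
  obtain ⟨R1, m1, m2, m3, m4⟩ := mid hra1 hRa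
  have hFa1 : Flt D (q k) R1 := hFa.mono m2
  have ha01 : q 0 ∉ sites (hbox (q k) R1) := fun h => ha0 (sites_mono (hbox_mono m2) h)
  have hd1 : Disjoint (hbox (q k) R1) (hbox (q l) Rb) :=
    disjoint_of_subset_left (hbox_mono m2) hd
  have hra' : (0 : ℝ) < ra := by exact_mod_cast (by omega : (0 : ℤ) < ra)
  have hRa' : (0 : ℝ) < Ra := by exact_mod_cast (by omega : (0 : ℤ) < Ra)
  have hrb' : (0 : ℝ) < rb := by exact_mod_cast (by omega : (0 : ℤ) < rb)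
  have hRb' : (0 : ℝ) < Rb := by exact_mod_cast (by omega : (0 : ℤ) < Rb)
  have hR1' : (0 : ℝ) < R1 := by exact_mod_cast (by omega : (0 : ℤ) < R1)
  set x : ℝ := ((ra : ℝ) / Ra) ^ (5 / 12 : ℝ) with hx
  set y : ℝ := ((rb : ℝ) / Rb) ^ (5 / 6 : ℝ) with hy
  have hx0 : 0 ≤ x := Real.rpow_nonneg (by positivity) _
  have hy0 : 0 ≤ y := Real.rpow_nonneg (by positivity) _
  have hsq : √((ra : ℝ) / Ra) ^ (5 / 6 : ℝ) = x := sqrt_pow (by positivity)
  -- the probabilities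
  have p1 : μ.real {ω | ¬ Iso (q k) ra R1 ω} ^ (5 / 6 : ℝ) ≤ M * x := by
    rw [← hsq]
    refine pow_le_of hM1 (Real.sqrt_nonneg _) measureReal_nonneg
      ((hiso (q k) ra R1 hra1 (by omega)).trans ?_)
    exact mul_le_mul hMi m3 (by positivity) hM0.le
  have p2 : μ.real {ω | ¬ Iso (q l) rb Rb ω} ^ (5 / 6 : ℝ) ≤ M * y :=
    pow_le_of hM1 (by positivity) measureReal_nonneg
      ((hiso (q l) rb Rb hrb1 (by omega)).trans
        (mul_le_mul_of_nonneg_right hMi (by positivity)))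
  have p3 : μ.real {ω | Crs D (q k) R1 Ra ω} ^ (5 / 6 : ℝ) ≤ M * x := by
    rw [← hsq]
    refine pow_le_of hM1 (Real.sqrt_nonneg _) measureReal_nonneg
      ((hcrs D (q k) R1 Ra hFa (by omega) m2).trans ?_)
    calc Cc * ((R1 : ℝ) / Ra) ≤ Cc * (2 * √((ra : ℝ) / Ra)) :=
          mul_le_mul_of_nonneg_left m4 hCc.le
      _ = 2 * Cc * √((ra : ℝ) / Ra) := by ring
      _ ≤ M * √((ra : ℝ) / Ra) := mul_le_mul_of_nonneg_right hMc (Real.sqrt_nonneg _)
  -- the estimates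
  have t1 := two_est hq hD hYa hYb hFa1 hFb hra1 hrb1 (by omega) (by omega) hkl hl hd1 ha01 hb0
    hsa hfa.sum hsb hfb.sum
  have t2 := dec_est hq hD hYa hYb hFa hra1 hrb1 m1 m2 (by omega) hki' hl hd ha0
  have t3 := one_est hq hD hYa hFa1 hra1 (by omega) hkn ha01 hsa hfa.sum
  have t4 := one_est hq hD hYb' hFb hrb1 (by omega) hl hb0 hsb hfb.sum
  rw [od_add hq hD hFb hrb1 (by omega) hki hl hb0] at t2
  have hNa := hN ra
  have hNb := hN rb
  have hAB : C0 * N ra * (C0 / N rb) = C0 ^ 2 * (N ra / N rb) := by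
    field_simp
  rw [hAB] at t1 t2
  have hq0 : 0 ≤ C0 ^ 2 * (N ra / N rb) := by positivity
  refine alg (φ := ∫ ω, XB (q k) ra R1 (-fa) ω ∂μ) hNa hNb hc hC0.le (by positivity) hx0 hy0
    ?_ ?_ ?_ (hVa D (q 0) (hFa.mono (by omega)) ?_) ?_ ?_
  · -- the two-point functional
    refine (abs_sub_le _ _ _).trans ((add_le_add t1 t2).trans ?_)
    have s1 := mul_le_mul_of_nonneg_left (add_le_add p1 p2) hq0
    have s2 := mul_le_mul_of_nonneg_left p3 (by positivity : 0 ≤ 2 * (C0 ^ 2 * (N ra / N rb)))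
    exact (add_le_add s1 s2).trans (alg₂ hC0.le hM0.le (by positivity) hx0 hy0)
  · rw [abs_sub_comm]
    refine t3.trans ?_
    have s1 := mul_le_mul_of_nonneg_left p1 (by positivity : 0 ≤ C0 * N ra)
    exact s1.trans (alg₃ hM0.le hNa.le hx0)
  · refine t4.trans ?_
    have s1 := mul_le_mul_of_nonneg_left p2 (by positivity : 0 ≤ C0 * N rb)
    exact s1.trans (alg₃ hM0.le hNb.le hy0)
  · exact outC_poly hq hD (hFa.mono (by omega)) (by omega) hkn
      fun h => ha0 (sites_mono (hbox_mono (by omega)) h)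
  · -- the one-point functional of `b`
    rw [VD]
    refine (abs_integral_le_integral_abs).trans ?_
    refine (integral_mono dep_XD.abs.int hYb'.integral_le.1 fun ω => ?_).trans hYb'.integral_le.2
    exact XD_one_le hq hD hYb'.dom hFb hrb1 (by omega) hl hb0 hsb hfb.sum
  · rw [← od_add hq hD hFb hrb1 (by omega) hki hl hb0]
    refine (abs_integral_le_integral_abs).trans ?_
    refine (integral_mono ?_ hYb.integral_le.1 fun ω => ?_).trans hYb.integral_le.2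
    · exact ((dep_XB.mono subset_union_left).mul (dep_iGd.mono subset_union_right)).abs.int
    · refine le_trans ?_ (hYb.abs_XB (ω := ω) hrb1 (show 2 * rb < Rb by omega))
      rw [abs_mul]
      split_ifs <;> simp

end Vale.Agent.P167.BR
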