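import Vale.Agent.P167.BR.Join

/-!
# P167, SLE_6: a flat piece of the boundary

`b = q l`, the domain is the half-plane above `b` up to distance `R`.
-/

namespace Vale.Agent.P167.BR

open Finset Vale.Agent.P145.FB Vale.Agent.P167.H632
open Vale.Agent.P167.E6 (IsPolygon Encloses dir face)
open Vale.Agent.P167.E2 Relation

variable {ω : Cfg} {D Z : Finset (ℤ × ℤ)} {e e' : Ed} {A : Finset Ed} {b : ℤ × ℤ} {r R : ℤ}

/-! ### The half box -/

theorem mem_hbox {v : ℤ × ℤ} : v ∈ hbox b R ↔
    b.1 - R ≤ v.1 ∧ v.1 < b.1 + R ∧ b.2 ≤ v.2 ∧ v.2 < b.2 + R := by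
  simp only [hbox, mem_product, mem_Icc]
  omega

theorem mem_sites_hbox (hR : 1 ≤ R) {z : ℤ × ℤ} : z ∈ sites (hbox b R) ↔
    b.1 - R ≤ z.1 ∧ z.1 ≤ b.1 + R ∧ b.2 ≤ z.2 ∧ z.2 ≤ b.2 + R := by
  rw [mem_sites]
  constructor
  · rintro ⟨v, hv, h1, h2⟩
    rw [mem_hbox] at hv
    omega
  · intro h
    refine ⟨(min z.1 (b.1 + R - 1), min z.2 (b.2 + R - 1)), ?_, ?_, ?_⟩
    · rw [mem_hbox]
      simp only
      omega
    · simp only
      omega
    · simp only
      omega

theorem hbox_mono (h : r ≤ R) : hbox b r ⊆ hbox b R := by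
  intro v hv
  rw [mem_hbox] at *
  omega

theorem hbox_sub (hF : Flt D b R) : hbox b R ⊆ D := by
  intro v hv
  rw [mem_hbox] at hv
  exact (hF v (by omega) (by omega) (by omega) (by omega)).2 hv.2.2.1

theorem Flt.mono (hF : Flt D b R) (h : r ≤ R) : Flt D b r :=
  fun v h1 h2 h3 h4 => hF v (by omega) (by omega) (by omega) (by omega)

/-- The two squares of a medial edge are adjacent. -/
theorem adj_sq (e : Ed) :
    (((hdv e).1 = (tlv e).1 + 1 ∨ (hdv e).1 = (tlv e).1 - 1) ∧ (hdv e).2 = (tlv e).2) ∨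
    ((hdv e).1 = (tlv e).1 ∧ ((hdv e).2 = (tlv e).2 + 1 ∨ (hdv e).2 = (tlv e).2 - 1)) := by
  rcases e with ⟨x, y⟩ | ⟨x, y⟩ <;> by_cases h : Even (x + y) <;> simp [hdv, tlv, h]

/-- The steps between the sites of a set of squares. -/
theorem ec_of {s : ℤ × ℤ} {r : Fin 4} (h : face s r ∈ Z ∨ face s (r - 1) ∈ Z) :
    Ec Z s (s + dir r) := by
  refine ⟨ce s r, ce_mem_eds.2 h, ?_⟩
  rcases ce_sides s r with ⟨h1, h2⟩ | ⟨h1, h2⟩
  · exact Or.inl ⟨h1, h2⟩
  · exact Or.inr ⟨h2, h1⟩

theorem Ec.symm {s t : ℤ × ℤ} (h : Ec Z s t) : Ec Z t s := by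
  obtain ⟨e, he, h⟩ := h
  exact ⟨e, he, h.symm⟩

theorem ec_reach_symm {s t : ℤ × ℤ} (h : ReflTransGen (Ec Z) s t) : ReflTransGen (Ec Z) t s := by
  induction h with
  | refl => exact ReflTransGen.refl
  | tail _ h ih => exact ReflTransGen.head h.symm ih

/-- One step to the right in the box. -/
theorem ec_right (hR : 1 ≤ R) {x y : ℤ} (h1 : b.1 - R ≤ x) (h2 : x < b.1 + R) (h3 : b.2 ≤ y)
    (h4 : y ≤ b.2 + R) : Ec (hbox b R) (x, y) (x + 1, y) := by
  have := ec_of (Z := hbox b R) (s := (x, y)) (r := 0) ?_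
  · simpa [dir0] using this
  · rw [f4_0m, face0, face3, mem_hbox, mem_hbox]
    simp only
    omega

/-- One step up in the box. -/
theorem ec_up (hR : 1 ≤ R) {x y : ℤ} (h1 : b.1 - R ≤ x) (h2 : x ≤ b.1 + R) (h3 : b.2 ≤ y)
    (h4 : y < b.2 + R) : Ec (hbox b R) (x, y) (x, y + 1) := by
  have := ec_of (Z := hbox b R) (s := (x, y)) (r := 1) ?_
  · simpa [dir1] using this
  · rw [f4_1m, face0, face1, mem_hbox, mem_hbox]
    simp only
    omega

theorem econ_hbox (hR : 1 ≤ R) : ECon (hbox b R) := by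
  have hx : ∀ (m : ℕ) (x y : ℤ), x = b.1 - R + m → x ≤ b.1 + R → b.2 ≤ y → y ≤ b.2 + R →
      ReflTransGen (Ec (hbox b R)) (b.1 - R, y) (x, y) := by
    intro m
    induction m with
    | zero =>
      intro x y hx _ _ _
      have : x = b.1 - R := by simpa using hx
      rw [this]
    | succ m ih =>
      intro x y hx h1 h2 h3
      have h4 := ih (x - 1) y (by push_cast at hx; omega) (by omega) h2 h3
      have h5 := ec_right (b := b) hR (x := x - 1) (y := y) (by push_cast at hx; omega) (by omega) h2 h3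
      rw [sub_add_cancel] at h5
      exact h4.tail h5
  have hy : ∀ (m : ℕ) (y : ℤ), y = b.2 + m → y ≤ b.2 + R →
      ReflTransGen (Ec (hbox b R)) (b.1 - R, b.2) (b.1 - R, y) := by
    intro m
    induction m with
    | zero =>
      intro y hy _
      have : y = b.2 := by simpa using hy
      rw [this]
    | succ m ih =>
      intro y hy h1
      have h4 := ih (y - 1) (by push_cast at hy; omega) (by omega)
      have h5 := ec_up (b := b) hR (x := b.1 - R) (y := y - 1) le_rfl (by omega)
        (by push_cast at hy; omega) (by omega)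
      rw [sub_add_cancel] at h5
      exact h4.tail h5
  have key : ∀ z ∈ sites (hbox b R), ReflTransGen (Ec (hbox b R)) (b.1 - R, b.2) z := by
    intro z hz
    rw [mem_sites_hbox hR] at hz
    have h1 := hy (z.2 - b.2).toNat z.2 (by omega) (by omega)
    have h2 := hx (z.1 - (b.1 - R)).toNat z.1 z.2 (by omega) (by omega) (by omega) (by omega)
    exact h1.trans h2
  intro s hs t ht
  exact (ec_reach_symm (key s hs)).trans (key t ht)

/-! ### Inner edges -/

/-- Both squares of `e` are in the half box or below the line. -/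
def Inn (b : ℤ × ℤ) (R : ℤ) (e : Ed) : Prop :=
  (hdv e ∈ hbox b R ∨ (hdv e).2 < b.2) ∧ (tlv e ∈ hbox b R ∨ (tlv e).2 < b.2)

theorem Inn.mem_hd (hF : Flt D b R) (he : e ∈ eds (hbox b R)) (h : Inn b R e) (hd : hdv e ∈ D) :
    hdv e ∈ hbox b R := by
  rcases h.1 with h1 | h1
  · exact h1
  · exfalso
    have h2 : tlv e ∈ hbox b R := by
      rcases mem_eds.1 he with h2 | h2
      · rw [mem_hbox] at h2; omega
      · exact h2
    rw [mem_hbox] at h2
    have h3 := adj_sq e
    have h4 := (hF (hdv e) (by omega) (by omega) (by omega) (by omega)).1 hd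
    omega

theorem Inn.mem_tl (hF : Flt D b R) (he : e ∈ eds (hbox b R)) (h : Inn b R e) (hd : tlv e ∈ D) :
    tlv e ∈ hbox b R := by
  rcases h.2 with h1 | h1
  · exact h1
  · exfalso
    have h2 : hdv e ∈ hbox b R := by
      rcases mem_eds.1 he with h2 | h2
      · exact h2
      · rw [mem_hbox] at h2; omega
    rw [mem_hbox] at h2
    have h3 := adj_sq e
    have h4 := (hF (tlv e) (by omega) (by omega) (by omega) (by omega)).1 hd
    omega

/-- A piece of the half box with inner edges is a piece of the domain. -/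
theorem pcs_of_inn (hF : Flt D b R) (hA : A ∈ pcs ω (hbox b R)) (h : ∀ e ∈ A, Inn b R e) :
    A ∈ pcs ω D :=
  mem_pcs_of_superset (hbox_sub hF) hA
    (fun e he h1 => (h e he).mem_hd hF (subset_eds hA he) h1)
    (fun e he h1 => (h e he).mem_tl hF (subset_eds hA he) h1)

/-- On `Iso` the pieces of the domain which visit the small half box are the pieces of the large half
box which visit it. -/
theorem iso_iff (hF : Flt D b R) (hr : r ≤ R) (hI : Iso b r R ω) :
    (A ∈ pcs ω D ∧ Vz (hbox b r) A) ↔ (A ∈ pcs ω (hbox b R) ∧ Vz (hbox b r) A) := by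
  constructor
  · rintro ⟨hA, hV⟩
    refine ⟨?_, hV⟩
    obtain ⟨e, he, heZ⟩ := hV
    have heR : e ∈ eds (hbox b R) := eds_mono (hbox_mono hr) heZ
    have h1 := piece_mem_pcs (ω := ω) heR
    have h2 := hI _ h1 ⟨e, self_mem_piece heR, heZ⟩
    have h3 := pcs_of_inn hF h1 h2
    rw [eq_of_mem_pcs hA h3 he (self_mem_piece heR)]
    exact h1
  · rintro ⟨hA, hV⟩
    exact ⟨pcs_of_inn hF hA (hI A hA hV), hV⟩

/-! ### The polygon along the flat piece -/

variable {n : ℕ} {q : ZMod n → ℤ × ℤ} {l : ℕ}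

section

variable (hq : IsPolygon q) (hD : Encloses q D)
include hq hD

/-- The polygon runs along the flat side. -/
theorem walk {i : ZMod n} (hF : Flt D (q i) R) (j : ℕ) (hj : (j : ℤ) ≤ R) :
    q (i + j) = q i + ((j : ℤ), 0) ∧ q (i - j) = q i - ((j : ℤ), 0) := by
  -- one side of the line
  have side : ∀ x : ℤ, (q i).1 - R ≤ x → x < (q i).1 + R → 1 ≤ R →
      ∃ m, q m = (x, (q i).2) ∧ q (m + 1) = (x + 1, (q i).2) := by
    intro x h1 h2 h3
    have h4 : face (x, (q i).2) 0 ∈ D := by
      rw [face0]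
      exact (hF _ h1 h2 (by simp only; omega) (by simp only; omega)).2 le_rfl
    have h5 : face (x, (q i).2) (0 - 1) ∉ D := by
      rw [f4_0m, face3]
      intro h
      have := (hF _ h1 h2 (by simp only; omega) (by simp only; omega)).1 h
      simp only at this
      omega
    obtain ⟨m, hm1, hm2⟩ := (hD _ _).2 ⟨h4, h5⟩
    refine ⟨m, hm1, ?_⟩
    rw [hm2, dir0]
    ext <;> simp
  induction j with
  | zero => exact ⟨by simp, by ext <;> simp⟩
  | succ j ih =>
    obtain ⟨h1, h2⟩ := ih (by push_cast at hj; omega)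
    push_cast at hj
    constructor
    · obtain ⟨m, hm1, hm2⟩ := side ((q i).1 + j) (by omega) (by omega) (by omega)
      have h3 : q m = q (i + j) := by
        rw [hm1, h1]
        ext <;> simp
      have h4 := hq.2.1 h3
      push_cast
      rw [← add_assoc, ← h4, hm2]
      ext <;> simp <;> ring
    · obtain ⟨m, hm1, hm2⟩ := side ((q i).1 - j - 1) (by omega) (by omega) (by omega)
      have h3 : q (m + 1) = q (i - j) := by
        rw [hm2, h2]
        ext <;> simp
      have h4 := hq.2.1 h3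
      push_cast
      rw [sub_add_eq_sub_sub, ← h4, add_sub_cancel_right, hm1]
      ext <;> simp <;> ring

variable (hF : Flt D (q l) R) (hR : 1 ≤ R) (hl : l < n) (h0 : q 0 ∉ sites (hbox (q l) R))
include hF hR hl h0

/-- The flat piece does not contain the base point. -/
theorem flat_range : R < l ∧ (l : ℤ) + R < n := by
  constructor
  · by_contra hcon
    push Not at hcon
    obtain ⟨-, h2⟩ := walk hq hD hF l hcon
    rw [sub_self] at h2
    apply h0
    rw [h2, mem_sites_hbox hR]
    simp only [Prod.fst_sub, Prod.snd_sub]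
    omega
  · by_contra hcon
    push Not at hcon
    obtain ⟨h1, -⟩ := walk hq hD hF (n - l) (by omega)
    have h2 : ((l : ZMod n) + ((n - l : ℕ) : ZMod n)) = 0 := by
      rw [← Nat.cast_add, Nat.add_sub_cancel' hl.le, ZMod.natCast_self]
    rw [h2] at h1
    apply h0
    rw [h1, mem_sites_hbox hR]
    simp only [Prod.fst_add, Prod.snd_add]
    omega

/-- A boundary edge with inner squares is on the flat piece. -/
theorem bd_inn {i : ℕ} (hi : i < n) (he : be q (i : ℕ) ∈ eds (hbox (q l) R))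
    (h : Inn (q l) R (be q (i : ℕ))) : (l : ℤ) - R ≤ i ∧ (i : ℤ) < l + R := by
  have hn : NeZero n := ⟨by omega⟩
  obtain ⟨hr1, hr2⟩ := flat_range hq hD hF hR hl h0
  -- the sites of the edge are on the line
  obtain ⟨x, hx1, hx2, hs⟩ : ∃ x : ℤ, (q l).1 - R ≤ x ∧ x < (q l).1 + R ∧
      ((q (i : ZMod n) = (x, (q l).2) ∧ q ((i : ZMod n) + 1) = (x + 1, (q l).2)) ∨
       (q (i : ZMod n) = (x + 1, (q l).2) ∧ q ((i : ZMod n) + 1) = (x, (q l).2))) := by
    have hc := be_sides hq (i : ZMod n)
    generalize hb : be q (i : ZMod n) = f at he h hc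
    have hbd := be_bd hq hD (i : ZMod n)
    rw [hb] at hbd
    have h1 : ∀ v ∈ hbox (q l) R, v ∈ D := fun v hv => hbox_sub hF hv
    rcases hbd with ⟨h2, h3⟩ | ⟨h2, h3⟩
    · have h4 := h.mem_hd hF he h2
      have h5 : (tlv f).2 < (q l).2 := h.2.resolve_left (fun h' => h3 (h1 _ h'))
      rw [mem_hbox] at h4
      rcases f with ⟨x, y⟩ | ⟨x, y⟩
      · exfalso
        by_cases hp : Even (x + y) <;> simp only [hdv, tlv, hp, if_true, if_false] at h4 h5 <;> omega
      · refine ⟨x, ?_⟩
        by_cases hp : Even (x + y) <;>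
          simp only [hdv, tlv, ls, rs, hp, if_true, if_false] at h4 h5 hc
        · exfalso; omega
        · have hy : y + 1 = (q l).2 := by omega
          rw [hy] at hc
          refine ⟨by omega, by omega, ?_⟩
          rcases hc with ⟨h6, h7⟩ | ⟨h6, h7⟩
          · exact Or.inl ⟨h6.symm, h7.symm⟩
          · exact Or.inr ⟨h6.symm, h7.symm⟩
    · have h4 := h.mem_tl hF he h2
      have h5 : (hdv f).2 < (q l).2 := h.1.resolve_left (fun h' => h3 (h1 _ h'))
      rw [mem_hbox] at h4
      rcases f with ⟨x, y⟩ | ⟨x, y⟩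
      · exfalso
        by_cases hp : Even (x + y) <;> simp only [hdv, tlv, hp, if_true, if_false] at h4 h5 <;> omega
      · refine ⟨x, ?_⟩
        by_cases hp : Even (x + y) <;>
          simp only [hdv, tlv, ls, rs, hp, if_true, if_false] at h4 h5 hc
        · have hy : y + 1 = (q l).2 := by omega
          rw [hy] at hc
          refine ⟨by omega, by omega, ?_⟩
          rcases hc with ⟨h6, h7⟩ | ⟨h6, h7⟩
          · exact Or.inr ⟨h6.symm, h7.symm⟩
          · exact Or.inl ⟨h6.symm, h7.symm⟩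
        · exfalso; omega
  -- the index
  have key : ∀ (y : ℤ) (m : ℕ), (q l).1 - R ≤ y → y ≤ (q l).1 + R → m < n →
      q (m : ZMod n) = (y, (q l).2) → (m : ℤ) = l + (y - (q l).1) := by
    intro y m hy1 hy2 hm hqm
    rcases le_total (q l).1 y with h1 | h1
    · obtain ⟨h2, -⟩ := walk hq hD hF (y - (q l).1).toNat (by omega)
      have h3 : q (m : ZMod n) = q ((l : ZMod n) + ((y - (q l).1).toNat : ZMod n)) := by
        rw [h2, hqm]
        ext <;> simp only [Prod.fst_add, Prod.snd_add] <;> omega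
      have h4 := hq.2.1 h3
      rw [← Nat.cast_add] at h4
      have h5 := congrArg ZMod.val h4
      rw [ZMod.val_cast_of_lt hm, ZMod.val_cast_of_lt (by omega)] at h5
      omega
    · obtain ⟨-, h2⟩ := walk hq hD hF ((q l).1 - y).toNat (by omega)
      have h3 : q (m : ZMod n) = q ((l : ZMod n) - (((q l).1 - y).toNat : ZMod n)) := by
        rw [h2, hqm]
        ext <;> simp only [Prod.fst_sub, Prod.snd_sub] <;> omega
      have h4 := hq.2.1 h3
      rw [← Nat.cast_sub (by omega)] at h4
      have h5 := congrArg ZMod.val h4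
      rw [ZMod.val_cast_of_lt hm, ZMod.val_cast_of_lt (by omega)] at h5
      omega
  rcases hs with ⟨h1, h2⟩ | ⟨h1, h2⟩
  · have := key x i hx1 (by omega) hi h1
    omega
  · exfalso
    have h3 := key (x + 1) i (by omega) (by omega) hi h1
    have h4 : ((i + 1 : ℕ) : ZMod n) = (i : ZMod n) + 1 := by push_cast; rfl
    have hi1 : i + 1 < n := by
      by_contra hcon
      have h6 : i + 1 = n := by omega
      rw [← h4, h6, ZMod.natCast_self] at h2
      apply h0
      rw [h2, mem_sites_hbox hR]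
      simp only
      omega
    have h5 := key x (i + 1) hx1 (by omega) hi1 (by rw [h4]; exact h2)
    push_cast at h5
    omega

/-- Outside of the flat piece the potential of an inner piece is constant along the boundary. -/
theorem pot_out {u : ℤ × ℤ → ℤ} (hu : PotD D A u) (hA : ∀ e ∈ A, e ∈ eds (hbox (q l) R))
    (hI : ∀ e ∈ A, Inn (q l) R e) {i : ℕ} (hi : i ≤ n) (h : (i : ℤ) ≤ l - R ∨ (l : ℤ) + R ≤ i) :
    u (q i) = u (q 0) := by
  have hno : ∀ m : ℕ, m < n → ((m : ℤ) < l - R ∨ (l : ℤ) + R ≤ m) → be q (m : ℕ) ∉ A := by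
    intro m hm h1 h2
    have := bd_inn hq hD hF hR hl h0 hm (hA _ h2) (hI _ h2)
    omega
  rcases h with h | h
  · have := pot_arc hq hD hu (i := 0) (j := i) (Nat.zero_le _)
      (fun m _ hm => hno m (by omega) (by omega))
    simpa using this
  · have := pot_arc hq hD hu (i := i) (j := n) hi (fun m hm1 hm2 => hno m hm2 (by omega))
    rw [← this]
    simp

/-- The potential of an inner piece at the top of the half box. -/
theorem pot_top {u : ℤ × ℤ → ℤ} (hu : PotD D A u) (hA : ∀ e ∈ A, e ∈ eds (hbox (q l) R))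
    (hI : ∀ e ∈ A, Inn (q l) R e) : u (top (q l) R) = u (q 0) := by
  obtain ⟨hr1, hr2⟩ := flat_range hq hD hF hR hl h0
  have hstep : ∀ (s : ℤ × ℤ) (r : Fin 4), ce s r ∈ eds (hbox (q l) R) → ¬ Inn (q l) R (ce s r) →
      u (s + dir r) = u s := by
    intro s r h1 h2
    have h3 := hu.eq (eds_mono (hbox_sub hF) h1) (fun h' => h2 (hI _ h'))
    rcases ce_sides s r with ⟨h4, h5⟩ | ⟨h4, h5⟩ <;> rw [h4, h5] at h3
    · exact h3.symm
    · exact h3
  have hout : ∀ (s : ℤ × ℤ) (r : Fin 4) (v w : ℤ × ℤ),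
      ((face s r = v ∧ face s (r - 1) = w) ∨ (face s r = w ∧ face s (r - 1) = v)) →
      v ∈ hbox (q l) R → w ∉ hbox (q l) R → (q l).2 ≤ w.2 → u (s + dir r) = u s := by
    intro s r v w h1 h2 h3 h4
    refine hstep s r ?_ ?_
    · rw [ce_mem_eds]
      rcases h1 with ⟨h5, h6⟩ | ⟨h5, h6⟩ <;> rw [h5, h6] <;> tauto
    · have h7 : hdv (ce s r) = w ∨ tlv (ce s r) = w := by
        rcases ce_squares s r with ⟨h8, h9⟩ | ⟨h8, h9⟩ <;> rw [h8, h9] <;>
          rcases h1 with ⟨h5, h6⟩ | ⟨h5, h6⟩ <;> rw [h5, h6] <;> tauto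
      rintro ⟨h8, h9⟩
      rcases h7 with h7 | h7
      · rw [h7] at h8
        rcases h8 with h8 | h8
        · exact h3 h8
        · omega
      · rw [h7] at h9
        rcases h9 with h9 | h9
        · exact h3 h9
        · omega
  -- along the top side
  have htop : ∀ m : ℕ, (m : ℤ) ≤ R → u ((q l).1 + m, (q l).2 + R) = u (top (q l) R) := by
    intro m
    induction m with
    | zero => intro _; simp [top]
    | succ m ih =>
      intro hm
      push_cast at hm
      rw [← ih (by omega)]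
      have := hout ((q l).1 + m, (q l).2 + R) 0 ((q l).1 + m, (q l).2 + R - 1)
        ((q l).1 + m, (q l).2 + R) (Or.inr ⟨by rw [face0], by rw [f4_0m, face3]⟩)
        (by rw [mem_hbox]; simp only; omega) (by rw [mem_hbox]; simp only; omega)
        (by simp only; omega)
      rw [← this, dir0]
      congr 1
      ext <;> simp <;> ring
  -- down the right side
  have hright : ∀ m : ℕ, (m : ℤ) ≤ R → u ((q l).1 + R, (q l).2 + m) =
      u ((q l).1 + R, (q l).2) := by
    intro m
    induction m with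
    | zero => intro _; simp
    | succ m ih =>
      intro hm
      push_cast at hm
      rw [← ih (by omega)]
      have := hout ((q l).1 + R, (q l).2 + m) 1 ((q l).1 + R - 1, (q l).2 + m)
        ((q l).1 + R, (q l).2 + m) (Or.inl ⟨by rw [face1], by rw [f4_1m, face0]⟩)
        (by rw [mem_hbox]; simp only; omega) (by rw [mem_hbox]; simp only; omega)
        (by simp only; omega)
      rw [← this, dir1]
      congr 1
      ext <;> simp <;> ring
  have h1 := htop R.toNat (by omega)
  have h2 := hright R.toNat (by omega)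
  have h3 : ((R.toNat : ℕ) : ℤ) = R := by omega
  rw [h3] at h1 h2
  obtain ⟨h4, -⟩ := walk hq hD hF R.toNat (by omega)
  have h5 := pot_out hq hD hF hR hl h0 hu hA hI (i := l + R.toNat) (by omega) (by push_cast; omega)
  push_cast at h5
  rw [h4, h3] at h5
  rw [← h1, h2, ← h5]
  congr 1
  ext <;> simp

end

end Vale.Agent.P167.BR
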