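import Vale.Agent.P167.BR.Defs
import Vale.Agent.P167.E6.Defs
import Vale.Agent.P167.H632.Prob

/-!
# P167, BRIDGE: statement of the lattice bridge

`D` is a finite set of squares enclosed by a simple closed lattice polygon `q` (of the medial grid),
`p = q 0`, `a = q k`, `b = q l` (`0 < k < l`), the domain is flat (above a horizontal side) near `a` and
near `b`. `S_br`: up to small errors, the smeared functional with the charges `-π/3` near `a` and `π/3`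
near `b`, normalised by the two positive one-point functionals, is the expectation of a LOCAL functional
of the squares near `b` on the event that the half box of `b` is joined to the arc from `p` to `a` by a
primal path or by a dual path of `D`.
-/

namespace Vale.Agent.P167.BR

open Finset MeasureTheory Vale.Agent.P145.FB Vale.Agent.P167.H632
open Vale.Agent.P167.E6 (IsPolygon Encloses)

/-- The squares of the box `[b.1 - R, b.1 + R] × [b.2, b.2 + R]`. -/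
noncomputable def hbox (b : ℤ × ℤ) (R : ℤ) : Finset (ℤ × ℤ) :=
  Finset.Icc (b.1 - R) (b.1 + R - 1) ×ˢ Finset.Icc b.2 (b.2 + R - 1)

/-- Near `b` (up to distance `R`) the domain is the half-plane above `b`. -/
def Flt (D : Finset (ℤ × ℤ)) (b : ℤ × ℤ) (R : ℤ) : Prop :=
  ∀ v : ℤ × ℤ, b.1 - R ≤ v.1 → v.1 < b.1 + R → b.2 - R ≤ v.2 → v.2 < b.2 + R → (v ∈ D ↔ b.2 ≤ v.2)

/-- The piece `A` visits the box `Z`. -/
def Vz (Z : Finset (ℤ × ℤ)) (A : Finset Ed) : Prop := ∃ e ∈ A, e ∈ eds Z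

open Classical in
/-- The product over the pieces which visit `Z`. -/
noncomputable def XZ (D : Finset (ℤ × ℤ)) (p : ℤ × ℤ) (f : ℤ × ℤ → ℝ) (Z : Finset (ℤ × ℤ))
    (ω : Cfg) : ℝ :=
  ∏ A ∈ (pcs ω D).filter (Vz Z), wp D A (mass D p f A)

/-- No piece of the half box of radius `R` which visits the half box of radius `r` comes to the outer
boundary (left, right or top side) of the half box of radius `R`. -/
def Iso (b : ℤ × ℤ) (r R : ℤ) (ω : Cfg) : Prop :=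
  ∀ A ∈ pcs ω (hbox b R), Vz (hbox b r) A → ∀ e ∈ A,
    (hdv e ∈ hbox b R ∨ (hdv e).2 < b.2) ∧ (tlv e ∈ hbox b R ∨ (tlv e).2 < b.2)

/-- The base point of the half box: the middle of its top side. -/
def top (b : ℤ × ℤ) (R : ℤ) : ℤ × ℤ := (b.1, b.2 + R)

open Classical in
/-- The local functional of the charge `f` near `b`. -/
noncomputable def XB (b : ℤ × ℤ) (r R : ℤ) (f : ℤ × ℤ → ℝ) (ω : Cfg) : ℝ :=
  if Iso b r R ω then XZ (hbox b R) (top b R) f (hbox b r) ω else 0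

/-- `U` and `T` are joined by a path of colour `c` along squares of `D`. -/
def Jn (c : Bool) (D : Finset (ℤ × ℤ)) (ω : Cfg) (U T : Set (ℤ × ℤ)) : Prop :=
  ∃ u ∈ U, ∃ t ∈ T, (u.1 + u.2) % 2 = pr c ∧
    Relation.ReflTransGen (PStep (cs c ω ∩ (↑D : Set (ℤ × ℤ)))) u t

/-- The arc from `q 0` to `q k`. -/
def arc {n : ℕ} (q : ZMod n → ℤ × ℤ) (k : ℕ) : Set (ℤ × ℤ) := {z | ∃ i ≤ k, q (i : ℕ) = z}

open Classical in
/-- The expectation of the local functional of `b` on the event that the half box of radius `r` of `b`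
is joined to `T` by a path of colour `c` in `D`. -/
noncomputable def OD (c : Bool) (D : Finset (ℤ × ℤ)) (T : Set (ℤ × ℤ)) (b : ℤ × ℤ) (r R : ℤ)
    (f : ℤ × ℤ → ℝ) : ℝ :=
  ∫ ω, XB b r R f ω * (if Jn c D ω (sites (hbox b r)) T then 1 else 0) ∂μ

/-- A bump of mass `π / 3` at distance of order `r` of the flat boundary point `b`. -/
structure Bmp (K : ℝ) (b : ℤ × ℤ) (r : ℤ) (f : ℤ × ℤ → ℝ) : Prop where
  nonneg : ∀ z, 0 ≤ f z
  le : ∀ z, f z ≤ K / r ^ 2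
  supp : ∀ z, f z ≠ 0 → b.1 - r ≤ z.1 ∧ z.1 ≤ b.1 + r ∧ b.2 + r / K ≤ z.2 ∧ z.2 ≤ b.2 + r
  sum : ∑ᶠ z, f z = Real.pi / 3

/-- The positive one-point functional of a bump. -/
noncomputable def Zl (b : ℤ × ℤ) (r R : ℤ) (f : ℤ × ℤ → ℝ) : ℝ := ∫ ω, XB b r R (-f) ω ∂μ

/-- The local part of the bridge: moments. -/
def S_mom : Prop := ∀ K : ℝ, 0 < K → ∃ (C : ℝ) (r₀ : ℤ), 0 < r₀ ∧
  ∀ (b : ℤ × ℤ) (r R : ℤ) (f : ℤ × ℤ → ℝ), r₀ ≤ r → 4 * r ≤ R → Bmp K b r f →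
    0 ≤ Zl b r R f ∧ Integrable (XB b r R f) μ ∧ Zl b r R f * ∫ ω, |XB b r R f ω| ∂μ ≤ C

/-- **The lattice bridge.** -/
def S_br : Prop := ∀ K : ℝ, 0 < K → ∃ (C : ℝ) (r₀ : ℤ), 0 < r₀ ∧
  ∀ (n : ℕ) (q : ZMod n → ℤ × ℤ) (D : Finset (ℤ × ℤ)), IsPolygon q → Encloses q D →
  ∀ k l : ℕ, 0 < k → k < l → l < n →
  ∀ (ra Ra rb Rb : ℤ) (fa fb : ℤ × ℤ → ℝ), r₀ ≤ ra → 4 * ra ≤ Ra → r₀ ≤ rb → 4 * rb ≤ Rb →
    Flt D (q k) Ra → Flt D (q l) Rb → Disjoint (hbox (q k) Ra) (hbox (q l) Rb) →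
    q 0 ∉ sites (hbox (q k) Ra) → q 0 ∉ sites (hbox (q l) Rb) →
    Bmp K (q k) ra fa → Bmp K (q l) rb fb →
    1 ≤ VD D (q 0) (-fa) ∧
    |VD D (q 0) (fb - fa) * VD D (q 0) (-fb) / VD D (q 0) (-fa) -
      Zl (q l) rb Rb fb * (OD true D (arc q k) (q l) rb Rb fb +
        OD false D (arc q k) (q l) rb Rb fb)| ≤
      C * (((ra : ℝ) / Ra) ^ (5 / 12 : ℝ) + ((rb : ℝ) / Rb) ^ (5 / 6 : ℝ))

/-- Exchange of the colours by a horizontal shift by one. -/
def S_shift : Prop := ∀ (D : Finset (ℤ × ℤ)) (T : Set (ℤ × ℤ)) (b : ℤ × ℤ) (r R : ℤ)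
  (f : ℤ × ℤ → ℝ), OD false D T b r R f =
    OD true (D.image (· + (1, 0))) ((· + (1, 0)) '' T) (b + (1, 0)) r R (fun z => f (z - (1, 0)))

/-- The positive one-point functional is invariant under translations. -/
def S_Zl : Prop := ∀ (b v : ℤ × ℤ) (r R : ℤ) (f : ℤ × ℤ → ℝ),
  Zl (b + v) r R (fun z => f (z - v)) = Zl b r R f

end Vale.Agent.P167.BR
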