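import Vale.Agent.P167.BR.Poly
import Vale.Agent.P167.BR.Intf
import Vale.Agent.P167.H192.Dict2

/-!
# P167, SLE_6: strands and connections

`Z` is a set of squares (the half box of `b`), `arc q k` the arc from `p` to `a`.
* `join_of_no_strand`: if no strand off `Z` separates `b` from `p` and `a`, then `Z` is joined to the arc
  by a primal or a dual path;
* `no_strand_of_join`: conversely;
* `end_of_two`: if `Z` is joined to the arc in both colours, then a piece visiting `Z` ends on the arc.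
-/

namespace Vale.Agent.P167.BR

open Finset Vale.Agent.P145.FB Vale.Agent.P167.H632
open Vale.Agent.P167.E6 (IsPolygon Encloses dir face)
open Vale.Agent.P167.E2 Relation

variable {ω : Cfg} {D Z : Finset (ℤ × ℤ)} {e e' : Ed} {A : Finset Ed}

/-! ### Steps -/

theorem par_iff (c : Bool) (u : ℤ × ℤ) : (u.1 + u.2) % 2 = pr c ↔
    (c = true ∧ Even (u.1 + u.2)) ∨ (c = false ∧ ¬ Even (u.1 + u.2)) := by
  cases c
  · simp only [pr, Int.even_iff, Bool.false_eq_true, if_false, false_and, false_or, true_and]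
    omega
  · simp only [pr, Int.even_iff, if_true, true_and, Bool.true_eq_false, false_and, or_false]

theorem stp_iff {c : Bool} {s t : ℤ × ℤ} (h : (s.1 + s.2) % 2 = pr c) :
    Stp ω D s t ↔ PStep (cs c ω ∩ (↑D : Set (ℤ × ℤ))) s t := by
  rw [par_iff] at h
  rcases h with ⟨rfl, h⟩ | ⟨rfl, h⟩
  · rw [cs_true, Stp]
    tauto
  · rw [cs_false, Stp]
    tauto

theorem pstep_par {F : Set (ℤ × ℤ)} {s t : ℤ × ℤ} (h : PStep F s t) :
    (t.1 + t.2) % 2 = (s.1 + s.2) % 2 := by
  obtain ⟨h1, h2, -⟩ := h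
  omega

theorem Stp.par {s t : ℤ × ℤ} (h : Stp ω D s t) : (t.1 + t.2) % 2 = (s.1 + s.2) % 2 := by
  rcases h with ⟨-, h⟩ | ⟨-, h⟩ <;> exact pstep_par h

theorem Stp.symm {s t : ℤ × ℤ} (h : Stp ω D s t) : Stp ω D t s := by
  have hp := h.par
  rcases h with ⟨h1, h⟩ | ⟨h1, h⟩
  · exact Or.inl ⟨by rw [Int.even_iff] at *; omega, h.symm⟩
  · exact Or.inr ⟨by rw [Int.even_iff] at *; omega, h.symm⟩

theorem reach_iff {c : Bool} {s t : ℤ × ℤ} (h : (s.1 + s.2) % 2 = pr c) :
    ReflTransGen (Stp ω D) s t ↔ ReflTransGen (PStep (cs c ω ∩ (↑D : Set (ℤ × ℤ)))) s t := by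
  constructor
  · intro hst
    have : ReflTransGen (PStep (cs c ω ∩ (↑D : Set (ℤ × ℤ)))) s t ∧ (t.1 + t.2) % 2 = pr c := by
      induction hst with
      | refl => exact ⟨ReflTransGen.refl, h⟩
      | tail _ hst ih => exact ⟨ih.1.tail ((stp_iff ih.2).1 hst), by rw [hst.par]; exact ih.2⟩
    exact this.1
  · intro hst
    have : ReflTransGen (Stp ω D) s t ∧ (t.1 + t.2) % 2 = pr c := by
      induction hst with
      | refl => exact ⟨ReflTransGen.refl, h⟩
      | tail _ hst ih => exact ⟨ih.1.tail ((stp_iff ih.2).2 hst), by rw [pstep_par hst]; exact ih.2⟩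
    exact this.1

theorem jn_iff {c : Bool} {U T : Set (ℤ × ℤ)} : Jn c D ω U T ↔
    ∃ u ∈ U, ∃ t ∈ T, (u.1 + u.2) % 2 = pr c ∧ ReflTransGen (Stp ω D) u t := by
  unfold Jn
  constructor
  · rintro ⟨u, hu, t, ht, h1, h2⟩
    exact ⟨u, hu, t, ht, h1, (reach_iff h1).2 h2⟩
  · rintro ⟨u, hu, t, ht, h1, h2⟩
    exact ⟨u, hu, t, ht, h1, (reach_iff h1).1 h2⟩

theorem reach_symm {s t : ℤ × ℤ} (h : ReflTransGen (Stp ω D) s t) :
    ReflTransGen (Stp ω D) t s := by
  induction h with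
  | refl => exact ReflTransGen.refl
  | tail _ h ih => exact ReflTransGen.head h.symm ih

theorem ls_stp (he : hdv e ∈ D) : ls (nx ω e) = ls e ∨ Stp ω D (ls e) (ls (nx ω e)) := by
  rcases H192.ls_nx ω e with ⟨h1, h2, -, h3⟩ | ⟨h1, -, h2, -⟩
  · right
    refine Or.inl ⟨even_ls e, h2.1, h2.2.1, h2.2.2, ?_⟩
    rw [h3]
    exact he
  · exact Or.inl h2

theorem rs_stp (he : hdv e ∈ D) : rs (nx ω e) = rs e ∨ Stp ω D (rs e) (rs (nx ω e)) := by
  rcases H192.ls_nx ω e with ⟨h1, -, h2, -⟩ | ⟨h1, h2, -, h3⟩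
  · exact Or.inl h2
  · right
    refine Or.inr ⟨odd_rs e, h2.1, h2.2.1, h2.2.2, ?_⟩
    rw [h3]
    exact he

/-- Properties which are invariant along the interface are constant along a piece. -/
theorem piece_const {P : Ed → Prop} (hA : A ∈ pcs ω D)
    (hP : ∀ e, hdv e ∈ D → (P e ↔ P (nx ω e))) (he : e ∈ A) (he' : e' ∈ A) : P e ↔ P e' := by
  have key : ∀ (k : ℕ) (a b : Ed), Run ω D a k b → (P a ↔ P b) := by
    intro k
    induction k with
    | zero =>
      intro a b h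
      rw [show a = b from h.1]
    | succ k ih =>
      intro a b h
      have h1 : P a ↔ P ((nx ω)^[k] a) := ih a _ ⟨rfl, fun j hj => h.2 j (by omega)⟩
      have h2 := hP ((nx ω)^[k] a) (h.2 k (by omega))
      rw [← Function.iterate_succ_apply' (nx ω), h.1] at h2
      exact h1.trans h2
  obtain ⟨k, h | h⟩ := run_of_mem hA he he'
  · exact key k _ _ h
  · exact (key k _ _ h).symm

/-! ### Sums of potentials -/

theorem sum_pot {U : Finset Ed → ℤ × ℤ → ℤ} (hU : ∀ A ∈ pcs ω D, PotD D A (U A))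
    (τ : Finset Ed → ℤ) (he : e ∈ eds D) :
    ∑ A ∈ pcs ω D, τ A * U A (ls e) = ∑ A ∈ pcs ω D, τ A * U A (rs e) + τ (piece ω D e) := by
  classical
  have h1 : ∀ A ∈ pcs ω D, τ A * U A (ls e) = τ A * U A (rs e) +
      (if A = piece ω D e then τ A else 0) := by
    intro A hA
    rw [hU A hA e he]
    by_cases h : e ∈ A
    · rw [if_pos h, if_pos (eq_piece_of_mem hA h)]
      ring
    · rw [if_neg h, if_neg (fun h' => h (by rw [h']; exact self_mem_piece he))]
      ring
  rw [sum_congr rfl h1, sum_add_distrib, sum_ite_eq' (pcs ω D) (piece ω D e)]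
  rw [if_pos (piece_mem_pcs he)]

/-- Sites joined by medial edges of `Z`. -/
def Ec (Z : Finset (ℤ × ℤ)) (s t : ℤ × ℤ) : Prop :=
  ∃ e ∈ eds Z, (ls e = s ∧ rs e = t) ∨ (ls e = t ∧ rs e = s)

/-- The sites of `Z` are joined across the medial edges of `Z`. -/
def ECon (Z : Finset (ℤ × ℤ)) : Prop :=
  ∀ s ∈ sites Z, ∀ t ∈ sites Z, ReflTransGen (Ec Z) s t

/-- A piece which does not visit `Z` does not separate the sites of `Z`. -/
theorem pot_zone {u : ℤ × ℤ → ℤ} (hu : PotD D A u) (hZD : Z ⊆ D) (hV : ¬ Vz Z A) {s t : ℤ × ℤ}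
    (h : ReflTransGen (Ec Z) s t) : u s = u t := by
  induction h with
  | refl => rfl
  | tail _ h ih =>
    rw [ih]
    obtain ⟨e, he, h1⟩ := h
    have h2 := hu.eq (eds_mono hZD he) (fun h' => hV ⟨e, h', he⟩)
    rcases h1 with ⟨h1, h3⟩ | ⟨h1, h3⟩ <;> rw [h1, h3] at h2
    · exact h2
    · exact h2.symm

theorem pot_reach {u : ℤ × ℤ → ℤ} (hA : A ∈ pcs ω D) (hu : PotD D A u) {s t : ℤ × ℤ}
    (h : ReflTransGen (Stp ω D) s t) : u s = u t := by
  induction h with
  | refl => rfl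
  | tail _ h ih => rw [ih, pot_stp hA hu h]

variable {n : ℕ} {q : ZMod n → ℤ × ℤ}

section

variable (hq : IsPolygon q) (hD : Encloses q D)
include hq hD

/-- A function with the same jumps as a sum of potentials differs from it by a constant along the
boundary. -/
theorem const_bd {U : Finset Ed → ℤ × ℤ → ℤ} (hU : ∀ A ∈ pcs ω D, PotD D A (U A))
    {τ : Finset Ed → ℤ} {g : ℤ × ℤ → ℤ} (hg : ∀ e ∈ eds D, g (ls e) = g (rs e) + τ (piece ω D e))
    (j : ℕ) : g (q j) - ∑ A ∈ pcs ω D, τ A * U A (q j) =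
      g (q 0) - ∑ A ∈ pcs ω D, τ A * U A (q 0) := by
  have hn : NeZero n := ⟨by have := hq.1; omega⟩
  induction j with
  | zero => simp
  | succ j ih =>
    rw [← ih]
    have h1 := hg _ (be_mem hq hD (j : ZMod n))
    have h2 := sum_pot hU τ (be_mem hq hD (j : ZMod n))
    push_cast
    rcases be_sides hq (j : ZMod n) with ⟨h3, h4⟩ | ⟨h3, h4⟩ <;> rw [h3, h4] at h1 h2
    · linarith
    · linarith

/-- **No separating strand, hence a connection.** -/
theorem join_of_no_strand {k l : ℕ} (hl : q l ∈ sites Z)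
    (h : ∀ A ∈ pcs ω D, ¬ Vz Z A → ¬ (Sep D A (q l) (q 0) ∧ ¬ Sep D A (q k) (q 0))) :
    Jn true D ω (sites Z) (arc q k) ∨ Jn false D ω (sites Z) (arc q k) := by
  classical
  by_contra hcon
  push Not at hcon
  obtain ⟨hc1, hc2⟩ := hcon
  -- the cluster of the arc
  let C : Set (ℤ × ℤ) := {s | ∃ t ∈ arc q k, ReflTransGen (Stp ω D) s t}
  have hCst : ∀ {s t}, Stp ω D s t → (s ∈ C ↔ t ∈ C) := by
    intro s t hst
    constructor
    · rintro ⟨x, hx, h1⟩
      exact ⟨x, hx, ReflTransGen.head hst.symm h1⟩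
    · rintro ⟨x, hx, h1⟩
      exact ⟨x, hx, ReflTransGen.head hst h1⟩
  have hCU : ∀ s ∈ sites Z, s ∉ C := by
    rintro s hs ⟨t, ht, hst⟩
    by_cases hev : Even (s.1 + s.2)
    · exact hc1 (jn_iff.2 ⟨s, hs, t, ht, (par_iff _ _).2 (Or.inl ⟨rfl, hev⟩), hst⟩)
    · exact hc2 (jn_iff.2 ⟨s, hs, t, ht, (par_iff _ _).2 (Or.inr ⟨rfl, hev⟩), hst⟩)
  have hCT : ∀ i ≤ k, q (i : ℕ) ∈ C := fun i hi => ⟨_, ⟨i, hi, rfl⟩, ReflTransGen.refl⟩
  have hCl : ∀ A ∈ pcs ω D, ∀ e ∈ A, ∀ e' ∈ A, (ls e ∈ C ↔ ls e' ∈ C) := by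
    intro A hA e he e' he'
    refine piece_const (P := fun e => ls e ∈ C) hA (fun e he => ?_) he he'
    rcases ls_stp (ω := ω) he with h1 | h1
    · simp only [h1]
    · exact hCst h1
  have hCr : ∀ A ∈ pcs ω D, ∀ e ∈ A, ∀ e' ∈ A, (rs e ∈ C ↔ rs e' ∈ C) := by
    intro A hA e he e' he'
    refine piece_const (P := fun e => rs e ∈ C) hA (fun e he => ?_) he he'
    rcases rs_stp (ω := ω) he with h1 | h1
    · simp only [h1]
    · exact hCst h1
  -- the jump of a piece
  let τ : Finset Ed → ℤ := fun A =>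
    (if ∃ e ∈ A, ls e ∈ C then 1 else 0) - (if ∃ e ∈ A, rs e ∈ C then 1 else 0)
  have hτ : ∀ A ∈ pcs ω D, ∀ e ∈ A, τ A = (if ls e ∈ C then 1 else 0) -
      (if rs e ∈ C then 1 else 0) := by
    intro A hA e he
    have h1 : (∃ e ∈ A, ls e ∈ C) ↔ ls e ∈ C :=
      ⟨fun ⟨e', he', h'⟩ => (hCl A hA e' he' e he).1 h', fun h' => ⟨e, he, h'⟩⟩
    have h2 : (∃ e ∈ A, rs e ∈ C) ↔ rs e ∈ C :=
      ⟨fun ⟨e', he', h'⟩ => (hCr A hA e' he' e he).1 h', fun h' => ⟨e, he, h'⟩⟩
    simp only [τ, h1, h2]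
  choose! U hU using fun A (hA : A ∈ pcs ω D) => exists_pot hq hD hA
  have hg : ∀ e ∈ eds D, (fun s => if s ∈ C then (1 : ℤ) else 0) (ls e) =
      (fun s => if s ∈ C then (1 : ℤ) else 0) (rs e) + τ (piece ω D e) := by
    intro e he
    rw [hτ _ (piece_mem_pcs he) e (self_mem_piece he)]
    ring
  have h1 := const_bd hq hD hU (g := fun s => if s ∈ C then (1 : ℤ) else 0) (τ := τ) hg l
  have e0 : q (0 : ZMod n) ∈ C := by
    have := hCT 0 (Nat.zero_le _)
    simpa using this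
  rw [if_neg (hCU _ hl), if_pos e0] at h1
  -- some piece with a jump separates
  obtain ⟨A, hA, hAne⟩ : ∃ A ∈ pcs ω D, τ A * U A (q l) ≠ τ A * U A (q 0) := by
    by_contra hno
    push Not at hno
    rw [sum_congr rfl hno] at h1
    linarith
  have hτA : τ A ≠ 0 := fun h0 => hAne (by rw [h0]; ring)
  have hsep : U A (q l) ≠ U A (q 0) := fun h0 => hAne (by rw [h0])
  refine h A hA ?_ ⟨⟨U A, hU A hA, hsep⟩, ?_⟩
  · rintro ⟨e, he, heZ⟩
    apply hτA
    rw [hτ A hA e he, if_neg (hCU _ (ls_mem_sites heZ)), if_neg (hCU _ (rs_mem_sites heZ)), sub_zero]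
  · rintro ⟨u, hu, hne⟩
    apply hne
    have h2 := pot_arc hq hD hu (i := 0) (j := k) (Nat.zero_le _) ?_
    · simpa using h2
    intro m _ hm hmem
    apply hτA
    rw [hτ A hA _ hmem]
    have k1 := hCT m hm.le
    have k2 := hCT (m + 1) hm
    push_cast at k2
    rcases be_sides hq (m : ZMod n) with ⟨h3, h4⟩ | ⟨h3, h4⟩ <;> rw [h3, h4] <;> simp [k1, k2]

/-- If the half box is joined to the arc in both colours then a piece visiting it ends on the arc. -/
theorem end_of_two (hZD : Z ⊆ D) (hZ : ECon Z) {k : ℕ}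
    (h1 : Jn true D ω (sites Z) (arc q k)) (h2 : Jn false D ω (sites Z) (arc q k)) :
    ∃ A ∈ pcs ω D, Vz Z A ∧ ∃ m < k, be q (m : ℕ) ∈ A := by
  classical
  by_contra hcon
  push Not at hcon
  obtain ⟨z1, hz1, t1, ⟨i1, hi1, rfl⟩, hp1, hr1⟩ := jn_iff.1 h1
  obtain ⟨z2, hz2, t2, ⟨i2, hi2, rfl⟩, hp2, hr2⟩ := jn_iff.1 h2
  choose! U hU using fun A (hA : A ∈ pcs ω D) => exists_pot hq hD hA
  have hall : ∀ A ∈ pcs ω D, U A z1 = U A z2 := by
    intro A hA
    by_cases hV : Vz Z A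
    · have h3 : ∀ i ≤ k, U A (q (i : ℕ)) = U A (q 0) := by
        intro i hi
        have := pot_arc hq hD (hU A hA) (i := 0) (j := i) (Nat.zero_le _)
          (fun m _ hm => hcon A hA hV m (by omega))
        simpa using this
      rw [pot_reach hA (hU A hA) hr1, pot_reach hA (hU A hA) hr2, h3 _ hi1, h3 _ hi2]
    · exact pot_zone (hU A hA) hZD hV (hZ z1 hz1 z2 hz2)
  -- the sum of all potentials and the parity
  let H : ℤ × ℤ → ℤ := fun s => (∑ A ∈ pcs ω D, (1 : ℤ) * U A s) - if Even (s.1 + s.2) then 1 else 0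
  have hH : ∀ s t, ReflTransGen (Ec Z) s t → H s = H t := by
    intro s t h
    induction h with
    | refl => rfl
    | tail _ h ih =>
      rw [ih]
      obtain ⟨e, he, h3⟩ := h
      have h4 := sum_pot hU (fun _ => 1) (eds_mono hZD he)
      have h5 : H (ls e) = H (rs e) := by
        simp only [H]
        rw [if_pos (even_ls e), if_neg (odd_rs e)]
        linarith
      rcases h3 with ⟨h3, h6⟩ | ⟨h3, h6⟩ <;> rw [← h3, ← h6]
      · exact h5
      · exact h5.symm
  have h3 := hH z1 z2 (hZ z1 hz1 z2 hz2)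
  simp only [H] at h3
  rw [sum_congr rfl (fun A hA => by rw [hall A hA]),
    if_pos (show Even (z1.1 + z1.2) from by simpa [par_iff] using hp1),
    if_neg (show ¬ Even (z2.1 + z2.2) from by simpa [par_iff] using hp2)] at h3
  omega

/-- **A connection, hence no separating strand.** -/
theorem no_strand_of_join (hZD : Z ⊆ D) (hZ : ECon Z) {k l : ℕ} (hkl : k ≤ l) (hln : l < n)
    (hl : q l ∈ sites Z) {c : Bool} (hJ : Jn c D ω (sites Z) (arc q k)) (hA : A ∈ pcs ω D)
    (hV : ¬ Vz Z A) : ¬ (Sep D A (q l) (q 0) ∧ ¬ Sep D A (q k) (q 0)) := by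
  rintro ⟨⟨u, hu, hne⟩, hns⟩
  have hn : NeZero n := ⟨by have := hq.1; omega⟩
  obtain ⟨z, hz, t, ⟨i, hi, rfl⟩, hp, hr⟩ := jn_iff.1 hJ
  have h1 : u (q l) = u (q i) := by
    rw [pot_zone hu hZD hV (hZ _ hl z hz), pot_reach hA hu hr]
  have h2 : u (q k) = u (q 0) := by
    by_contra h
    exact hns ⟨u, hu, h⟩
  -- the piece does not meet the arc
  have hno : ∀ m < k, be q (m : ℕ) ∉ A := by
    intro m hm hmem
    have hcast : ∀ {a b : ℕ}, a < n → b < n → be q (a : ZMod n) = be q (b : ZMod n) → a = b := by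
      intro a b ha hb h
      have h3 := be_injective hq h
      have h4 := congrArg ZMod.val h3
      rwa [ZMod.val_cast_of_lt ha, ZMod.val_cast_of_lt hb] at h4
    -- at most one entering and one leaving edge
    have huniq : ∀ {a b : ℕ}, a < n → b < n → be q (a : ZMod n) ∈ A → be q (b : ZMod n) ∈ A →
        (Even ((q a).1 + (q a).2) ↔ Even ((q b).1 + (q b).2)) → a = b := by
      intro a b ha hb h3 h4 h5
      refine hcast ha hb ?_
      by_cases h6 : Even ((q a).1 + (q a).2)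
      · exact entry_unique hA h3 h4 (be_even hq hD h6).2.2.2 (be_even hq hD (h5.1 h6)).2.2.2
      · exact exit_unique hA h3 h4 (be_odd hq hD h6).2.2.2
          (be_odd hq hD (fun h7 => h6 (h5.2 h7))).2.2.2
    by_cases hm' : ∃ m' < k, m' ≠ m ∧ be q (m' : ℕ) ∈ A
    · obtain ⟨m', hm'k, hne', hmem'⟩ := hm'
      apply hne
      have h3 := pot_arc hq hD hu (i := l) (j := n) hln.le ?_
      · rw [← h3]
        simp
      intro i hli hin hi
      have h4 : ¬ (Even ((q m).1 + (q m).2) ↔ Even ((q m').1 + (q m').2)) := fun h =>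
        hne' (huniq (by omega) (by omega) hmem hmem' h).symm
      have h5 : ¬ (Even ((q i).1 + (q i).2) ↔ Even ((q m).1 + (q m).2)) := fun h => by
        have := huniq hin (by omega) hi hmem h
        omega
      have h6 : ¬ (Even ((q i).1 + (q i).2) ↔ Even ((q m').1 + (q m').2)) := fun h => by
        have := huniq hin (by omega) hi hmem' h
        omega
      tauto
    · push Not at hm'
      have h3 := pot_arc hq hD hu (i := 0) (j := m) (Nat.zero_le _)
        (fun i _ hi => hm' i (by omega) (by omega))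
      have h4 := pot_arc hq hD hu (i := m + 1) (j := k) hm
        (fun i hi1 hi2 => hm' i hi2 (by omega))
      push_cast at h3 h4
      rw [h2, ← h3] at h4
      by_cases h6 : Even ((q m).1 + (q m).2)
      · have := pot_even hq hD hu hmem h6
        omega
      · have := pot_odd hq hD hu hmem h6
        omega
  apply hne
  rw [h1]
  have := pot_arc hq hD hu (i := 0) (j := i) (Nat.zero_le _) (fun m _ hm => hno m (by omega))
  simpa using this

end

end Vale.Agent.P167.BR
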