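import Vale.Agent.P167.BR.Plane

/-!
# P167, SLE_6: existence of the potentials of the pieces

`SCon D`: any two squares outside of `D` which are adjacent to `D` are joined by a chain of squares
outside of `D`. Then all pieces of `D` have potentials. Potentials are constant along the open and the
dual open steps in `D`.
-/

namespace Vale.Agent.P167.BR

open Finset Vale.Agent.P145.FB

variable {ω ω' : Cfg} {D D' : Finset (ℤ × ℤ)} {e e' : Ed} {A B : Finset Ed}

/-! ### Divergence of a piece -/

theorem dv_ind (A : Finset Ed) (v : ℤ × ℤ) : dv (fun e => if e ∈ A then 1 else 0) v =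
    ((A.filter fun e => tlv e = v).card : ℤ) - (A.filter fun e => hdv e = v).card := by
  induction A using Finset.induction_on with
  | empty => simp [dv]
  | @insert a A ha ih =>
    have h1 : (fun e => if e ∈ insert a A then (1 : ℤ) else 0) =
        fun e => (if e = a then 1 else 0) + (if e ∈ A then 1 else 0) := by
      funext e
      by_cases he : e = a
      · subst he
        simp [ha]
      · simp [he]
    rw [h1, dv_add, ih, dv_single, filter_insert, filter_insert]
    have h2 : a ∉ A.filter (fun e => tlv e = v) := fun h => ha (mem_filter.1 h).1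
    have h3 : a ∉ A.filter (fun e => hdv e = v) := fun h => ha (mem_filter.1 h).1
    split_ifs <;> simp [card_insert_of_notMem, h2, h3] <;> ring

/-- Around a square of `D` the piece enters as often as it leaves. -/
theorem card_tl_eq (hA : A ∈ pcs ω D) {v : ℤ × ℤ} (hv : v ∈ D) :
    (A.filter fun e => tlv e = v).card = (A.filter fun e => hdv e = v).card := by
  symm
  refine card_bij (fun e _ => nx ω e) ?_ ?_ ?_
  · intro e he
    rw [mem_filter] at he ⊢
    refine ⟨(nx_mem_iff hA (by rw [he.2]; exact hv)).1 he.1, ?_⟩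
    rw [tlv_nx]
    exact he.2
  · intro e _ e' _ h
    exact (s_nx ω).1 h
  · intro e he
    rw [mem_filter] at he
    obtain ⟨e0, rfl⟩ := (s_nx ω).2 e
    rw [tlv_nx] at he
    exact ⟨e0, mem_filter.2 ⟨(nx_mem_iff hA (by rw [he.2]; exact hv)).2 he.1, he.2⟩, rfl⟩

theorem dv_piece (hA : A ∈ pcs ω D) {v : ℤ × ℤ} (hv : v ∈ D) :
    dv (fun e => if e ∈ A then 1 else 0) v = 0 := by
  rw [dv_ind, card_tl_eq hA hv, sub_self]

/-- If all edges of a piece have their head in `D` then all have their tail in `D`. -/
theorem IsLp.tl (hA : A ∈ pcs ω D) (hl : IsLp D A) (he : e ∈ A) : tlv e ∈ D := by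
  have hinj : Set.InjOn (nx ω) ↑A := (s_nx ω).1.injOn
  have hmaps : Set.MapsTo (nx ω) ↑A ↑A := fun a ha => (nx_mem_iff hA (hl a ha)).1 ha
  have hsurj := Finset.surjOn_of_injOn_of_card_le (nx ω) (s := A) (t := A) hmaps hinj le_rfl
  obtain ⟨a, ha, rfl⟩ := hsurj he
  rw [tlv_nx]
  exact hl a ha

/-- A strand has an edge which enters `D`. -/
theorem exists_entry (hA : A ∈ pcs ω D) (hl : ¬ IsLp D A) : ∃ e ∈ A, tlv e ∉ D := by
  by_contra hcon
  push Not at hcon
  -- the step backwards maps `A` to `A`
  have hpv : ∀ a ∈ A, ∃ b ∈ A, nx ω b = a := by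
    intro a ha
    obtain ⟨b, rfl⟩ := (s_nx ω).2 a
    have h1 := hcon _ ha
    rw [tlv_nx] at h1
    exact ⟨b, (nx_mem_iff hA h1).2 ha, rfl⟩
  choose! g hg1 hg2 using hpv
  have hinj : Set.InjOn g ↑A := by
    intro a ha b hb h
    rw [← hg2 a ha, ← hg2 b hb, h]
  have hmaps : Set.MapsTo g ↑A ↑A := fun a ha => hg1 a ha
  have hsurj := Finset.surjOn_of_injOn_of_card_le g (s := A) (t := A) hmaps hinj le_rfl
  obtain ⟨e0, he0, h0⟩ := exists_exit hl
  obtain ⟨a, ha, rfl⟩ := hsurj he0
  have h1 := hcon a ha
  rw [← hg2 a ha, tlv_nx] at h1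
  exact h0 h1

/-! ### Flows outside of `D` -/

/-- Two squares outside of `D` with a common side. -/
def Adj (D : Finset (ℤ × ℤ)) (v w : ℤ × ℤ) : Prop :=
  ∃ e, e ∉ eds D ∧ ((tlv e = v ∧ hdv e = w) ∨ (tlv e = w ∧ hdv e = v))

theorem Adj.symm {v w : ℤ × ℤ} (h : Adj D v w) : Adj D w v := by
  obtain ⟨e, he, h⟩ := h
  exact ⟨e, he, h.symm⟩

/-- The squares outside of `D` adjacent to `D` are joined outside of `D`. -/
def SCon (D : Finset (ℤ × ℤ)) : Prop :=
  ∀ e ∈ eds D, ∀ e' ∈ eds D, tlv e ∉ D → hdv e' ∉ D →
    Relation.ReflTransGen (Adj D) (tlv e) (hdv e')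

theorem flow_of_chain {v w : ℤ × ℤ} (h : Relation.ReflTransGen (Adj D) v w) :
    ∃ J : Ed → ℤ, (∀ e ∈ eds D, J e = 0) ∧
      ∀ u, dv J u = (if v = u then 1 else 0) - (if w = u then 1 else 0) := by
  induction h with
  | refl => exact ⟨fun _ => 0, fun _ _ => rfl, fun u => by rw [dv_zero, sub_self]⟩
  | @tail w w' _ hw ih =>
    obtain ⟨J, hJ, hd⟩ := ih
    obtain ⟨e, he, h | h⟩ := hw
    · refine ⟨fun e' => J e' + (if e' = e then 1 else 0), fun e' he' => ?_, fun u => ?_⟩
      · simp only [hJ e' he', if_neg (show ¬ e' = e from fun h' => he (by rw [← h']; exact he')),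
          add_zero]
      · rw [dv_add, hd, dv_single, h.1, h.2]
        ring
    · refine ⟨fun e' => J e' + (if e' = e then -1 else 0), fun e' he' => ?_, fun u => ?_⟩
      · simp only [hJ e' he', if_neg (show ¬ e' = e from fun h' => he (by rw [← h']; exact he')),
          add_zero]
      · rw [dv_add, hd, dv_single, h.1, h.2]
        split_ifs <;> ring

/-- **Existence of the potentials.** -/
theorem exists_potD (hD : SCon D) (hA : A ∈ pcs ω D) : ∃ u, PotD D A u := by
  classical
  by_cases hl : IsLp D A
  · have hJ : ∀ v, dv (fun e => if e ∈ A then 1 else 0) v = 0 := by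
      intro v
      by_cases hv : v ∈ D
      · exact dv_piece hA hv
      · rw [dv_ind]
        have h1 : (A.filter fun e => tlv e = v) = ∅ := by
          rw [filter_eq_empty_iff]
          intro e he h
          exact hv (h ▸ hl.tl hA he)
        have h2 : (A.filter fun e => hdv e = v) = ∅ := by
          rw [filter_eq_empty_iff]
          intro e he h
          exact hv (h ▸ hl e he)
        rw [h1, h2]
        simp
    obtain ⟨u, hu⟩ := exists_plane hJ
    exact ⟨u, fun e _ => hu e⟩
  · obtain ⟨ei, hei, hi⟩ := exists_entry hA hl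
    obtain ⟨eo, heo, ho⟩ := exists_exit hl
    obtain ⟨J, hJ0, hJ⟩ := flow_of_chain (hD ei (subset_eds hA hei) eo (subset_eds hA heo) hi ho)
    have hK : ∀ v, dv (fun e => (if e ∈ A then 1 else 0) - J e) v = 0 := by
      intro v
      rw [dv_sub, hJ]
      by_cases hv : v ∈ D
      · rw [dv_piece hA hv, if_neg (show ¬ tlv ei = v from fun h => hi (by rw [h]; exact hv)),
          if_neg (show ¬ hdv eo = v from fun h => ho (by rw [h]; exact hv))]
        simp
      · rw [dv_ind]
        have h1 : ((A.filter fun e => tlv e = v).card : ℤ) = if tlv ei = v then 1 else 0 := by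
          split_ifs with h
          · have : (A.filter fun e => tlv e = v) = {ei} := by
              ext e
              rw [mem_filter, mem_singleton]
              constructor
              · rintro ⟨h1, h2⟩
                exact entry_unique hA h1 hei (by rw [h2]; exact hv) hi
              · rintro rfl
                exact ⟨hei, h⟩
            rw [this]
            simp
          · have : (A.filter fun e => tlv e = v) = ∅ := by
              rw [filter_eq_empty_iff]
              intro e he h2
              have := entry_unique hA he hei (by rw [h2]; exact hv) hi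
              rw [this] at h2
              exact h h2
            rw [this]
            simp
        have h2 : ((A.filter fun e => hdv e = v).card : ℤ) = if hdv eo = v then 1 else 0 := by
          split_ifs with h
          · have : (A.filter fun e => hdv e = v) = {eo} := by
              ext e
              rw [mem_filter, mem_singleton]
              constructor
              · rintro ⟨h1, h2⟩
                exact exit_unique hA h1 heo (by rw [h2]; exact hv) ho
              · rintro rfl
                exact ⟨heo, h⟩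
            rw [this]
            simp
          · have : (A.filter fun e => hdv e = v) = ∅ := by
              rw [filter_eq_empty_iff]
              intro e he h2
              have := exit_unique hA he heo (by rw [h2]; exact hv) ho
              rw [this] at h2
              exact h h2
            rw [this]
            simp
        rw [h1, h2, sub_self]
    obtain ⟨u, hu⟩ := exists_plane hK
    refine ⟨u, fun e he => ?_⟩
    have := hu e
    rw [hJ0 e he, sub_zero] at this
    rw [this]

/-! ### Constancy along the steps -/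

/-- Across the edges which are not in the piece the potential does not change. -/
theorem PotD.eq {u : ℤ × ℤ → ℤ} (hu : PotD D A u) (he : e ∈ eds D) (h : e ∉ A) :
    u (ls e) = u (rs e) := by
  rw [hu e he, if_neg h, add_zero]

theorem PotD.eq_add {u : ℤ × ℤ → ℤ} (hu : PotD D A u) (he : e ∈ eds D) (h : e ∈ A) :
    u (ls e) = u (rs e) + 1 := by
  rw [hu e he, if_pos h]

theorem pot_aux {u : ℤ × ℤ → ℤ} (hA : A ∈ pcs ω D) (hu : PotD D A u) (he : hdv e ∈ D) :
    (ω (hdv e) = true → u (ls (nx ω e)) = u (ls e)) ∧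
    (ω (hdv e) = false → u (rs (nx ω e)) = u (rs e)) := by
  have h1 := hu e (mem_eds.2 (Or.inl he))
  have h2 := hu (nx ω e) (nx_mem_eds he)
  have h3 := nx_mem_iff hA he
  have h4 : u (ls (nx ω e)) - u (rs (nx ω e)) = u (ls e) - u (rs e) := by
    by_cases h : e ∈ A
    · rw [if_pos h] at h1
      rw [if_pos (h3.1 h)] at h2
      omega
    · rw [if_neg h] at h1
      rw [if_neg (fun h' => h (h3.2 h'))] at h2
      omega
  constructor
  · intro h0
    rw [rs_nx h0] at h4
    omega
  · intro h0
    rw [ls_nx h0] at h4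
    omega

theorem pot_sq {u : ℤ × ℤ → ℤ} (hA : A ∈ pcs ω D) (hu : PotD D A u) {x y : ℤ}
    (hv : (x, y) ∈ D) :
    ((Even (x + y) ∧ ω (x, y) = true) ∨ (¬ Even (x + y) ∧ ω (x, y) = false) →
      u (x, y) = u (x + 1, y + 1)) ∧
    ((¬ Even (x + y) ∧ ω (x, y) = true) ∨ (Even (x + y) ∧ ω (x, y) = false) →
      u (x + 1, y) = u (x, y + 1)) := by
  by_cases hev : Even (x + y)
  · have h1 := pot_aux (e := Sum.inr (x, y)) hA hu (by simpa [hdv, hev] using hv)
    constructor
    · rintro (⟨-, h0⟩ | ⟨h0, -⟩)
      · have h2 := h1.1 (by simpa [hdv, hev] using h0)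
        simpa [nx, ls, hev, h0, ev3] using h2
      · exact absurd hev h0
    · rintro (⟨h0, -⟩ | ⟨-, h0⟩)
      · exact absurd hev h0
      · have h2 := h1.2 (by simpa [hdv, hev] using h0)
        simpa [nx, rs, hev, h0, ev3] using h2
  · have h1 := pot_aux (e := Sum.inl (x, y)) hA hu (by simpa [hdv, hev] using hv)
    constructor
    · rintro (⟨h0, -⟩ | ⟨-, h0⟩)
      · exact absurd h0 hev
      · have h2 := h1.2 (by simpa [hdv, hev] using h0)
        simpa [nx, rs, hev, h0, ev4] using h2
    · rintro (⟨-, h0⟩ | ⟨h0, -⟩)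
      · have h2 := h1.1 (by simpa [hdv, hev] using h0)
        have h3 : u (x, y + 1) = u (x + 1, y) := by
          simpa [nx, ls, hev, h0, ev4] using h2
        exact h3.symm
      · exact absurd h0 hev

/-- The step from `s` to `t` goes along a square of the colour of `s`. -/
def Stp (ω : Cfg) (D : Finset (ℤ × ℤ)) (s t : ℤ × ℤ) : Prop :=
  (Even (s.1 + s.2) ∧ PStep (op ω ∩ ↑D) s t) ∨ (¬ Even (s.1 + s.2) ∧ PStep ((op ω)ᶜ ∩ ↑D) s t)

/-- Potentials are constant along the steps. -/
theorem pot_stp {u : ℤ × ℤ → ℤ} (hA : A ∈ pcs ω D) (hu : PotD D A u) {s t : ℤ × ℤ}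
    (hst : Stp ω D s t) : u s = u t := by
  obtain ⟨x, y⟩ := s
  obtain ⟨x', y'⟩ := t
  simp only [Stp, PStep] at hst
  have hmem : ∀ q : ℤ × ℤ, (q ∈ op ω ∩ (↑D : Set (ℤ × ℤ)) ↔ ω q = true ∧ q ∈ D) ∧
      (q ∈ (op ω)ᶜ ∩ (↑D : Set (ℤ × ℤ)) ↔ ω q = false ∧ q ∈ D) := by
    intro q
    constructor
    · rfl
    · simp [op]
  simp only [(hmem _).1, (hmem _).2] at hst
  have e1 : ∀ a : ℤ, min a (a + 1) = a := fun a => by omega
  have e2 : ∀ a : ℤ, min a (a - 1) = a - 1 := fun a => by omega
  have p1 : ∀ a b : ℤ, Even (a - 1 + (b - 1)) ↔ Even (a + b) := fun a b => by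
    rw [Int.even_iff, Int.even_iff]; omega
  rcases hst with ⟨hev, h1 | h1, h2 | h2, h0, hv⟩ | ⟨hev, h1 | h1, h2 | h2, h0, hv⟩ <;>
    subst h1 <;> subst h2 <;> simp only [e1, e2] at h0 hv
  · exact (pot_sq hA hu hv).1 (Or.inl ⟨hev, h0⟩)
  · have := (pot_sq hA hu hv).2 (Or.inl ⟨by rw [ev4]; simpa using hev, h0⟩)
    simpa using this.symm
  · have := (pot_sq hA hu hv).2 (Or.inl ⟨by rw [ev3]; simpa using hev, h0⟩)
    simpa using this
  · have := (pot_sq hA hu hv).1 (Or.inl ⟨by rw [p1]; exact hev, h0⟩)
    simpa using this.symm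
  · exact (pot_sq hA hu hv).1 (Or.inr ⟨hev, h0⟩)
  · have := (pot_sq hA hu hv).2 (Or.inr ⟨by rw [ev4]; simpa using hev, h0⟩)
    simpa using this.symm
  · have := (pot_sq hA hu hv).2 (Or.inr ⟨by rw [ev3]; simpa using hev, h0⟩)
    simpa using this
  · have := (pot_sq hA hu hv).1 (Or.inr ⟨by rw [p1]; exact hev, h0⟩)
    simpa using this.symm

end Vale.Agent.P167.BR
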