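import Vale.Agent.P167.BR.Intf
import Vale.Agent.P167.BR.Pot
import Vale.Agent.P167.H135.Tra

/-!
# P167, BRIDGE: translations

Translation by a vector `a`, with exchange of the colours (and of the directions of the medial edges)
if `a` is odd: pieces, masses, weights, the local functional `XB` and the events `Jn` are transported.
Results: `s_Zl : S_Zl` and `s_shift : S_shift`.
-/

namespace Vale.Agent.P167.BR

open Finset MeasureTheory Vale.Agent.P145.FB Vale.Agent.P167.H632
open Vale.Agent.P167.H135 (shC shE hdv_sh hdv_sh' shE_inj shE_neg shC_neg mp_shC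
  ev_add od_add shC_ev shC_od)

variable {ω : Cfg} {D Z : Finset (ℤ × ℤ)} {e e' : Ed} {A : Finset Ed} {a : ℤ × ℤ}

/-! ### Squares and sites of a translated edge -/

theorem tlv_sh (ha : Even (a.1 + a.2)) (e : Ed) : tlv (shE a e) = tlv e + a := by
  rcases e with ⟨x, y⟩ | ⟨x, y⟩
  · have h1 := ev_add ha x y
    show tlv (Sum.inl (x + a.1, y + a.2)) = _
    simp only [tlv, h1]
    split_ifs
    · rfl
    · ext <;> simp <;> ring
  · have h1 := ev_add ha x y
    show tlv (Sum.inr (x + a.1, y + a.2)) = _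
    simp only [tlv, h1]
    split_ifs
    · ext <;> simp <;> ring
    · rfl

theorem tlv_sh' (ha : ¬ Even (a.1 + a.2)) (e : Ed) : tlv (shE a e) = hdv e + a := by
  rcases e with ⟨x, y⟩ | ⟨x, y⟩
  · have h1 := od_add ha x y
    show tlv (Sum.inl (x + a.1, y + a.2)) = _
    simp only [hdv, tlv, h1]
    by_cases hp : Even (x + y)
    · simp only [hp, not_true_eq_false, if_false, if_true]
      ext <;> simp <;> ring
    · simp only [hp, not_false_eq_true, if_true, if_false]; rfl
  · have h1 := od_add ha x y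
    show tlv (Sum.inr (x + a.1, y + a.2)) = _
    simp only [hdv, tlv, h1]
    by_cases hp : Even (x + y)
    · simp only [hp, not_true_eq_false, if_false, if_true]; rfl
    · simp only [hp, not_false_eq_true, if_true, if_false]
      ext <;> simp <;> ring

theorem ls_sh (ha : Even (a.1 + a.2)) (e : Ed) : ls (shE a e) = ls e + a ∧ rs (shE a e) = rs e + a := by
  rcases e with ⟨x, y⟩ | ⟨x, y⟩
  · have h1 := ev_add ha x y
    show ls (Sum.inl (x + a.1, y + a.2)) = _ ∧ rs (Sum.inl (x + a.1, y + a.2)) = _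
    by_cases hp : Even (x + y) <;> simp only [ls, rs, h1, hp, if_true, if_false] <;>
      constructor <;> ext <;> simp <;> ring
  · have h1 := ev_add ha x y
    show ls (Sum.inr (x + a.1, y + a.2)) = _ ∧ rs (Sum.inr (x + a.1, y + a.2)) = _
    by_cases hp : Even (x + y) <;> simp only [ls, rs, h1, hp, if_true, if_false] <;>
      constructor <;> ext <;> simp <;> ring

theorem ls_sh' (ha : ¬ Even (a.1 + a.2)) (e : Ed) :
    ls (shE a e) = rs e + a ∧ rs (shE a e) = ls e + a := by
  rcases e with ⟨x, y⟩ | ⟨x, y⟩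
  · have h1 := od_add ha x y
    show ls (Sum.inl (x + a.1, y + a.2)) = _ ∧ rs (Sum.inl (x + a.1, y + a.2)) = _
    by_cases hp : Even (x + y) <;>
      simp only [ls, rs, h1, hp, not_true_eq_false, not_false_eq_true, if_true, if_false] <;>
      constructor <;> ext <;> simp <;> ring
  · have h1 := od_add ha x y
    show ls (Sum.inr (x + a.1, y + a.2)) = _ ∧ rs (Sum.inr (x + a.1, y + a.2)) = _
    by_cases hp : Even (x + y) <;>
      simp only [ls, rs, h1, hp, not_true_eq_false, not_false_eq_true, if_true, if_false] <;>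
      constructor <;> ext <;> simp <;> ring

/-! ### Translated sets -/

theorem mem_tr {S : Finset (ℤ × ℤ)} {z : ℤ × ℤ} : z + a ∈ S.image (· + a) ↔ z ∈ S := by
  simp

theorem mem_tr' {S : Finset (ℤ × ℤ)} {z : ℤ × ℤ} : z ∈ S.image (· + a) ↔ z - a ∈ S := by
  rw [← mem_tr (a := a) (z := z - a), sub_add_cancel]

theorem tr_neg (S : Finset (ℤ × ℤ)) (a : ℤ × ℤ) : (S.image (· + a)).image (· + -a) = S := by
  ext z
  rw [mem_tr', mem_tr']
  simp

theorem mem_shE {A : Finset Ed} : shE a e ∈ A.image (shE a) ↔ e ∈ A := by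
  rw [mem_image]
  constructor
  · rintro ⟨e', he', h⟩
    rwa [← shE_inj a h]
  · exact fun h => ⟨e, h, rfl⟩

theorem shE_neg' (a : ℤ × ℤ) (e : Ed) : shE a (shE (-a) e) = e := by
  have := shE_neg (-a) e
  rwa [neg_neg] at this

theorem mem_shE' {A : Finset Ed} : e ∈ A.image (shE a) ↔ shE (-a) e ∈ A := by
  rw [← mem_shE (a := a) (e := shE (-a) e), shE_neg']

theorem eds_sh : shE a e ∈ eds (D.image (· + a)) ↔ e ∈ eds D := by
  rw [mem_eds, mem_eds]
  by_cases ha : Even (a.1 + a.2)
  · rw [hdv_sh ha, tlv_sh ha, mem_tr, mem_tr]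
  · rw [hdv_sh' ha, tlv_sh' ha, mem_tr, mem_tr]
    exact or_comm

theorem eds_tr : eds (D.image (· + a)) = (eds D).image (shE a) := by
  ext e
  rw [mem_shE', ← eds_sh (a := a) (e := shE (-a) e), shE_neg']

/-! ### Pieces -/

theorem eqv_sh (h : Relation.EqvGen (Nxt ω D) e e') :
    Relation.EqvGen (Nxt (shC a ω) (D.image (· + a))) (shE a e) (shE a e') := by
  induction h with
  | rel x y h =>
    obtain ⟨h1, rfl⟩ := h
    by_cases ha : Even (a.1 + a.2)
    · exact Relation.EqvGen.rel _ _ ⟨by rw [hdv_sh ha, mem_tr]; exact h1, (H135.nx_sh ha ω x).symm⟩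
    · exact Relation.EqvGen.symm _ _ (Relation.EqvGen.rel _ _
        ⟨by rw [hdv_sh' ha, mem_tr, tlv_nx]; exact h1, (H135.nx_sh' ha ω x).symm⟩)
  | refl x => exact Relation.EqvGen.refl _
  | symm x y _ ih => exact ih.symm
  | trans x y z _ _ ih1 ih2 => exact ih1.trans _ _ _ ih2

theorem eqv_sh_iff : Relation.EqvGen (Nxt (shC a ω) (D.image (· + a))) (shE a e) (shE a e') ↔
    Relation.EqvGen (Nxt ω D) e e' := by
  refine ⟨fun h => ?_, eqv_sh⟩
  have := eqv_sh (a := -a) h
  rwa [shC_neg, tr_neg, shE_neg, shE_neg] at this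

theorem piece_sh : piece (shC a ω) (D.image (· + a)) (shE a e) = (piece ω D e).image (shE a) := by
  ext e'
  rw [mem_shE', mem_piece, mem_piece, ← eds_sh (a := a) (e := shE (-a) e'),
    ← eqv_sh_iff (a := a) (e' := shE (-a) e'), shE_neg']

theorem pcs_sh : pcs (shC a ω) (D.image (· + a)) = (pcs ω D).image fun A => A.image (shE a) := by
  unfold pcs
  rw [eds_tr, image_image, image_image]
  exact image_congr fun e _ => piece_sh

theorem isLp_sh (hA : A ∈ pcs ω D) : IsLp (D.image (· + a)) (A.image (shE a)) ↔ IsLp D A := by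
  have key : IsLp (D.image (· + a)) (A.image (shE a)) ↔ ∀ e ∈ A, hdv (shE a e) ∈ D.image (· + a) := by
    unfold IsLp
    rw [forall_mem_image]
  rw [key]
  by_cases ha : Even (a.1 + a.2)
  · simp only [hdv_sh ha, mem_tr]
    rfl
  · simp only [hdv_sh' ha, mem_tr]
    constructor
    · intro h
      by_contra hcon
      obtain ⟨e, he, he'⟩ := exists_entry hA hcon
      exact he' (h e he)
    · exact fun h e he => h.tl hA he

theorem potD_sh {u : ℤ × ℤ → ℤ} (hu : PotD D A u) : PotD (D.image (· + a)) (A.image (shE a))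
    fun z => if Even (a.1 + a.2) then u (z - a) else - u (z - a) := by
  intro e he
  have he' : shE (-a) e ∈ eds D := by rw [← eds_sh (a := a), shE_neg']; exact he
  have h1 := hu _ he'
  have hee := shE_neg' a e
  have h2 : (if e ∈ A.image (shE a) then (1 : ℤ) else 0) = if shE (-a) e ∈ A then 1 else 0 := by
    by_cases h : shE (-a) e ∈ A
    · rw [if_pos h, if_pos (mem_shE'.2 h)]
    · rw [if_neg h, if_neg fun h' => h (mem_shE'.1 h')]
  rw [h2]
  by_cases ha : Even (a.1 + a.2)
  · obtain ⟨g1, g2⟩ := ls_sh ha (shE (-a) e)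
    rw [hee] at g1 g2
    simp only [ha, if_true]
    rw [g1, g2, add_sub_cancel_right, add_sub_cancel_right]
    exact h1
  · obtain ⟨g1, g2⟩ := ls_sh' ha (shE (-a) e)
    rw [hee] at g1 g2
    simp only [ha, if_false]
    rw [g1, g2, add_sub_cancel_right, add_sub_cancel_right, h1]
    ring

theorem sep_sh_aux {z z' : ℤ × ℤ} (h : Sep D A z z') :
    Sep (D.image (· + a)) (A.image (shE a)) (z + a) (z' + a) := by
  obtain ⟨u, hu, hne⟩ := h
  refine ⟨_, potD_sh hu, ?_⟩
  simp only [add_sub_cancel_right]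
  split_ifs
  · exact hne
  · simpa using hne

theorem shE_image_neg (A : Finset Ed) (a : ℤ × ℤ) : (A.image (shE a)).image (shE (-a)) = A := by
  ext e
  rw [mem_shE', mem_shE', neg_neg, shE_neg]

theorem sep_sh {z z' : ℤ × ℤ} :
    Sep (D.image (· + a)) (A.image (shE a)) (z + a) (z' + a) ↔ Sep D A z z' := by
  refine ⟨fun h => ?_, sep_sh_aux⟩
  have := sep_sh_aux (a := -a) h
  rwa [tr_neg, shE_image_neg, add_neg_cancel_right, add_neg_cancel_right] at this

theorem sites_tr : sites (D.image (· + a)) = (sites D).image (· + a) := by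
  ext z
  rw [mem_tr', mem_sites, mem_sites]
  constructor
  · rintro ⟨v, hv, h1, h2⟩
    rw [mem_tr'] at hv
    refine ⟨v - a, hv, ?_, ?_⟩ <;> (simp only [Prod.fst_sub, Prod.snd_sub]; omega)
  · rintro ⟨v, hv, h1, h2⟩
    refine ⟨v + a, mem_tr.2 hv, ?_, ?_⟩ <;>
      simp only [Prod.fst_sub, Prod.snd_sub, Prod.fst_add, Prod.snd_add] at * <;> omega

theorem mass_sh (p : ℤ × ℤ) (f : ℤ × ℤ → ℝ) :
    mass (D.image (· + a)) (p + a) (fun z => f (z - a)) (A.image (shE a)) = mass D p f A := by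
  classical
  unfold mass
  rw [sites_tr, sum_image fun x _ y _ h => add_right_cancel h]
  refine sum_congr rfl fun z _ => ?_
  have h := sep_sh (D := D) (A := A) (a := a) (z := z) (z' := p)
  by_cases hz : Sep D A z p
  · rw [if_pos (h.2 hz), if_pos hz]
    simp only [add_sub_cancel_right]
  · rw [if_neg fun h' => hz (h.1 h'), if_neg hz]

theorem vz_sh : Vz (Z.image (· + a)) (A.image (shE a)) ↔ Vz Z A := by
  unfold Vz
  constructor
  · rintro ⟨e, he, h⟩
    refine ⟨shE (-a) e, mem_shE'.1 he, ?_⟩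
    rw [← eds_sh (a := a), shE_neg']
    exact h
  · rintro ⟨e, he, h⟩
    exact ⟨shE a e, mem_shE.2 he, eds_sh.2 h⟩

theorem XZ_sh (p : ℤ × ℤ) (f : ℤ × ℤ → ℝ) :
    XZ (D.image (· + a)) (p + a) (fun z => f (z - a)) (Z.image (· + a)) (shC a ω) = XZ D p f Z ω := by
  classical
  unfold XZ
  have hinj : Set.InjOn (fun A : Finset Ed => A.image (shE a)) ↑((pcs ω D).filter (Vz Z)) :=
    fun x _ y _ h => image_injective (shE_inj a) h
  have e1 : (pcs (shC a ω) (D.image (· + a))).filter (Vz (Z.image (· + a))) =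
      ((pcs ω D).filter (Vz Z)).image fun A => A.image (shE a) := by
    rw [pcs_sh, filter_image]
    congr 1
    ext A
    rw [mem_filter, mem_filter, vz_sh]
  rw [e1, prod_image hinj]
  refine prod_congr rfl fun A hA => ?_
  rw [mem_filter] at hA
  rw [mass_sh]
  unfold wp
  have h := isLp_sh (a := a) hA.1
  by_cases hl : IsLp D A
  · rw [if_pos (h.2 hl), if_pos hl]
  · rw [if_neg fun h' => hl (h.1 h'), if_neg hl]

theorem XD_sh (p : ℤ × ℤ) (f : ℤ × ℤ → ℝ) :
    XD (D.image (· + a)) (p + a) (fun z => f (z - a)) (shC a ω) = XD D p f ω := by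
  classical
  unfold XD
  have hinj : Set.InjOn (fun A : Finset Ed => A.image (shE a)) ↑(pcs ω D) :=
    fun x _ y _ h => image_injective (shE_inj a) h
  rw [pcs_sh, prod_image hinj]
  refine prod_congr rfl fun A hA => ?_
  rw [mass_sh]
  unfold wp
  have h := isLp_sh (a := a) hA
  by_cases hl : IsLp D A
  · rw [if_pos (h.2 hl), if_pos hl]
  · rw [if_neg fun h' => hl (h.1 h'), if_neg hl]

/-! ### The local functional -/

theorem hbox_tr (b : ℤ × ℤ) (R : ℤ) (a : ℤ × ℤ) : hbox (b + a) R = (hbox b R).image (· + a) := by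
  ext z
  rw [mem_tr']
  simp only [hbox, mem_product, mem_Icc, Prod.fst_add, Prod.snd_add, Prod.fst_sub, Prod.snd_sub]
  constructor <;> rintro ⟨⟨h1, h2⟩, h3, h4⟩ <;> refine ⟨⟨?_, ?_⟩, ?_, ?_⟩ <;> omega

theorem top_tr (b : ℤ × ℤ) (R : ℤ) (a : ℤ × ℤ) : top (b + a) R = top b R + a := by
  simp only [top, Prod.fst_add, Prod.snd_add]
  ext <;> simp <;> ring

theorem iso_sh (b : ℤ × ℤ) (r R : ℤ) : Iso (b + a) r R (shC a ω) ↔ Iso b r R ω := by
  unfold Iso
  rw [hbox_tr, hbox_tr, pcs_sh, forall_mem_image]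
  refine forall₂_congr fun A hA => ?_
  rw [vz_sh, forall_mem_image]
  refine forall_congr' fun _ => forall₂_congr fun e he => ?_
  by_cases ha : Even (a.1 + a.2)
  · rw [hdv_sh ha, tlv_sh ha, mem_tr, mem_tr]
    simp only [Prod.snd_add, add_lt_add_iff_right]
  · rw [hdv_sh' ha, tlv_sh' ha, mem_tr, mem_tr]
    simp only [Prod.snd_add, add_lt_add_iff_right]
    exact and_comm

theorem XB_sh (b : ℤ × ℤ) (r R : ℤ) (f : ℤ × ℤ → ℝ) :
    XB (b + a) r R (fun z => f (z - a)) (shC a ω) = XB b r R f ω := by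
  classical
  unfold XB
  have h := iso_sh (ω := ω) (a := a) b r R
  by_cases hi : Iso b r R ω
  · rw [if_pos (h.2 hi), if_pos hi, hbox_tr, hbox_tr, top_tr, XZ_sh]
  · rw [if_neg fun h' => hi (h.1 h'), if_neg hi]

/-! ### Connections -/

theorem pstep_sh {F F' : Set (ℤ × ℤ)} (hF : ∀ z, z + a ∈ F' ↔ z ∈ F) {u v : ℤ × ℤ} :
    PStep F' (u + a) (v + a) ↔ PStep F u v := by
  unfold PStep
  have e : (min (u + a).1 (v + a).1, min (u + a).2 (v + a).2) =
      (min u.1 v.1, min u.2 v.2) + a := by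
    ext
    · simp only [Prod.fst_add]; rw [min_add_add_right]
    · simp only [Prod.snd_add]; rw [min_add_add_right]
  rw [e, hF]
  simp only [Prod.fst_add, Prod.snd_add]
  constructor <;> rintro ⟨h1, h2, h3⟩ <;> refine ⟨?_, ?_, h3⟩ <;> omega

theorem steps_sh {F F' : Set (ℤ × ℤ)} (hF : ∀ z, z + a ∈ F' ↔ z ∈ F) {u v : ℤ × ℤ}
    (h : Relation.ReflTransGen (PStep F) u v) :
    Relation.ReflTransGen (PStep F') (u + a) (v + a) := by
  induction h with
  | refl => exact Relation.ReflTransGen.refl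
  | tail _ h ih => exact ih.tail ((pstep_sh hF).2 h)

theorem cs_sh {c : Bool} {z : ℤ × ℤ} :
    z + a ∈ cs (if Even (a.1 + a.2) then c else !c) (shC a ω) ∩
      (↑(D.image (· + a)) : Set (ℤ × ℤ)) ↔ z ∈ cs c ω ∩ (↑D : Set (ℤ × ℤ)) := by
  rw [Set.mem_inter_iff, Set.mem_inter_iff, mem_coe, mem_coe, mem_tr]
  refine and_congr_left fun _ => ?_
  by_cases ha : Even (a.1 + a.2)
  · simp only [cs, Set.mem_ofPred_eq, ha, if_true, shC_ev ha]
  · simp only [cs, Set.mem_ofPred_eq, ha, if_false, shC_od ha]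
    cases c <;> cases ω z <;> simp

theorem jn_sh_aux {c : Bool} {U T : Set (ℤ × ℤ)} (h : Jn c D ω U T) :
    Jn (if Even (a.1 + a.2) then c else !c) (D.image (· + a)) (shC a ω) ((· + a) '' U)
      ((· + a) '' T) := by
  obtain ⟨u, hu, t, ht, h1, h2⟩ := h
  refine ⟨u + a, ⟨u, hu, rfl⟩, t + a, ⟨t, ht, rfl⟩, ?_, steps_sh (fun z => cs_sh) h2⟩
  by_cases ha : Even (a.1 + a.2)
  · simp only [ha, if_true, Prod.fst_add, Prod.snd_add]
    rw [Int.even_iff] at ha
    omega
  · simp only [ha, if_false, Prod.fst_add, Prod.snd_add, pr_not]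
    rw [Int.not_even_iff] at ha
    rcases pr_or c with h | h <;> rw [h] at h1 ⊢ <;> omega

theorem jn_sh {c : Bool} {U T : Set (ℤ × ℤ)} :
    Jn (if Even (a.1 + a.2) then c else !c) (D.image (· + a)) (shC a ω) ((· + a) '' U)
      ((· + a) '' T) ↔ Jn c D ω U T := by
  refine ⟨fun h => ?_, jn_sh_aux⟩
  have h' := jn_sh_aux (a := -a) h
  have e1 : ∀ U : Set (ℤ × ℤ), (· + -a) '' ((· + a) '' U) = U := by
    intro U
    rw [Set.image_image]
    simp
  rw [tr_neg, shC_neg, e1, e1] at h'
  have e2 : Even ((-a).1 + (-a).2) ↔ Even (a.1 + a.2) := by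
    simp only [Prod.fst_neg, Prod.snd_neg]
    rw [show -a.1 + -a.2 = -(a.1 + a.2) by ring, even_neg]
  by_cases ha : Even (a.1 + a.2)
  · simpa only [e2, ha, if_true] using h'
  · simpa only [e2, ha, if_false, Bool.not_not] using h'

/-! ### Integrals -/

/-- The translation as a measurable equivalence. -/
noncomputable def shM (a : ℤ × ℤ) : Cfg ≃ᵐ Cfg where
  toFun := shC a
  invFun := shC (-a)
  left_inv := shC_neg a
  right_inv ω := by
    have := shC_neg (-a) ω
    rwa [neg_neg] at this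
  measurable_toFun := (mp_shC a).measurable
  measurable_invFun := (mp_shC (-a)).measurable

theorem integral_sh (a : ℤ × ℤ) (g : Cfg → ℝ) : ∫ ω, g (shC a ω) ∂μ = ∫ ω, g ω ∂μ :=
  (show MeasurePreserving (shM a) μ μ from mp_shC a).integral_comp' (g := g)

/-- The functional `V` is invariant under all translations. -/
theorem VD_sh (D : Finset (ℤ × ℤ)) (p : ℤ × ℤ) (f : ℤ × ℤ → ℝ) (a : ℤ × ℤ) :
    VD (D.image (· + a)) (p + a) (fun z => f (z - a)) = VD D p f := by
  unfold VD
  rw [← integral_sh a]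
  simp only [XD_sh]

/-- The positive one-point functional is invariant under all translations. -/
theorem s_Zl : S_Zl := by
  intro b v r R f
  unfold Zl
  rw [← integral_sh v]
  have : (-fun z => f (z - v)) = fun z => (-f) (z - v) := rfl
  rw [this]
  simp only [XB_sh]

/-- Translation of the one-arm functional. -/
theorem OD_sh (c : Bool) (D : Finset (ℤ × ℤ)) (T : Set (ℤ × ℤ)) (b : ℤ × ℤ) (r R : ℤ)
    (f : ℤ × ℤ → ℝ) (a : ℤ × ℤ) :
    OD (if Even (a.1 + a.2) then c else !c) (D.image (· + a)) ((· + a) '' T) (b + a) r R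
      (fun z => f (z - a)) = OD c D T b r R f := by
  classical
  unfold OD
  rw [← integral_sh a]
  congr 1
  funext ω
  rw [XB_sh]
  congr 1
  have e : (↑(sites (hbox (b + a) r)) : Set (ℤ × ℤ)) = (· + a) '' ↑(sites (hbox b r)) := by
    rw [hbox_tr, sites_tr, coe_image]
  have h : Jn (if Even (a.1 + a.2) then c else !c) (D.image (· + a)) (shC a ω)
      (sites (hbox (b + a) r)) ((· + a) '' T) ↔ Jn c D ω (sites (hbox b r)) T := by
    rw [e]
    exact jn_sh
  by_cases hj : Jn c D ω (sites (hbox b r)) T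
  · rw [if_pos (h.2 hj), if_pos hj]
  · rw [if_neg fun h' => hj (h.1 h'), if_neg hj]

theorem s_shift : S_shift := by
  intro D T b r R f
  have h := OD_sh false D T b r R f (1, 0)
  have h1 : ¬ Even ((1 : ℤ) + 0) := by decide
  simp only [h1, if_false, Bool.not_false] at h
  exact h.symm

end Vale.Agent.P167.BR
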