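import Vale.Agent.P167.BR.Fin
import Vale.Agent.P167.BR.Sym
import Vale.Agent.P167.H562.MAJ4

/-!
# P167, BRIDGE: the lattice bridge
-/

namespace Vale.Agent.P167.BR

/-- **The lattice bridge.** -/
theorem s_br' : S_br := s_br H562.MAJ.s_maj

/-- Moments of the local functional. -/
theorem s_mom' : S_mom := s_mom H562.MAJ.s_maj

end Vale.Agent.P167.BR
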