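import Vale.Agent.P167.BR.Flat

/-!
# P167, BRIDGE: the moment input

`OutC D b R p`: the top of the half box of radius `R` of `b` is joined to `p` across medial edges of `D`
which are not inner edges of the half box. `Dom b r f Y`: the function `Y` of the configuration majorises,
for all domains at once, the product of the weights of the pieces which visit the half box of radius `r`
and stay in the half box of radius `2 r`, times `2` for every other piece which visits the half box of
radius `r`. `S_maj`: moments of the majorants, lower bound of the one-point functional.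
-/

namespace Vale.Agent.P167.BR

open Finset MeasureTheory Vale.Agent.P145.FB Vale.Agent.P167.H632
open Vale.Agent.P167.E6 (IsPolygon Encloses dir face)
open Vale.Agent.P167.E2 Relation

/-- Sites joined by a medial edge of `D` which is not an inner edge of the half box. -/
def Ecx (D : Finset (ℤ × ℤ)) (b : ℤ × ℤ) (R : ℤ) (s t : ℤ × ℤ) : Prop :=
  ∃ e ∈ eds D, ¬ (e ∈ eds (hbox b R) ∧ Inn b R e) ∧ ((ls e = s ∧ rs e = t) ∨ (ls e = t ∧ rs e = s))

/-- The top of the half box is joined to `p` outside of the half box. -/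
def OutC (D : Finset (ℤ × ℤ)) (b : ℤ × ℤ) (R : ℤ) (p : ℤ × ℤ) : Prop :=
  ReflTransGen (Ecx D b R) (top b R) p

/-- All edges of the piece are inner edges of the half box. -/
def InnP (b : ℤ × ℤ) (R : ℤ) (A : Finset Ed) : Prop := ∀ e ∈ A, e ∈ eds (hbox b R) ∧ Inn b R e

open Classical in
/-- The majorant of the pieces near `b`. -/
def Dom (b : ℤ × ℤ) (r : ℤ) (f : ℤ × ℤ → ℝ) (Y : Cfg → ℝ) : Prop :=
  ∀ (ω : Cfg) (D : Finset (ℤ × ℤ)) (p : ℤ × ℤ), Flt D b (2 * r) → OutC D b (2 * r) p →
    2 ^ ((pcs ω D).filter fun A => Vz (hbox b r) A ∧ ¬ InnP b (2 * r) A).card *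
      ∏ A ∈ (pcs ω D).filter (fun A => Vz (hbox b r) A ∧ InnP b (2 * r) A),
        |wp D A (mass D p f A)| ≤ Y ω

/-- **The moment input.** -/
def S_maj : Prop := ∀ K : ℝ, 0 < K → ∃ (N : ℤ → ℝ) (C c : ℝ) (r₀ : ℤ), 0 < r₀ ∧ 0 < c ∧
  (∀ r, 0 < N r) ∧ ∀ (b : ℤ × ℤ) (r : ℤ) (f : ℤ × ℤ → ℝ), r₀ ≤ r → Bmp K b r f →
    (∃ Y : Cfg → ℝ, (∀ ω, 0 ≤ Y ω) ∧ Integrable (fun ω => Y ω ^ 12) μ ∧
      ∫ ω, Y ω ^ 12 ∂μ ≤ (C / N r) ^ 12 ∧ Dom b r f Y) ∧
    (∃ Y : Cfg → ℝ, (∀ ω, 0 ≤ Y ω) ∧ Integrable (fun ω => Y ω ^ 12) μ ∧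
      ∫ ω, Y ω ^ 12 ∂μ ≤ (C * N r) ^ 12 ∧ Dom b r (-f) Y) ∧
    ∀ (D : Finset (ℤ × ℤ)) (p : ℤ × ℤ), Flt D b (2 * r) → OutC D b (2 * r) p →
      c * N r ≤ VD D p (-f)

variable {ω : Cfg} {D Z : Finset (ℤ × ℤ)} {e e' : Ed} {A : Finset Ed} {b p : ℤ × ℤ} {r R R' : ℤ}

/-- Potentials of inner pieces do not change outside of the half box. -/
theorem pot_ecx {u : ℤ × ℤ → ℤ} (hu : PotD D A u) (hI : InnP b R A) {s t : ℤ × ℤ}
    (h : ReflTransGen (Ecx D b R) s t) : u s = u t := by
  induction h with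
  | refl => rfl
  | tail _ h ih =>
    rw [ih]
    obtain ⟨e, he, h1, h2⟩ := h
    have h3 := hu.eq he (fun h' => h1 (hI e h'))
    rcases h2 with ⟨h2, h4⟩ | ⟨h2, h4⟩ <;> rw [h2, h4] at h3
    · exact h3
    · exact h3.symm

theorem Ecx.symm {s t : ℤ × ℤ} (h : Ecx D b R s t) : Ecx D b R t s := by
  obtain ⟨e, he, h1, h2⟩ := h
  exact ⟨e, he, h1, h2.symm⟩

theorem ecx_reach_symm {s t : ℤ × ℤ} (h : ReflTransGen (Ecx D b R) s t) :
    ReflTransGen (Ecx D b R) t s := by
  induction h with
  | refl => exact ReflTransGen.refl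
  | tail _ h ih => exact ReflTransGen.head h.symm ih

/-- A step across an edge one of whose squares is outside of the half box, above the line. -/
theorem ecx_of {s : ℤ × ℤ} {r : Fin 4} {v w : ℤ × ℤ}
    (h : (face s r = v ∧ face s (r - 1) = w) ∨ (face s r = w ∧ face s (r - 1) = v))
    (hv : v ∈ D) (hw : w ∉ hbox b R) (hw2 : b.2 ≤ w.2) : Ecx D b R s (s + dir r) := by
  refine ⟨ce s r, ?_, ?_, ?_⟩
  · rw [ce_mem_eds]
    rcases h with ⟨h5, h6⟩ | ⟨h5, h6⟩ <;> rw [h5, h6] <;> tauto
  · have h7 : hdv (ce s r) = w ∨ tlv (ce s r) = w := by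
      rcases ce_squares s r with ⟨h8, h9⟩ | ⟨h8, h9⟩ <;> rw [h8, h9] <;>
        rcases h with ⟨h5, h6⟩ | ⟨h5, h6⟩ <;> rw [h5, h6] <;> tauto
    rintro ⟨-, h8, h9⟩
    rcases h7 with h7 | h7
    · rw [h7] at h8
      rcases h8 with h8 | h8
      · exact hw h8
      · omega
    · rw [h7] at h9
      rcases h9 with h9 | h9
      · exact hw h9
      · omega
  · rcases ce_sides s r with ⟨h1, h2⟩ | ⟨h1, h2⟩
    · exact Or.inl ⟨h1, h2⟩
    · exact Or.inr ⟨h2, h1⟩

/-- The larger half box. -/
theorem outC_hbox (hR : 1 ≤ R) (hRR : R < R') : OutC (hbox b R') b R (top b R') := by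
  have key : ∀ m : ℕ, (m : ℤ) ≤ R' - R →
      ReflTransGen (Ecx (hbox b R') b R) (top b R) (b.1, b.2 + R + m) := by
    intro m
    induction m with
    | zero => intro _; simp only [top, Nat.cast_zero, add_zero]; exact ReflTransGen.refl
    | succ m ih =>
      intro hm
      push_cast at hm
      have h1 := ecx_of (D := hbox b R') (b := b) (R := R) (s := (b.1, b.2 + R + m)) (r := 1)
        (v := (b.1 - 1, b.2 + R + m)) (w := (b.1, b.2 + R + m))
        (Or.inl ⟨by rw [face1], by rw [f4_1m, face0]⟩)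
        (by rw [mem_hbox]; simp only; omega) (by rw [mem_hbox]; simp only; omega)
        (by simp only; omega)
      rw [dir1] at h1
      refine (ih (by omega)).tail ?_
      convert h1 using 1
      ext <;> simp <;> ring
  have h := key (R' - R).toNat (by omega)
  have h2 : ((b.1, b.2 + R + ((R' - R).toNat : ℤ)) : ℤ × ℤ) = top b R' := by
    ext
    · rfl
    · simp only [top]
      omega
  rw [h2] at h
  exact h

section

variable {n : ℕ} {q : ZMod n → ℤ × ℤ} {l : ℕ}

/-- Polygon domains. -/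
theorem outC_poly (hq : IsPolygon q) (hD : Encloses q D) (hF : Flt D (q l) R) (hR : 1 ≤ R)
    (hl : l < n) (h0 : q 0 ∉ sites (hbox (q l) R)) : OutC D (q l) R (q 0) := by
  obtain ⟨hr1, hr2⟩ := flat_range hq hD hF hR hl h0
  -- along the top side
  have htop : ∀ m : ℕ, (m : ℤ) ≤ R →
      ReflTransGen (Ecx D (q l) R) (top (q l) R) ((q l).1 + m, (q l).2 + R) := by
    intro m
    induction m with
    | zero => intro _; simp only [top, Nat.cast_zero, add_zero]; exact ReflTransGen.refl
    | succ m ih =>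
      intro hm
      push_cast at hm
      have h1 := ecx_of (D := D) (b := q l) (R := R) (s := ((q l).1 + m, (q l).2 + R)) (r := 0)
        (v := ((q l).1 + m, (q l).2 + R - 1)) (w := ((q l).1 + m, (q l).2 + R))
        (Or.inr ⟨by rw [face0], by rw [f4_0m, face3]⟩)
        (hbox_sub hF (by rw [mem_hbox]; simp only; omega)) (by rw [mem_hbox]; simp only; omega)
        (by simp only; omega)
      rw [dir0] at h1
      refine (ih (by omega)).tail ?_
      convert h1 using 1
      ext <;> simp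
      ring
  -- along the right side
  have hright : ∀ m : ℕ, (m : ℤ) ≤ R →
      ReflTransGen (Ecx D (q l) R) ((q l).1 + R, (q l).2) ((q l).1 + R, (q l).2 + m) := by
    intro m
    induction m with
    | zero => intro _; simp only [Nat.cast_zero, add_zero]; exact ReflTransGen.refl
    | succ m ih =>
      intro hm
      push_cast at hm
      have h1 := ecx_of (D := D) (b := q l) (R := R) (s := ((q l).1 + R, (q l).2 + m)) (r := 1)
        (v := ((q l).1 + R - 1, (q l).2 + m)) (w := ((q l).1 + R, (q l).2 + m))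
        (Or.inl ⟨by rw [face1], by rw [f4_1m, face0]⟩)
        (hbox_sub hF (by rw [mem_hbox]; simp only; omega)) (by rw [mem_hbox]; simp only; omega)
        (by simp only; omega)
      rw [dir1] at h1
      refine (ih (by omega)).tail ?_
      convert h1 using 1
      ext <;> simp <;> ring
  -- along the polygon
  have hbd : ∀ m : ℕ, l + R.toNat + m ≤ n → ReflTransGen (Ecx D (q l) R)
      (q ((l + R.toNat : ℕ) : ZMod n)) (q ((l + R.toNat + m : ℕ) : ZMod n)) := by
    intro m
    induction m with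
    | zero => intro _; exact ReflTransGen.refl
    | succ m ih =>
      intro hm
      refine (ih (by omega)).tail ⟨be q ((l + R.toNat + m : ℕ) : ZMod n), be_mem hq hD _, ?_, ?_⟩
      · rintro ⟨h1, h2⟩
        have := bd_inn hq hD hF hR hl h0 (show l + R.toNat + m < n by omega) h1 h2
        push_cast at this
        omega
      · have := be_sides hq ((l + R.toNat + m : ℕ) : ZMod n)
        have h3 : ((l + R.toNat + m : ℕ) : ZMod n) + 1 = ((l + R.toNat + (m + 1) : ℕ) : ZMod n) := by
          push_cast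
          ring
        rw [h3] at this
        rcases this with ⟨h1, h2⟩ | ⟨h1, h2⟩
        · exact Or.inl ⟨h1, h2⟩
        · exact Or.inr ⟨h2, h1⟩
  have h1 := htop R.toNat (by omega)
  have h2 := ecx_reach_symm (hright R.toNat (by omega))
  have h3 : ((R.toNat : ℕ) : ℤ) = R := by omega
  rw [h3] at h1 h2
  have h4 := (walk hq hD hF R.toNat (by omega)).1
  have h5 := hbd (n - (l + R.toNat)) (by omega)
  rw [show l + R.toNat + (n - (l + R.toNat)) = n by omega, ZMod.natCast_self] at h5
  push_cast at h5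
  rw [h4, h3] at h5
  have h6 : q l + (R, 0) = ((q l).1 + R, (q l).2) := by
    ext <;> simp
  rw [h6] at h5
  exact (h1.trans h2).trans h5

end

end Vale.Agent.P167.BR
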