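import Vale.Agent.P167.BR.Basic

/-!
# P167, SLE_6: potentials of flows in the plane

A function `J` on the medial edges without divergence at the squares has a potential: a function on the
sites with the jump `J e` from the right to the left of `e`.
-/

namespace Vale.Agent.P167.BR

open Finset

/-- The divergence of `J` at the square `v`: outgoing minus incoming edges. -/
def dv (J : Ed → ℤ) (v : ℤ × ℤ) : ℤ :=
  sg (Sum.inl v) * J (Sum.inl v) + sg (Sum.inr v) * J (Sum.inr v) -
    sg (Sum.inr (v.1, v.2 - 1)) * J (Sum.inr (v.1, v.2 - 1)) -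
    sg (Sum.inl (v.1 - 1, v.2)) * J (Sum.inl (v.1 - 1, v.2))

theorem prim_exists (H : ℤ → ℤ) : ∃ S : ℤ → ℤ, S 0 = 0 ∧ ∀ n, S (n + 1) - S n = H n := by
  refine ⟨fun n => ∑ i ∈ range n.toNat, H i - ∑ i ∈ range (-n).toNat, H (-(i : ℤ) - 1), by simp,
    fun n => ?_⟩
  obtain ⟨k, rfl | rfl⟩ := n.eq_nat_or_neg
  · have h1 : ((k : ℤ) + 1).toNat = k + 1 := by omega
    have h2 : (-((k : ℤ) + 1)).toNat = 0 := by omega
    have h3 : ((k : ℤ)).toNat = k := by omega
    have h4 : (-(k : ℤ)).toNat = 0 := by omega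
    simp only [h1, h2, h3, h4, Finset.sum_range_succ, Finset.range_zero, Finset.sum_empty]
    ring
  · rcases k with _ | k
    · simp
    · have h1 : (-((k + 1 : ℕ) : ℤ) + 1).toNat = 0 := by omega
      have h2 : (-(-((k + 1 : ℕ) : ℤ) + 1)).toNat = k := by omega
      have h3 : (-((k + 1 : ℕ) : ℤ)).toNat = 0 := by omega
      have h4 : (- -((k + 1 : ℕ) : ℤ)).toNat = k + 1 := by omega
      simp only [h1, h2, h3, h4, Finset.sum_range_succ, Finset.range_zero, Finset.sum_empty]
      have h5 : -(k : ℤ) - 1 = -((k + 1 : ℕ) : ℤ) := by push_cast; ring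
      rw [h5]
      ring

theorem step_const {D : ℤ → ℤ} (h : ∀ n, D (n + 1) = D n) (n : ℤ) : D n = D 0 := by
  induction n using Int.induction_on with
  | zero => rfl
  | succ n ih => rw [h, ih]
  | pred n ih => rw [← ih, ← h (-(n : ℤ) - 1), sub_add_cancel]

/-- **A flow in the plane has a potential.** -/
theorem exists_plane {J : Ed → ℤ} (hJ : ∀ v, dv J v = 0) :
    ∃ w : ℤ × ℤ → ℤ, ∀ e, w (ls e) = w (rs e) + J e := by
  have hJ' : ∀ x y : ℤ, sg (Sum.inl (x, y)) * J (Sum.inl (x, y)) +
      sg (Sum.inr (x, y)) * J (Sum.inr (x, y)) = sg (Sum.inr (x, y - 1)) * J (Sum.inr (x, y - 1)) +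
      sg (Sum.inl (x - 1, y)) * J (Sum.inl (x - 1, y)) := by
    intro x y
    have := hJ (x, y)
    simp only [dv] at this
    linarith
  obtain ⟨A, hA0, hA⟩ := prim_exists fun x => -(sg (Sum.inr (x, -1)) * J (Sum.inr (x, -1)))
  choose V hV0 hV using fun x : ℤ => prim_exists fun y => sg (Sum.inl (x - 1, y)) *
    J (Sum.inl (x - 1, y))
  have hor : ∀ x y, A (x + 1) + V (x + 1) y - (A x + V x y) +
      sg (Sum.inr (x, y - 1)) * J (Sum.inr (x, y - 1)) = 0 := by
    intro x y
    have hD : ∀ n : ℤ, (A (x + 1) + V (x + 1) (n + 1) - (A x + V x (n + 1)) +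
        sg (Sum.inr (x, n + 1 - 1)) * J (Sum.inr (x, n + 1 - 1))) =
        (A (x + 1) + V (x + 1) n - (A x + V x n) +
        sg (Sum.inr (x, n - 1)) * J (Sum.inr (x, n - 1))) := by
      intro n
      have h1 := hV x n
      have h2 := hV (x + 1) n
      have h3 := hJ' x n
      simp only [add_sub_cancel_right] at h1 h2 ⊢
      linarith
    have h1 := step_const (D := fun y => A (x + 1) + V (x + 1) y - (A x + V x y) +
      sg (Sum.inr (x, y - 1)) * J (Sum.inr (x, y - 1))) hD y
    rw [h1, hV0, hV0]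
    have h2 := hA x
    simp only [zero_sub] at h2 ⊢
    linarith
  have k1 : ∀ x y, A (x + 1) + V (x + 1) (y + 1) - (A (x + 1) + V (x + 1) y) =
      sg (Sum.inl (x, y)) * J (Sum.inl (x, y)) := by
    intro x y
    have h1 := hV (x + 1) y
    simp only [add_sub_cancel_right] at h1 ⊢
    linarith
  have k2 : ∀ x y, A x + V x (y + 1) - (A (x + 1) + V (x + 1) (y + 1)) =
      sg (Sum.inr (x, y)) * J (Sum.inr (x, y)) := by
    intro x y
    have h1 := hor x (y + 1)
    simp only [add_sub_cancel_right] at h1 ⊢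
    linarith
  refine ⟨fun s => A s.1 + V s.1 s.2, ?_⟩
  rintro (⟨x, y⟩ | ⟨x, y⟩)
  · have h3 := k1 x y
    simp only [ls, rs]
    by_cases he : Even (x + y)
    · simp only [he, if_true, sg] at h3 ⊢
      linarith
    · simp only [he, if_false, sg] at h3 ⊢
      linarith
  · have h3 := k2 x y
    simp only [ls, rs]
    by_cases he : Even (x + y)
    · simp only [he, if_true, sg] at h3 ⊢
      linarith
    · simp only [he, if_false, sg] at h3 ⊢
      linarith

theorem dv_add (J J' : Ed → ℤ) (v : ℤ × ℤ) : dv (fun e => J e + J' e) v = dv J v + dv J' v := by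
  simp only [dv]
  ring

theorem dv_sub (J J' : Ed → ℤ) (v : ℤ × ℤ) : dv (fun e => J e - J' e) v = dv J v - dv J' v := by
  simp only [dv]
  ring

theorem dv_zero (v : ℤ × ℤ) : dv (fun _ => 0) v = 0 := by
  simp [dv]

/-- The divergence of the flow along one edge. -/
theorem dv_single (e : Ed) (c : ℤ) (v : ℤ × ℤ) : dv (fun e' => if e' = e then c else 0) v =
    (if tlv e = v then c else 0) - (if hdv e = v then c else 0) := by
  obtain ⟨a, b⟩ := v
  rcases e with ⟨x, y⟩ | ⟨x, y⟩
  · simp only [dv, sg, Sum.inl.injEq, Prod.mk.injEq, reduceCtorEq, if_false, mul_zero, add_zero,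
      sub_zero, ev3]
    rcases eq_or_ne b y with rfl | hb
    · rcases eq_or_ne a x with rfl | ha
      · by_cases hp : Even (a + b) <;> simp [tlv, hdv, hp]
      · rcases eq_or_ne a (x + 1) with rfl | ha'
        · by_cases hp : Even (x + b) <;> simp [tlv, hdv, hp, ev1]
        · have h1 : a - 1 ≠ x := by omega
          have h2 : x ≠ a := fun h => ha h.symm
          have h3 : x + 1 ≠ a := fun h => ha' h.symm
          by_cases hp : Even (x + b) <;> simp [tlv, hdv, hp, ha, h1, h2, h3]
    · have hb' : y ≠ b := fun h => hb h.symm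
      by_cases hp : Even (x + y) <;> simp [tlv, hdv, hp, hb, hb']
  · simp only [dv, sg, Sum.inr.injEq, Prod.mk.injEq, reduceCtorEq, if_false, mul_zero, zero_add,
      sub_zero, ev4]
    rcases eq_or_ne a x with rfl | ha
    · rcases eq_or_ne b y with rfl | hb
      · by_cases hp : Even (a + b) <;> simp [tlv, hdv, hp]
      · rcases eq_or_ne b (y + 1) with rfl | hb'
        · by_cases hp : Even (a + y) <;> simp [tlv, hdv, hp, ev2]
        · have h1 : b - 1 ≠ y := by omega
          have h2 : y ≠ b := fun h => hb h.symm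
          have h3 : y + 1 ≠ b := fun h => hb' h.symm
          by_cases hp : Even (a + y) <;> simp [tlv, hdv, hp, hb, h1, h2, h3]
    · have ha' : x ≠ a := fun h => ha h.symm
      by_cases hp : Even (x + y) <;> simp [tlv, hdv, hp, ha, ha']

end Vale.Agent.P167.BR
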