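import Vale.Agent.P167.H531.Poly
import Vale.Agent.P167.BR.Pot

/-!
# P167, SLE_6: domains of squares enclosed by a lattice polygon

`q` is a simple closed lattice polygon of the medial grid (the faces are the squares). `be q i` is the
medial edge which crosses the side from `q i` to `q (i + 1)`. These are exactly the edges which enter or
leave the domain; the squares outside are connected; the pieces have potentials.
-/

set_option linter.unusedSimpArgs false

namespace Vale.Agent.P167.BR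

open Finset Vale.Agent.P145.FB
open Vale.Agent.P167.E6 (IsPolygon Encloses dir face)
open Vale.Agent.P167.E2

/-- The medial edge which crosses the lattice edge from `v` to `v + dir r`. -/
def ce (v : ℤ × ℤ) (r : Fin 4) : Ed :=
  ![Sum.inr (v.1, v.2 - 1), Sum.inl (v.1 - 1, v.2), Sum.inr (v.1 - 1, v.2 - 1),
    Sum.inl (v.1 - 1, v.2 - 1)] r

theorem ce0 (v : ℤ × ℤ) : ce v 0 = Sum.inr (v.1, v.2 - 1) := rfl
theorem ce1 (v : ℤ × ℤ) : ce v 1 = Sum.inl (v.1 - 1, v.2) := rfl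
theorem ce2 (v : ℤ × ℤ) : ce v 2 = Sum.inr (v.1 - 1, v.2 - 1) := rfl
theorem ce3 (v : ℤ × ℤ) : ce v 3 = Sum.inl (v.1 - 1, v.2 - 1) := rfl

theorem ev5 {x y : ℤ} : Even (x - 1 + (y - 1)) ↔ Even (x + y) := by
  rw [Int.even_iff, Int.even_iff]; omega

/-- The primal case. -/
theorem ce_even {v : ℤ × ℤ} (hv : Even (v.1 + v.2)) (r : Fin 4) : ls (ce v r) = v ∧
    rs (ce v r) = v + dir r ∧ hdv (ce v r) = face v r ∧ tlv (ce v r) = face v (r - 1) := by
  obtain ⟨x, y⟩ := v
  simp only at hv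
  revert r
  refine forall4 ?_ ?_ ?_ ?_
  · rw [ce0, f4_0m, dir0, face0, face3]
    simp [ls, rs, hdv, tlv, ev4, hv]
  · rw [ce1, f4_1m, dir1, face1, face0]
    simp [ls, rs, hdv, tlv, ev3, hv]
  · have hv' := hv
    rw [← ev5] at hv'
    rw [ce2, f4_2m, dir2, face2, face1]
    simp only [ls, rs, hdv, tlv, hv', if_true, if_false]
    refine ⟨?_, ?_, ?_, ?_⟩ <;> simp [sub_eq_add_neg]
  · have hv' := hv
    rw [← ev5] at hv'
    rw [ce3, f4_3m, dir3, face3, face2]
    simp only [ls, rs, hdv, tlv, hv', if_true, if_false]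
    refine ⟨?_, ?_, ?_, ?_⟩ <;> simp [sub_eq_add_neg]

/-- The dual case. -/
theorem ce_odd {v : ℤ × ℤ} (hv : ¬ Even (v.1 + v.2)) (r : Fin 4) : rs (ce v r) = v ∧
    ls (ce v r) = v + dir r ∧ tlv (ce v r) = face v r ∧ hdv (ce v r) = face v (r - 1) := by
  obtain ⟨x, y⟩ := v
  simp only at hv
  revert r
  refine forall4 ?_ ?_ ?_ ?_
  · rw [ce0, f4_0m, dir0, face0, face3]
    simp [ls, rs, hdv, tlv, ev4, hv]
  · rw [ce1, f4_1m, dir1, face1, face0]
    simp [ls, rs, hdv, tlv, ev3, hv]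
  · have hv' := hv
    rw [← ev5] at hv'
    rw [ce2, f4_2m, dir2, face2, face1]
    simp only [ls, rs, hdv, tlv, hv', if_true, if_false]
    refine ⟨?_, ?_, ?_, ?_⟩ <;> simp [sub_eq_add_neg]
  · have hv' := hv
    rw [← ev5] at hv'
    rw [ce3, f4_3m, dir3, face3, face2]
    simp only [ls, rs, hdv, tlv, hv', if_true, if_false]
    refine ⟨?_, ?_, ?_, ?_⟩ <;> simp [sub_eq_add_neg]

theorem even_ls (e : Ed) : Even ((ls e).1 + (ls e).2) := by
  rcases e with ⟨x, y⟩ | ⟨x, y⟩ <;> by_cases h : Even (x + y) <;>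
    simp only [ls, h, if_true, if_false] <;> rw [Int.even_iff] at * <;> omega

theorem odd_rs (e : Ed) : ¬ Even ((rs e).1 + (rs e).2) := by
  rcases e with ⟨x, y⟩ | ⟨x, y⟩ <;> by_cases h : Even (x + y) <;>
    simp only [rs, h, if_true, if_false] <;> rw [Int.even_iff] at * <;> omega

theorem exists_ce_ls (e : Ed) : ∃ r, e = ce (ls e) r := by
  rcases e with ⟨x, y⟩ | ⟨x, y⟩ <;> by_cases h : Even (x + y) <;>
    simp only [ls, h, if_true, if_false]
  · exact ⟨3, by simp [ce3]⟩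
  · exact ⟨1, by simp [ce1]⟩
  · exact ⟨2, by simp [ce2]⟩
  · exact ⟨0, by simp [ce0]⟩

theorem exists_ce_rs (e : Ed) : ∃ r, e = ce (rs e) r := by
  rcases e with ⟨x, y⟩ | ⟨x, y⟩ <;> by_cases h : Even (x + y) <;>
    simp only [rs, h, if_true, if_false]
  · exact ⟨1, by simp [ce1]⟩
  · exact ⟨3, by simp [ce3]⟩
  · exact ⟨0, by simp [ce0]⟩
  · exact ⟨2, by simp [ce2]⟩

/-- The two sides of a crossing edge. -/
theorem ce_sides (v : ℤ × ℤ) (r : Fin 4) : (ls (ce v r) = v ∧ rs (ce v r) = v + dir r) ∨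
    (rs (ce v r) = v ∧ ls (ce v r) = v + dir r) := by
  by_cases hv : Even (v.1 + v.2)
  · exact Or.inl ⟨(ce_even hv r).1, (ce_even hv r).2.1⟩
  · exact Or.inr ⟨(ce_odd hv r).1, (ce_odd hv r).2.1⟩

/-- The two squares of a crossing edge. -/
theorem ce_squares (v : ℤ × ℤ) (r : Fin 4) :
    (hdv (ce v r) = face v r ∧ tlv (ce v r) = face v (r - 1)) ∨
    (tlv (ce v r) = face v r ∧ hdv (ce v r) = face v (r - 1)) := by
  by_cases hv : Even (v.1 + v.2)
  · exact Or.inl ⟨(ce_even hv r).2.2.1, (ce_even hv r).2.2.2⟩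
  · exact Or.inr ⟨(ce_odd hv r).2.2.1, (ce_odd hv r).2.2.2⟩

theorem ce_mem_eds {D : Finset (ℤ × ℤ)} {v : ℤ × ℤ} {r : Fin 4} :
    ce v r ∈ eds D ↔ face v r ∈ D ∨ face v (r - 1) ∈ D := by
  rw [mem_eds]
  rcases ce_squares v r with ⟨h1, h2⟩ | ⟨h1, h2⟩ <;> rw [h1, h2]
  exact or_comm

variable {n : ℕ} {q : ZMod n → ℤ × ℤ} {D : Finset (ℤ × ℤ)} {ω : Cfg} {A : Finset Ed}

/-- The medial edge across the side `i` of the polygon. -/
noncomputable def be (q : ZMod n → ℤ × ℤ) (i : ZMod n) : Ed := ce (q i) (ro q i)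

section

variable (hq : IsPolygon q) (hD : Encloses q D)
include hq

theorem be_sides (i : ZMod n) : (ls (be q i) = q i ∧ rs (be q i) = q (i + 1)) ∨
    (rs (be q i) = q i ∧ ls (be q i) = q (i + 1)) := by
  rw [ro_spec hq i]
  exact ce_sides _ _

include hD

theorem be_mem (i : ZMod n) : be q i ∈ eds D := ce_mem_eds.2 (Or.inl (enc_out hq hD).1)

/-- The edge `be q i` enters the domain if `q i` is primal. -/
theorem be_even {i : ZMod n} (h : Even ((q i).1 + (q i).2)) : ls (be q i) = q i ∧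
    rs (be q i) = q (i + 1) ∧ hdv (be q i) ∈ D ∧ tlv (be q i) ∉ D := by
  obtain ⟨h1, h2, h3, h4⟩ := ce_even h (ro q i)
  obtain ⟨h5, h6⟩ := enc_out hq hD (i := i)
  refine ⟨h1, ?_, ?_, ?_⟩
  · rw [ro_spec hq i]; exact h2
  · rw [be, h3]; exact h5
  · rw [be, h4]; exact h6

/-- The edge `be q i` leaves the domain if `q i` is dual. -/
theorem be_odd {i : ZMod n} (h : ¬ Even ((q i).1 + (q i).2)) : rs (be q i) = q i ∧
    ls (be q i) = q (i + 1) ∧ tlv (be q i) ∈ D ∧ hdv (be q i) ∉ D := by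
  obtain ⟨h1, h2, h3, h4⟩ := ce_odd h (ro q i)
  obtain ⟨h5, h6⟩ := enc_out hq hD (i := i)
  refine ⟨h1, ?_, ?_, ?_⟩
  · rw [ro_spec hq i]; exact h2
  · rw [be, h3]; exact h5
  · rw [be, h4]; exact h6

theorem be_bd (i : ZMod n) : (hdv (be q i) ∈ D ∧ tlv (be q i) ∉ D) ∨
    (tlv (be q i) ∈ D ∧ hdv (be q i) ∉ D) := by
  by_cases h : Even ((q i).1 + (q i).2)
  · exact Or.inl (be_even hq hD h).2.2
  · exact Or.inr (be_odd hq hD h).2.2

omit hD in
theorem be_inj {i j : ZMod n} (h : be q i = be q j) : q i = q j ∨ (q i = q (j + 1) ∧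
    q (i + 1) = q j) := by
  rcases be_sides hq i with ⟨h1, h2⟩ | ⟨h1, h2⟩ <;> rcases be_sides hq j with ⟨h3, h4⟩ | ⟨h3, h4⟩ <;>
    rw [h] at h1 h2
  · exact Or.inl (h1.symm.trans h3)
  · exact Or.inr ⟨h1.symm.trans h4, h2.symm.trans h3⟩
  · exact Or.inr ⟨h1.symm.trans h4, h2.symm.trans h3⟩
  · exact Or.inl (h1.symm.trans h3)

omit hD in
theorem be_injective : Function.Injective (be q) := by
  intro i j h
  rcases be_inj hq h with h1 | ⟨h1, h2⟩
  · exact hq.2.1 h1
  · exfalso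
    have h3 := hq.2.1 h1
    have h4 := hq.2.1 h2
    have h5 : ((2 : ℕ) : ZMod n) = 0 := by
      push_cast
      linear_combination h4 - h3
    rw [ZMod.natCast_eq_zero_iff] at h5
    have := Nat.le_of_dvd (by norm_num) h5
    have := hq.1
    omega

/-- Every edge which enters the domain is a `be q i` with `q i` primal. -/
theorem exists_be_tl {e : Ed} (h1 : hdv e ∈ D) (h2 : tlv e ∉ D) :
    ∃ i, e = be q i ∧ q i = ls e ∧ q (i + 1) = rs e := by
  obtain ⟨r, hr⟩ := exists_ce_ls e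
  obtain ⟨k1, k2, k3, k4⟩ := ce_even (even_ls e) r
  rw [← hr] at k1 k2 k3 k4
  rw [k3] at h1
  rw [k4] at h2
  obtain ⟨i, h3, h4⟩ := (hD _ _).2 ⟨h1, h2⟩
  have h5 : r = ro q i := ro_unique hq (by rw [h4, h3])
  refine ⟨i, ?_, h3, ?_⟩
  · rw [be, h3, ← h5]
    exact hr
  · rw [h4, k2]

/-- Every edge which leaves the domain is a `be q i` with `q i` dual. -/
theorem exists_be_hd {e : Ed} (h1 : tlv e ∈ D) (h2 : hdv e ∉ D) :
    ∃ i, e = be q i ∧ q i = rs e ∧ q (i + 1) = ls e := by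
  obtain ⟨r, hr⟩ := exists_ce_rs e
  obtain ⟨k1, k2, k3, k4⟩ := ce_odd (odd_rs e) r
  rw [← hr] at k1 k2 k3 k4
  rw [k3] at h1
  rw [k4] at h2
  obtain ⟨i, h3, h4⟩ := (hD _ _).2 ⟨h1, h2⟩
  have h5 : r = ro q i := ro_unique hq (by rw [h4, h3])
  refine ⟨i, ?_, h3, ?_⟩
  · rw [be, h3, ← h5]
    exact hr
  · rw [h4, k2]

theorem exists_be {e : Ed} (he : e ∈ eds D) (h : hdv e ∉ D ∨ tlv e ∉ D) : ∃ i, e = be q i := by
  rcases mem_eds.1 he with h1 | h1
  · obtain ⟨i, h2, -⟩ := exists_be_tl hq hD h1 (h.resolve_left (fun h' => h' h1))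
    exact ⟨i, h2⟩
  · obtain ⟨i, h2, -⟩ := exists_be_hd hq hD h1 (h.resolve_right (fun h' => h' h1))
    exact ⟨i, h2⟩

/-- The outer square of the side `i`. -/
theorem outer_eq (i : ZMod n) : (tlv (be q i) ∉ D → tlv (be q i) = H531.fo' q i) ∧
    (hdv (be q i) ∉ D → hdv (be q i) = H531.fo' q i) := by
  obtain ⟨h5, h6⟩ := enc_out hq hD (i := i)
  rcases ce_squares (q i) (ro q i) with ⟨h1, h2⟩ | ⟨h1, h2⟩
  · refine ⟨fun _ => h2, fun h => ?_⟩
    exact absurd (by rw [be, h1]; exact h5) h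
  · refine ⟨fun h => ?_, fun _ => h2⟩
    exact absurd (by rw [be, h1]; exact h5) h

/-- **The squares outside of a polygon are connected.** -/
theorem scon : SCon D := by
  classical
  have key : ∀ i j : ZMod n, Relation.ReflTransGen (Adj D) (H531.fo' q i) (H531.fo' q j) := by
    intro i j
    have h := H531.ext_const hq hD (h := fun f =>
      if Relation.ReflTransGen (Adj D) (H531.fo' q i) f then 1 else 0) ?_ j i
    · rw [if_pos Relation.ReflTransGen.refl] at h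
      by_contra hc
      rw [if_neg hc] at h
      exact zero_ne_one h
    · intro v r hvr
      have hadj : Adj D (face v r) (face v (r - 1)) := by
        refine ⟨ce v r, ?_, ?_⟩
        · rw [ce_mem_eds]
          rw [mem_edges] at hvr
          tauto
        · rcases ce_squares v r with ⟨h1, h2⟩ | ⟨h1, h2⟩
          · exact Or.inr ⟨h2, h1⟩
          · exact Or.inl ⟨h1, h2⟩
      by_cases h1 : Relation.ReflTransGen (Adj D) (H531.fo' q i) (face v r)
      · rw [if_pos h1, if_pos (h1.tail hadj)]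
      · rw [if_neg h1, if_neg (fun h2 => h1 (h2.tail hadj.symm))]
  intro e he e' he' h1 h2
  have h3 : hdv e ∈ D := (mem_eds.1 he).resolve_right h1
  have h4 : tlv e' ∈ D := (mem_eds.1 he').resolve_left h2
  obtain ⟨i, rfl, -⟩ := exists_be_tl hq hD h3 h1
  obtain ⟨j, rfl, -⟩ := exists_be_hd hq hD h4 h2
  rw [(outer_eq hq hD i).1 h1, (outer_eq hq hD j).2 h2]
  exact key i j

theorem exists_pot (hA : A ∈ pcs ω D) : ∃ u, PotD D A u := exists_potD (scon hq hD) hA

/-- The change of the potential along a side. -/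
theorem pot_side {u : ℤ × ℤ → ℤ} (hu : PotD D A u) {i : ZMod n} (h : be q i ∉ A) :
    u (q (i + 1)) = u (q i) := by
  have h1 := hu.eq (be_mem hq hD i) h
  rcases be_sides hq i with ⟨h2, h3⟩ | ⟨h2, h3⟩ <;> rw [h2, h3] at h1
  · exact h1.symm
  · exact h1

theorem pot_even {u : ℤ × ℤ → ℤ} (hu : PotD D A u) {i : ZMod n} (h : be q i ∈ A)
    (hi : Even ((q i).1 + (q i).2)) : u (q i) = u (q (i + 1)) + 1 := by
  have h1 := hu.eq_add (be_mem hq hD i) h
  obtain ⟨h2, h3, -⟩ := be_even hq hD hi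
  rwa [h2, h3] at h1

theorem pot_odd {u : ℤ × ℤ → ℤ} (hu : PotD D A u) {i : ZMod n} (h : be q i ∈ A)
    (hi : ¬ Even ((q i).1 + (q i).2)) : u (q (i + 1)) = u (q i) + 1 := by
  have h1 := hu.eq_add (be_mem hq hD i) h
  obtain ⟨h2, h3, -⟩ := be_odd hq hD hi
  rwa [h2, h3] at h1

/-- Along an arc of the boundary which the piece does not meet the potential is constant. -/
theorem pot_arc {u : ℤ × ℤ → ℤ} (hu : PotD D A u) {i j : ℕ} (hij : i ≤ j)
    (h : ∀ m : ℕ, i ≤ m → m < j → be q m ∉ A) : u (q j) = u (q i) := by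
  induction j, hij using Nat.le_induction with
  | base => rfl
  | succ j hj ih =>
    rw [← ih fun m h1 h2 => h m h1 (by omega)]
    have := pot_side hq hD hu (h j hj (by omega))
    push_cast
    exact this

end

end Vale.Agent.P167.BR
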