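import Vale.Agent.P167.BR.Flat

/-!
# P167, SLE_6: factorisation of the functional

On the event that the pieces near `a` and near `b` are confined, the functional with the charges near
`a` and `b` is the product of the local functionals and of the indicator of the connection.
-/

namespace Vale.Agent.P167.BR

open Finset Vale.Agent.P145.FB Vale.Agent.P167.H632
open Vale.Agent.P167.E6 (IsPolygon Encloses dir face)
open Vale.Agent.P167.E2 Relation

set_option linter.unusedSectionVars false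
set_option linter.unusedVariables false

variable {ω : Cfg} {D Z : Finset (ℤ × ℤ)} {e e' : Ed} {A : Finset Ed} {b : ℤ × ℤ} {r R : ℤ}
  {p : ℤ × ℤ} {f g : ℤ × ℤ → ℝ}

/-! ### Masses -/

theorem mass_sub : mass D p (f - g) A = mass D p f A - mass D p g A := by
  classical
  simp only [mass, ← sum_sub_distrib, Pi.sub_apply]
  refine sum_congr rfl fun z _ => ?_
  split_ifs <;> simp

theorem mass_neg : mass D p (-f) A = -mass D p f A := by
  classical
  simp only [mass, ← sum_neg_distrib, Pi.neg_apply]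
  refine sum_congr rfl fun z _ => ?_
  split_ifs <;> simp

theorem sum_sites (hZD : Z ⊆ D) (hf : ∀ z, f z ≠ 0 → z ∈ sites Z) :
    ∑ z ∈ sites D, f z = ∑ᶠ z, f z := by
  symm
  refine finsum_eq_sum_of_support_subset f fun z hz => ?_
  exact mem_coe.2 (sites_mono hZD (hf z hz))

/-- The mass of a piece which separates all or none of the sites which carry the charge. -/
theorem mass_zone (hZD : Z ⊆ D) (hf : ∀ z, f z ≠ 0 → z ∈ sites Z) {P : Prop} [Decidable P]
    (h : ∀ z ∈ sites Z, (Sep D A z p ↔ P)) : mass D p f A = if P then ∑ᶠ z, f z else 0 := by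
  classical
  rw [mass]
  by_cases hP : P
  · rw [if_pos hP, ← sum_sites hZD hf]
    refine sum_congr rfl fun z _ => ?_
    by_cases hz : z ∈ sites Z
    · rw [if_pos ((h z hz).2 hP)]
    · have : f z = 0 := by
        by_contra h'
        exact hz (hf z h')
      rw [this, ite_self]
  · rw [if_neg hP]
    refine sum_eq_zero fun z _ => ?_
    by_cases hz : z ∈ sites Z
    · rw [if_neg (fun h' => hP ((h z hz).1 h'))]
    · have : f z = 0 := by
        by_contra h'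
        exact hz (hf z h')
      rw [this, ite_self]

/-- A piece which does not visit `Z` separates all or none of the sites of `Z` from `p`. -/
theorem sep_zone (hZD : Z ⊆ D) (hZ : ECon Z) (hV : ¬ Vz Z A) {s t : ℤ × ℤ} (hs : s ∈ sites Z)
    (ht : t ∈ sites Z) : Sep D A s p ↔ Sep D A t p := by
  constructor
  · rintro ⟨u, hu, h⟩
    exact ⟨u, hu, by rwa [pot_zone hu hZD hV (hZ t ht s hs)]⟩
  · rintro ⟨u, hu, h⟩
    exact ⟨u, hu, by rwa [pot_zone hu hZD hV (hZ s hs t ht)]⟩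

/-! ### Weights -/

theorem wl_zero : wl 0 = 1 := by
  rw [wl, add_zero, div_self]
  rw [Real.cos_pi_div_three]
  norm_num

theorem ws_zero : ws 0 = 1 := by
  rw [ws, add_zero, div_self]
  rw [Real.cos_pi_div_six]
  positivity

theorem ws_pos : ws (Real.pi / 3) = 0 := by
  have : Real.pi / 6 + Real.pi / 3 = Real.pi / 2 := by ring
  rw [ws, this, Real.cos_pi_div_two, zero_div]

theorem ws_neg : ws (-(Real.pi / 3)) = 1 := by
  have : Real.pi / 6 + -(Real.pi / 3) = -(Real.pi / 6) := by ring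
  rw [ws, this, Real.cos_neg, div_self]
  rw [Real.cos_pi_div_six]
  positivity

theorem wp_zero : wp D A 0 = 1 := by
  unfold wp
  split_ifs
  · exact wl_zero
  · exact ws_zero

/-! ### Bumps -/

theorem Bmp.sites {K : ℝ} (hK : 0 < K) (hr : 1 ≤ r) (hf : Bmp K b r f) (z : ℤ × ℤ)
    (hz : f z ≠ 0) : z ∈ sites (hbox b r) := by
  obtain ⟨h1, h2, h3, h4⟩ := hf.supp z hz
  rw [mem_sites_hbox hr]
  have h5 : (b.2 : ℝ) ≤ z.2 := by
    have : (0 : ℝ) ≤ r / K := by
      have : (0 : ℝ) ≤ r := by exact_mod_cast (by omega : (0 : ℤ) ≤ r)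
      positivity
    linarith
  exact ⟨h1, h2, by exact_mod_cast h5, h4⟩

variable {n : ℕ} {q : ZMod n → ℤ × ℤ} {k l : ℕ}

section

variable (hq : IsPolygon q) (hD : Encloses q D)
include hq hD

/-- Loops do not separate boundary sites. -/
theorem lp_bd {u : ℤ × ℤ → ℤ} (hA : A ∈ pcs ω D) (hu : PotD D A u) (hl : IsLp D A) (i : ℕ) :
    u (q i) = u (q 0) := by
  have := pot_arc hq hD hu (i := 0) (j := i) (Nat.zero_le _) ?_
  · simpa using this
  intro m _ _ hm
  rcases be_bd hq hD (m : ZMod n) with ⟨-, h⟩ | ⟨-, h⟩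
  · exact h (hl.tl hA hm)
  · exact h (hl _ hm)

section

variable (hF : Flt D (q l) R) (hR : 1 ≤ R) (hl : l < n) (h0 : q 0 ∉ sites (hbox (q l) R))
include hF hR hl h0

/-- Separation by an inner piece, in the domain and in the half box. -/
theorem sep_inn (hA : A ∈ pcs ω D) (hE : ∀ e ∈ A, e ∈ eds (hbox (q l) R))
    (hI : ∀ e ∈ A, Inn (q l) R e) {z : ℤ × ℤ} (hz : z ∈ sites (hbox (q l) R)) :
    Sep D A z (q 0) ↔ Sep (hbox (q l) R) A z (top (q l) R) := by
  have htop : top (q l) R ∈ sites (hbox (q l) R) := by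
    rw [mem_sites_hbox hR]
    simp only [top]
    omega
  constructor
  · rintro ⟨u, hu, h⟩
    refine ⟨u, fun e he => hu e (eds_mono (hbox_sub hF) he), ?_⟩
    rwa [pot_top hq hD hF hR hl h0 hu hE hI]
  · rintro ⟨u', hu', h⟩
    obtain ⟨u, hu⟩ := exists_pot hq hD hA
    refine ⟨u, hu, ?_⟩
    rw [← pot_top hq hD hF hR hl h0 hu hE hI]
    -- the two potentials differ by a constant in the half box
    have key : ∀ s t, ReflTransGen (Ec (hbox (q l) R)) s t → u s - u' s = u t - u' t := by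
      intro s t hst
      induction hst with
      | refl => rfl
      | tail _ h ih =>
        rw [ih]
        obtain ⟨e, he, h1⟩ := h
        have h2 := hu e (eds_mono (hbox_sub hF) he)
        have h3 := hu' e he
        rcases h1 with ⟨h1, h4⟩ | ⟨h1, h4⟩ <;> rw [h1, h4] at h2 h3 <;> omega
    have h1 := key _ _ (econ_hbox hR z hz _ htop)
    intro h2
    apply h
    omega

/-- Sites which are joined to a boundary site outside of the flat piece are not separated from the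
base point by an inner piece. -/
theorem sep_out (hE : ∀ e ∈ A, e ∈ eds (hbox (q l) R)) (hI : ∀ e ∈ A, Inn (q l) R e) {i : ℕ}
    (hi : i ≤ n) (h : (i : ℤ) ≤ l - R ∨ (l : ℤ) + R ≤ i) (hZD : Z ⊆ D) (hZ : ECon Z)
    (hV : ¬ Vz Z A) (hiZ : q i ∈ sites Z) {z : ℤ × ℤ} (hz : z ∈ sites Z) :
    ¬ Sep D A z (q 0) := by
  rintro ⟨u, hu, h1⟩
  apply h1
  rw [pot_zone hu hZD hV (hZ z hz _ hiZ), pot_out hq hD hF hR hl h0 hu hE hI hi h]

theorem mass_inn (hA : A ∈ pcs ω D) (hE : ∀ e ∈ A, e ∈ eds (hbox (q l) R))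
    (hI : ∀ e ∈ A, Inn (q l) R e) (hf : ∀ z, f z ≠ 0 → z ∈ sites (hbox (q l) R)) :
    mass D (q 0) f A = mass (hbox (q l) R) (top (q l) R) f A := by
  classical
  have h1 : ∀ (D' : Finset (ℤ × ℤ)) (p' : ℤ × ℤ), hbox (q l) R ⊆ D' → mass D' p' f A =
      ∑ z ∈ sites (hbox (q l) R), if Sep D' A z p' then f z else 0 := by
    intro D' p' hsub
    rw [mass]
    symm
    refine sum_subset (sites_mono hsub) fun z _ hz => ?_
    have : f z = 0 := by
      by_contra h'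
      exact hz (hf z h')
    rw [this, ite_self]
  rw [h1 D (q 0) (hbox_sub hF), h1 _ _ (Subset.refl _)]
  refine sum_congr rfl fun z hz => ?_
  have := sep_inn hq hD hF hR hl h0 hA hE hI hz
  by_cases h : Sep D A z (q 0)
  · rw [if_pos h, if_pos (this.1 h)]
  · rw [if_neg h, if_neg (fun h' => h (this.2 h'))]

theorem isLp_inn (hE : ∀ e ∈ A, e ∈ eds (hbox (q l) R)) (hI : ∀ e ∈ A, Inn (q l) R e) :
    IsLp D A ↔ IsLp (hbox (q l) R) A :=
  ⟨fun h e he => (hI e he).mem_hd hF (hE e he) (h e he),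
    fun h e he => hbox_sub hF (h e he)⟩

/-- The weight of an inner piece. -/
theorem wp_inn (hA : A ∈ pcs ω D) (hE : ∀ e ∈ A, e ∈ eds (hbox (q l) R))
    (hI : ∀ e ∈ A, Inn (q l) R e) (hf : ∀ z, f z ≠ 0 → z ∈ sites (hbox (q l) R)) :
    wp D A (mass D (q 0) f A) =
      wp (hbox (q l) R) A (mass (hbox (q l) R) (top (q l) R) f A) := by
  rw [mass_inn hq hD hF hR hl h0 hA hE hI hf]
  unfold wp
  have := isLp_inn hq hD hF hR hl h0 hE hI (A := A)
  by_cases h : IsLp D A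
  · rw [if_pos h, if_pos (this.1 h)]
  · rw [if_neg h, if_neg (fun h' => h (this.2 h'))]

/-- The pieces which visit the small half box, on `Iso`: they are inner. -/
theorem inn_of_iso (hr : r ≤ R) (hI : Iso (q l) r R ω) (hA : A ∈ pcs ω D)
    (hV : Vz (hbox (q l) r) A) : (∀ e ∈ A, e ∈ eds (hbox (q l) R)) ∧ ∀ e ∈ A, Inn (q l) R e := by
  obtain ⟨h1, h2⟩ := (iso_iff hF hr hI).1 ⟨hA, hV⟩
  exact ⟨fun e he => subset_eds h1 he, hI A h1 h2⟩

/-- The factor of the pieces which visit the half box. -/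
theorem prod_inn (hr : r ≤ R) (hI : Iso (q l) r R ω)
    (hf : ∀ z, f z ≠ 0 → z ∈ sites (hbox (q l) R)) :
    XZ D (q 0) f (hbox (q l) r) ω = XB (q l) r R f ω := by
  classical
  rw [XB, if_pos hI, XZ, XZ]
  refine prod_congr ?_ ?_
  · ext A
    rw [mem_filter, mem_filter]
    exact iso_iff hF hr hI
  · intro A hA
    rw [mem_filter] at hA
    obtain ⟨h1, h2⟩ := (iso_iff hF hr hI).2 hA
    obtain ⟨h3, h4⟩ := inn_of_iso hq hD hF hR hl h0 hr hI h1 h2
    exact wp_inn hq hD hF hR hl h0 h1 h3 h4 hf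

/-- **One bump.** -/
theorem split_one (hr : 1 ≤ r) (hrR : r ≤ R) (hI : Iso (q l) r R ω)
    (hf : ∀ z, f z ≠ 0 → z ∈ sites (hbox (q l) r)) (hs : ∑ᶠ z, f z = -(Real.pi / 3)) :
    XD D (q 0) f ω = XB (q l) r R f ω := by
  classical
  have hf' : ∀ z, f z ≠ 0 → z ∈ sites (hbox (q l) R) := fun z hz =>
    sites_mono (hbox_mono hrR) (hf z hz)
  rw [← prod_inn hq hD hF hR hl h0 hrR hI hf', XD, XZ,
    ← prod_filter_mul_prod_filter_not (pcs ω D) (Vz (hbox (q l) r))]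
  rw [prod_eq_one (s := (pcs ω D).filter fun A => ¬ Vz (hbox (q l) r) A), mul_one]
  intro A hA
  rw [mem_filter] at hA
  have hZD : hbox (q l) r ⊆ D := (hbox_mono hrR).trans (hbox_sub hF)
  have hqs : q l ∈ sites (hbox (q l) r) := by
    rw [mem_sites_hbox hr]
    omega
  rw [mass_zone hZD hf (P := Sep D A (q l) (q 0))
    (fun z hz => sep_zone hZD (econ_hbox hr) hA.2 hz hqs), hs]
  by_cases hlp : IsLp D A
  · rw [if_neg, wp_zero]
    rintro ⟨u, hu, h⟩
    exact h (lp_bd hq hD hA.1 hu hlp l)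
  · split_ifs
    · rw [wp, if_neg hlp, ws_neg]
    · exact wp_zero

end

/-! ### Two bumps -/

variable {Ra Rb ra rb : ℤ}

theorem far_index (hFa : Flt D (q k) Ra) (hFb : Flt D (q l) Rb) (hRa : 1 ≤ Ra) (hRb : 1 ≤ Rb)
    (hd : Disjoint (hbox (q k) Ra) (hbox (q l) Rb)) :
    (k : ℤ) ≤ l - Rb ∨ (l : ℤ) + Rb ≤ k := by
  by_contra hcon
  push Not at hcon
  obtain ⟨h1, h2⟩ := hcon
  obtain ⟨j, hj1, hj2, hj3⟩ : ∃ j : ℤ, -Rb < j ∧ j < Rb ∧ q k = q l + (j, 0) := by
    refine ⟨(k : ℤ) - l, by omega, by omega, ?_⟩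
    rcases le_total l k with h | h
    · have h3 := (walk hq hD hFb (k - l) (by omega)).1
      rw [← Nat.cast_add, Nat.add_sub_cancel' h] at h3
      rw [h3]
      congr 2
      omega
    · have h3 := (walk hq hD hFb (l - k) (by omega)).2
      rw [← Nat.cast_sub (by omega), Nat.sub_sub_self h] at h3
      rw [h3]
      ext
      · simp only [Prod.fst_sub, Prod.fst_add]
        omega
      · simp
  have h3 : q k ∈ hbox (q k) Ra := by rw [mem_hbox]; omega
  have h4 : q k ∈ hbox (q l) Rb := by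
    rw [mem_hbox, hj3]
    simp only [Prod.fst_add, Prod.snd_add]
    omega
  exact disjoint_left.1 hd h3 h4

omit hq hD in
theorem not_vz_far (hFa : Flt D (q k) Ra) (hFb : Flt D (q l) Rb)
    (hd : Disjoint (hbox (q k) Ra) (hbox (q l) Rb)) (hE : ∀ e ∈ A, e ∈ eds (hbox (q l) Rb))
    (hI : ∀ e ∈ A, Inn (q l) Rb e) : ¬ Vz (hbox (q k) Ra) A := by
  rintro ⟨e, he, h1⟩
  rcases mem_eds.1 h1 with h2 | h2
  · exact disjoint_left.1 hd h2 ((hI e he).mem_hd hFb (hE e he) (hbox_sub hFa h2))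
  · exact disjoint_left.1 hd h2 ((hI e he).mem_tl hFb (hE e he) (hbox_sub hFa h2))

/-- No piece off `Z` separates `b` from `p` and not `a`. -/
def Gd (D Z : Finset (ℤ × ℤ)) (p a b : ℤ × ℤ) (ω : Cfg) : Prop :=
  ∀ A ∈ pcs ω D, ¬ Vz Z A → ¬ (Sep D A b p ∧ ¬ Sep D A a p)

omit hq hD in
theorem Vz.mono {Z Z' : Finset (ℤ × ℤ)} (h : Z ⊆ Z') (hV : Vz Z A) : Vz Z' A := by
  obtain ⟨e, he, h1⟩ := hV
  exact ⟨e, he, eds_mono h h1⟩

theorem gd_iff (hF : Flt D (q l) R) (hr : 1 ≤ r) (hrR : r ≤ R) (hkl : k ≤ l) (hl : l < n) :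
    Gd D (hbox (q l) r) (q 0) (q k) (q l) ω ↔
      (Jn true D ω (sites (hbox (q l) r)) (arc q k) ∨
        Jn false D ω (sites (hbox (q l) r)) (arc q k)) := by
  have hZD : hbox (q l) r ⊆ D := (hbox_mono hrR).trans (hbox_sub hF)
  have hqs : q l ∈ sites (hbox (q l) r) := by
    rw [mem_sites_hbox hr]
    omega
  constructor
  · intro h
    exact join_of_no_strand hq hD hqs h
  · rintro (h | h) A hA hV
    · exact no_strand_of_join hq hD hZD (econ_hbox hr) hkl hl hqs h hA hV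
    · exact no_strand_of_join hq hD hZD (econ_hbox hr) hkl hl hqs h hA hV

theorem not_both (hF : Flt D (q l) R) (hr : 1 ≤ r) (hrR : r ≤ R) (hl : l < n)
    (h0 : q 0 ∉ sites (hbox (q l) R)) (hkl : (k : ℤ) ≤ l - R) (hI : Iso (q l) r R ω) :
    ¬ (Jn true D ω (sites (hbox (q l) r)) (arc q k) ∧
        Jn false D ω (sites (hbox (q l) r)) (arc q k)) := by
  rintro ⟨h1, h2⟩
  have hZD : hbox (q l) r ⊆ D := (hbox_mono hrR).trans (hbox_sub hF)
  obtain ⟨A, hA, hV, m, hm, hmA⟩ := end_of_two hq hD hZD (econ_hbox hr) h1 h2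
  obtain ⟨h3, h4⟩ := inn_of_iso hq hD hF (by omega) hl h0 hrR hI hA hV
  have := bd_inn hq hD hF (by omega) hl h0 (show m < n by omega) (h3 _ hmA) (h4 _ hmA)
  omega

/-- A piece which visits the zone of `l` does not feel the charge near `k`. -/
theorem vz_one {ra rb Ra' : ℤ} (hl : l < n) (hk : k < n)
    (hFa : Flt D (q k) Ra') (hFb : Flt D (q l) Rb) (hra : 1 ≤ ra) (hraR : ra ≤ Ra')
    (hrb : 1 ≤ rb) (hrbR : rb ≤ Rb) (hd : Disjoint (hbox (q k) Ra') (hbox (q l) Rb))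
    (hb0 : q 0 ∉ sites (hbox (q l) Rb)) (hIb : Iso (q l) rb Rb ω)
    (hfa : ∀ z, f z ≠ 0 → z ∈ sites (hbox (q k) ra)) (hA : A ∈ pcs ω D)
    (hV : Vz (hbox (q l) rb) A) : mass D (q 0) f A = 0 ∧ ¬ Vz (hbox (q k) ra) A ∧
      ¬ Sep D A (q k) (q 0) := by
  classical
  have hZa : hbox (q k) ra ⊆ D := (hbox_mono hraR).trans (hbox_sub hFa)
  have hqa : q k ∈ sites (hbox (q k) ra) := by
    rw [mem_sites_hbox hra]
    omega
  have hki : (k : ℤ) ≤ l - Rb ∨ (l : ℤ) + Rb ≤ k :=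
    far_index hq hD hFa hFb (by omega) (by omega) hd
  obtain ⟨h3, h4⟩ := inn_of_iso hq hD hFb (by omega) hl hb0 hrbR hIb hA hV
  have h5 : ¬ Vz (hbox (q k) ra) A := fun h =>
    not_vz_far hFa hFb hd h3 h4 (h.mono (hbox_mono hraR))
  have h6 : ∀ z ∈ sites (hbox (q k) ra), ¬ Sep D A z (q 0) := fun z hz =>
    sep_out hq hD hFb (by omega) hl hb0 h3 h4 hk.le hki hZa (econ_hbox hra) h5 hqa hz
  refine ⟨?_, h5, h6 _ hqa⟩
  rw [mass_zone hZa hfa (P := False), if_neg not_false]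
  intro z hz
  exact iff_of_false (h6 z hz) not_false

/-- The weight of a piece which visits neither zone. -/
theorem wp_neither {fa fb : ℤ × ℤ → ℝ} {Za Zb : Finset (ℤ × ℤ)} (hZa : Za ⊆ D) (hZb : Zb ⊆ D)
    (hCa : ECon Za) (hCb : ECon Zb) (hqa : q k ∈ sites Za) (hqb : q l ∈ sites Zb)
    (hfa : ∀ z, fa z ≠ 0 → z ∈ sites Za) (hsa : ∑ᶠ z, fa z = Real.pi / 3)
    (hfb : ∀ z, fb z ≠ 0 → z ∈ sites Zb) (hsb : ∑ᶠ z, fb z = Real.pi / 3)
    (hA : A ∈ pcs ω D) (hVb : ¬ Vz Zb A) (hVa : ¬ Vz Za A)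
    [Decidable (Sep D A (q l) (q 0) ∧ ¬ Sep D A (q k) (q 0))] :
    wp D A (mass D (q 0) (fb - fa) A) =
      if Sep D A (q l) (q 0) ∧ ¬ Sep D A (q k) (q 0) then 0 else 1 := by
  classical
  rw [mass_sub, mass_zone hZb hfb (P := Sep D A (q l) (q 0))
    (fun z hz => sep_zone hZb hCb hVb hz hqb), hsb,
    mass_zone hZa hfa (P := Sep D A (q k) (q 0))
    (fun z hz => sep_zone hZa hCa hVa hz hqa), hsa]
  by_cases hlp : IsLp D A
  · have h1 : ¬ Sep D A (q l) (q 0) := by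
      rintro ⟨u, hu, h⟩
      exact h (lp_bd hq hD hA hu hlp l)
    have h2 : ¬ Sep D A (q k) (q 0) := by
      rintro ⟨u, hu, h⟩
      exact h (lp_bd hq hD hA hu hlp k)
    rw [if_neg h1, if_neg h2, sub_zero, wp_zero, if_neg (fun h => h1 h.1)]
  · by_cases h1 : Sep D A (q l) (q 0) <;> by_cases h2 : Sep D A (q k) (q 0)
    · rw [if_pos h1, if_pos h2, sub_self, wp_zero, if_neg (fun h => h.2 h2)]
    · rw [if_pos h1, if_neg h2, sub_zero, wp, if_neg hlp, ws_pos, if_pos ⟨h1, h2⟩]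
    · rw [if_neg h1, if_pos h2, zero_sub, wp, if_neg hlp, ws_neg, if_neg (fun h => h1 h.1)]
    · rw [if_neg h1, if_neg h2, sub_zero, wp_zero, if_neg (fun h => h1 h.1)]

omit hq hD in
/-- Splitting the product. -/
theorem prod_split {F : Finset Ed → ℝ} {P Q : Finset Ed → Prop} [DecidablePred P]
    [DecidablePred Q] {S : Finset (Finset Ed)} (hPQ : ∀ A ∈ S, Q A → ¬ P A) :
    ∏ A ∈ S, F A = (∏ A ∈ S.filter P, F A) * ((∏ A ∈ S.filter Q, F A) *
      ∏ A ∈ S.filter fun A => ¬ P A ∧ ¬ Q A, F A) := by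
  rw [← prod_filter_mul_prod_filter_not S P,
    ← prod_filter_mul_prod_filter_not (S.filter fun A => ¬ P A) Q, filter_filter, filter_filter]
  congr 2
  refine prod_congr ?_ fun _ _ => rfl
  ext A
  rw [mem_filter, mem_filter]
  constructor
  · rintro ⟨h1, -, h3⟩
    exact ⟨h1, h3⟩
  · rintro ⟨h1, h3⟩
    exact ⟨h1, hPQ A h1 h3, h3⟩

/-- **Two bumps.** -/
theorem split_two {fa fb : ℤ × ℤ → ℝ} {Ra' : ℤ} (hkl : k < l) (hl : l < n)
    (hFa' : Flt D (q k) Ra') (hFb : Flt D (q l) Rb) (hra : 1 ≤ ra) (hraR : ra ≤ Ra')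
    (hrb : 1 ≤ rb) (hrbR : rb ≤ Rb) (hd' : Disjoint (hbox (q k) Ra') (hbox (q l) Rb))
    (ha0' : q 0 ∉ sites (hbox (q k) Ra')) (hb0 : q 0 ∉ sites (hbox (q l) Rb))
    (hfa : ∀ z, fa z ≠ 0 → z ∈ sites (hbox (q k) ra)) (hsa : ∑ᶠ z, fa z = Real.pi / 3)
    (hfb : ∀ z, fb z ≠ 0 → z ∈ sites (hbox (q l) rb)) (hsb : ∑ᶠ z, fb z = Real.pi / 3)
    (hIa : Iso (q k) ra Ra' ω) (hIb : Iso (q l) rb Rb ω)
    [Decidable (Gd D (hbox (q l) rb) (q 0) (q k) (q l) ω)] :
    XD D (q 0) (fb - fa) ω = XB (q l) rb Rb fb ω * XB (q k) ra Ra' (-fa) ω *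
      (if Gd D (hbox (q l) rb) (q 0) (q k) (q l) ω then 1 else 0) := by
  classical
  have hk : k < n := by omega
  have hZa : hbox (q k) ra ⊆ D := (hbox_mono hraR).trans (hbox_sub hFa')
  have hZb : hbox (q l) rb ⊆ D := (hbox_mono hrbR).trans (hbox_sub hFb)
  have hqa : q k ∈ sites (hbox (q k) ra) := by
    rw [mem_sites_hbox hra]
    omega
  have hqb : q l ∈ sites (hbox (q l) rb) := by
    rw [mem_sites_hbox hrb]
    omega
  have hb1 : ∀ A ∈ pcs ω D, Vz (hbox (q l) rb) A → mass D (q 0) fa A = 0 ∧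
      ¬ Vz (hbox (q k) ra) A ∧ ¬ Sep D A (q k) (q 0) := fun A hA hV =>
    vz_one hq hD hl hk hFa' hFb hra hraR hrb hrbR hd' hb0 hIb hfa hA hV
  have ha1 : ∀ A ∈ pcs ω D, Vz (hbox (q k) ra) A → mass D (q 0) fb A = 0 ∧
      ¬ Vz (hbox (q l) rb) A ∧ ¬ Sep D A (q l) (q 0) := fun A hA hV =>
    vz_one hq hD hk hl hFb hFa' hrb hrbR hra hraR hd'.symm ha0' hIa hfb hA hV
  have hfb' : ∀ z, fb z ≠ 0 → z ∈ sites (hbox (q l) Rb) := fun z hz =>
    sites_mono (hbox_mono hrbR) (hfb z hz)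
  have hfa' : ∀ z, (-fa) z ≠ 0 → z ∈ sites (hbox (q k) Ra') := fun z hz =>
    sites_mono (hbox_mono hraR) (hfa z (fun h => hz (by simp [h])))
  have e1 : XZ D (q 0) fb (hbox (q l) rb) ω = XB (q l) rb Rb fb ω :=
    prod_inn hq hD hFb (by omega) hl hb0 hrbR hIb hfb'
  have e2 : XZ D (q 0) (-fa) (hbox (q k) ra) ω = XB (q k) ra Ra' (-fa) ω :=
    prod_inn hq hD hFa' (by omega) hk ha0' hraR hIa hfa'
  rw [← e1, ← e2, XD, prod_split (P := Vz (hbox (q l) rb)) (Q := Vz (hbox (q k) ra))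
    (fun A hA h => (ha1 A hA h).2.1), mul_assoc]
  congr 1
  · rw [XZ]
    refine prod_congr rfl fun A hA => ?_
    rw [mem_filter] at hA
    rw [mass_sub, (hb1 A hA.1 hA.2).1, sub_zero]
  congr 1
  · rw [XZ]
    refine prod_congr rfl fun A hA => ?_
    rw [mem_filter] at hA
    rw [mass_sub, mass_neg, (ha1 A hA.1 hA.2).1, zero_sub]
  -- the pieces which visit neither zone
  have hw : ∀ A ∈ (pcs ω D).filter (fun A => ¬ Vz (hbox (q l) rb) A ∧ ¬ Vz (hbox (q k) ra) A),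
      wp D A (mass D (q 0) (fb - fa) A) =
        if Sep D A (q l) (q 0) ∧ ¬ Sep D A (q k) (q 0) then 0 else 1 := fun A hA => by
    rw [mem_filter] at hA
    exact wp_neither hq hD hZa hZb (econ_hbox hra) (econ_hbox hrb) hqa hqb hfa hsa hfb hsb hA.1
      hA.2.1 hA.2.2
  rw [prod_congr rfl hw]
  split_ifs with hG
  · refine prod_eq_one fun A hA => ?_
    rw [mem_filter] at hA
    rw [if_neg (hG A hA.1 hA.2.1)]
  · unfold Gd at hG
    push Not at hG
    obtain ⟨A, hA, hV, h1, h2⟩ := hG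
    refine prod_eq_zero (i := A) ?_ (if_pos ⟨h1, h2⟩)
    rw [mem_filter]
    exact ⟨hA, hV, fun h => (ha1 A hA h).2.2 h1⟩

end

end Vale.Agent.P167.BR
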